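import Crest.Agent.R213.E.EDefs

/-! Row 213, PART E: a `C³` solution on `(0,∞)` is `C^∞` (helper510). -/

set_option autoImplicit false

open Set MeasureTheory Filter Topology

noncomputable section

namespace Crest.Agent.R213.E

namespace Boot

theorem succ {n : ℕ} {f f1 : ℝ → ℝ} (hd : ∀ y, 0 < y → HasDerivAt f (f1 y) y)
    (h : ContDiffOn ℝ n f1 (Ioi 0)) : ContDiffOn ℝ (n + 1 : ℕ) f (Ioi 0) := by
  push_cast
  rw [contDiffOn_succ_iff_deriv_of_isOpen isOpen_Ioi]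
  refine ⟨fun y hy => (hd y hy).differentiableAt.differentiableWithinAt, by simp, ?_⟩
  exact h.congr fun y hy => (hd y hy).deriv

theorem all {c : ℝ} {g g1 g2 g3 : ℝ → ℝ} (hC : C3On (Ioi 0) g g1 g2 g3)
    (hO : OdeOn (Ioi 0) c g g1 g2 g3) (hpos : ∀ y, 0 < y → 0 < g y) (n : ℕ) :
    ContDiffOn ℝ n g2 (Ioi 0) ∧ ContDiffOn ℝ n g1 (Ioi 0) ∧ ContDiffOn ℝ n g (Ioi 0) := by
  have h3 : ∀ y ∈ Ioi (0 : ℝ), g3 y = -((21 * y ^ 2 * g2 y + 90 * y * g1 y + 90 * (1 - g y) +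
      y ^ 2 / 2 * (1 / c - (g y)⁻¹)) * (y ^ 3)⁻¹) := by
    intro y hy
    have hy' : (0 : ℝ) < y := hy
    have := hO y hy
    simp only [resid] at this
    have hg := (hpos y hy').ne'
    rw [← div_eq_mul_inv, ← neg_div, eq_div_iff (pow_pos hy' 3).ne', inv_eq_one_div]
    linarith
  induction n with
  | zero =>
    refine ⟨?_, ?_, ?_⟩
    · exact contDiffOn_zero.2 fun y hy => (hC.d3 y hy).continuousAt.continuousWithinAt
    · exact contDiffOn_zero.2 fun y hy => (hC.d2 y hy).continuousAt.continuousWithinAt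
    · exact contDiffOn_zero.2 fun y hy => (hC.d1 y hy).continuousAt.continuousWithinAt
  | succ n ih =>
    obtain ⟨i2, i1, i0⟩ := ih
    have hid : ContDiffOn ℝ n (fun y : ℝ => y) (Ioi 0) := contDiffOn_id
    have hinv : ContDiffOn ℝ n (fun y : ℝ => (y ^ 3)⁻¹) (Ioi 0) :=
      (hid.pow 3).inv fun y hy => (pow_pos (show (0 : ℝ) < y from hy) 3).ne'
    have hginv : ContDiffOn ℝ n (fun y : ℝ => (g y)⁻¹) (Ioi 0) :=
      i0.inv fun y hy => (hpos y hy).ne'
    have c3 : ContDiffOn ℝ n g3 (Ioi 0) := by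
      refine ContDiffOn.congr ?_ h3
      have a1 := (contDiffOn_const (c := (21 : ℝ)) (s := Ioi (0 : ℝ)) (n := n)).mul (hid.pow 2)
      have a2 := (contDiffOn_const (c := (90 : ℝ)) (s := Ioi (0 : ℝ)) (n := n)).mul hid
      have a3 := (contDiffOn_const (c := (90 : ℝ)) (s := Ioi (0 : ℝ)) (n := n)).mul
        ((contDiffOn_const (c := (1 : ℝ)) (s := Ioi (0 : ℝ)) (n := n)).sub i0)
      have a4 := ((hid.pow 2).div_const 2).mul
        ((contDiffOn_const (c := 1 / c) (s := Ioi (0 : ℝ)) (n := n)).sub hginv)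
      exact (((((a1.mul i2).add (a2.mul i1)).add a3).add a4).mul hinv).neg
    have n2 := succ (fun y hy => hC.d3 y hy) c3
    have n1 := succ (fun y hy => hC.d2 y hy) i2
    have n0 := succ (fun y hy => hC.d1 y hy) i1
    exact ⟨n2, n1, n0⟩

/-- a `C³` solution of the soliton equation on `(0,∞)` is `C^∞`. (duplicate of `BootSm.lean`, kept in
the sub-namespace `Boot`.) -/
theorem contDiffOn_of_ode {c : ℝ} {g g1 g2 g3 : ℝ → ℝ} (hC : C3On (Ioi 0) g g1 g2 g3)
    (hO : OdeOn (Ioi 0) c g g1 g2 g3) (hpos : ∀ y, 0 < y → 0 < g y) :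
    ContDiffOn ℝ (⊤ : ℕ∞) g (Ioi 0) :=
  contDiffOn_infty.2 fun n => (Boot.all hC hO hpos n).2.2

end Boot

end Crest.Agent.R213.E
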