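import Crest.Agent.R213.E.EDefs

/-! Row 213, PART E: a classical positive solution is smooth on `(0,∞)` (helper798). -/

set_option autoImplicit false

open Set MeasureTheory Filter Topology

noncomputable section

namespace Crest.Agent.R213.E

namespace BootSm

theorem step {n : ℕ} {f f' : ℝ → ℝ} (hd : ∀ y ∈ Ioi (0 : ℝ), HasDerivAt f (f' y) y)
    (h : ContDiffOn ℝ n f' (Ioi 0)) : ContDiffOn ℝ (n + 1 : ℕ) f (Ioi 0) := by
  push_cast
  rw [contDiffOn_succ_iff_deriv_of_isOpen isOpen_Ioi]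
  refine ⟨fun y hy => (hd y hy).differentiableAt.differentiableWithinAt, by simp, ?_⟩
  exact h.congr fun y hy => (hd y hy).deriv

/-- smoothness of classical solutions (same statement as `E/Boot.lean`). -/
theorem contDiffOn_of_ode {c : ℝ} {g g1 g2 g3 : ℝ → ℝ} (hC : C3On (Ioi 0) g g1 g2 g3)
    (hO : OdeOn (Ioi 0) c g g1 g2 g3) (hpos : ∀ y, 0 < y → 0 < g y) :
    ContDiffOn ℝ (⊤ : ℕ∞) g (Ioi 0) := by
  have he : ∀ y ∈ Ioi (0 : ℝ), g3 y = -(21 * y ^ 2 * g2 y + 90 * y * g1 y + 90 * (1 - g y) +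
      y ^ 2 / 2 * (1 / c - 1 / g y)) / y ^ 3 := by
    intro y hy
    have hy0 : (0 : ℝ) < y := hy
    have h1 := hO y hy
    unfold resid at h1
    rw [eq_div_iff (by positivity)]
    linear_combination h1
  have key : ∀ n : ℕ, ContDiffOn ℝ n g (Ioi 0) ∧ ContDiffOn ℝ n g1 (Ioi 0) ∧
      ContDiffOn ℝ n g2 (Ioi 0) := by
    intro n
    induction n with
    | zero =>
      simp only [CharP.cast_eq_zero, contDiffOn_zero]
      exact ⟨fun y hy => (hC.d1 y hy).continuousAt.continuousWithinAt,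
        fun y hy => (hC.d2 y hy).continuousAt.continuousWithinAt,
        fun y hy => (hC.d3 y hy).continuousAt.continuousWithinAt⟩
    | succ n ih =>
      obtain ⟨i0, i1, i2⟩ := ih
      have hy : ContDiffOn ℝ n (fun y : ℝ => y) (Ioi 0) := contDiffOn_id
      have hinv : ContDiffOn ℝ n (fun y => 1 / g y) (Ioi 0) :=
        contDiffOn_const.div i0 fun y hy => (hpos y hy).ne'
      have i3 : ContDiffOn ℝ n g3 (Ioi 0) := by
        refine ContDiffOn.congr (f := fun y => -(21 * y ^ 2 * g2 y + 90 * y * g1 y +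
          90 * (1 - g y) + y ^ 2 / 2 * (1 / c - 1 / g y)) / y ^ 3) ?_ he
        refine ContDiffOn.div (ContDiffOn.neg ?_) (hy.pow 3)
          fun y hy => pow_ne_zero 3 (ne_of_gt hy)
        exact ((((contDiffOn_const.mul (hy.pow 2)).mul i2).add
          ((contDiffOn_const.mul hy).mul i1)).add
          (contDiffOn_const.mul (contDiffOn_const.sub i0))).add
          (((hy.pow 2).div_const 2).mul (contDiffOn_const.sub hinv))
      exact ⟨step hC.d1 i1, step hC.d2 i2, step hC.d3 i3⟩
  exact contDiffOn_infty.2 fun n => (key n).1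

end BootSm

end Crest.Agent.R213.E
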