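import Crest.Agent.R213.E.CCheck0

/-! # Row 213, part E: kernel evaluation of the residual checks (helper223) -/

set_option autoImplicit false
set_option maxRecDepth 100000

namespace Crest.Agent.R213.E.C.Kr

theorem allG : cells.all okG = true := by decide +kernel
theorem allZ : (cells.take 1).all okZ = true := by decide +kernel
theorem allR1 : ((cells.drop 0).take 14).all okR = true := by decide +kernel
theorem allR2 : ((cells.drop 14).take 14).all okR = true := by decide +kernel
theorem allR3 : (cells.drop 28).all okR = true := by decide +kernel

end Crest.Agent.R213.E.C.Kr
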