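import Crest.Agent.R213.E.CCheck0

/-! # Row 213, part E: kernel evaluation of the coercivity checks (helper223) -/

set_option autoImplicit false
set_option maxRecDepth 100000

namespace Crest.Agent.R213.E.C.Kr

theorem allB1 : ((cells.drop 0).take 14).all okB = true := by decide +kernel
theorem allB2 : ((cells.drop 14).take 14).all okB = true := by decide +kernel
theorem allB3 : (cells.drop 28).all okB = true := by decide +kernel

end Crest.Agent.R213.E.C.Kr
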