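import Mathlib

/-!
# Row 213, part E: abstract existence theory for the profile — definitions

`D = y^10 h`; the linear operator is `y D''' - 9 D'' + n(y) D` on `(0,∞)`, `D(0) = 0`
(the class allows `h ~ κ y^-9` at `0`, `κ = D'(0)`, and excludes `y^-10`).
Weight `χ = u^3`, `u = 1/(1+y²/b²)`.
-/

set_option autoImplicit false

open Set MeasureTheory Filter Topology

noncomputable section

namespace Crest.Agent.R213.E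

/-- `u = 1/(1+y²/b²)` -/
def uu (b y : ℝ) : ℝ := (1 + y ^ 2 / b ^ 2)⁻¹

/-- the weight `χ = (1+y²/b²)^{-3}` -/
def chi (b y : ℝ) : ℝ := uu b y ^ 3

/-- zero order coefficient of the energy identity (without the `n` part):
`∫ χ D (yD'''-9D'') dy = ∫ α χ (D' - eD)² dy + ∫ χ (bet0/y²) D² dy`. It equals `P(-m/2) - m''/2`,
`m = 13 + 6u`, `P(t) = (t-1)(t+9)(t+10)`, `' = y d/dy`. -/
def bet0 (b y : ℝ) : ℝ :=
  -(525 / 8) + 387 / 4 * uu b y + 45 / 2 * uu b y ^ 2 - 51 * uu b y ^ 3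

/-- weights: `p² ≤ χ (bet0/y² + n)` (coercivity), `q = χ/p` bounded, `≥ cq (1+y)^-3`. -/
structure WData (b n1 cq Cq : ℝ) (n p : ℝ → ℝ) : Prop where
  b_pos : 0 < b
  n_meas : Measurable n
  n_nonneg : ∀ y, 0 < y → 0 ≤ n y
  n_le : ∀ y, 0 < y → n y ≤ n1
  p_meas : Measurable p
  p_pos : ∀ y, 0 < y → 0 < p y
  cq_pos : 0 < cq
  q_low : ∀ y, 0 < y → cq ≤ chi b y / p y * (1 + y) ^ 3
  q_up : ∀ y, 0 < y → chi b y / p y ≤ Cq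
  coer : ∀ y, 0 < y → p y ^ 2 ≤ chi b y * (bet0 b y / y ^ 2 + n y)

/-- `Q(y) = ∫_y^∞ t^{-10} z(t) dt` -/
def QQ (z : ℝ → ℝ) (y : ℝ) : ℝ := ∫ t in Ioi y, (t ^ 10)⁻¹ * z t

/-- `D` is a solution of `y D''' - 9 D'' = z` with `D(0)=0`, `D'(0) = κ`, no growth from `t^{-10}z`. -/
structure Rep (κ : ℝ) (z D D1 : ℝ → ℝ) : Prop where
  int : ∀ y, 0 < y → IntegrableOn (fun t => (t ^ 10)⁻¹ * z t) (Ioi y)
  hD : ∀ y, 0 < y → HasDerivAt D (D1 y) y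
  hD1 : ∀ y, 0 < y → HasDerivAt D1 (-(y ^ 9 * QQ z y)) y
  lim0 : Tendsto D (𝓝[>] 0) (𝓝 0)
  lim1 : Tendsto D1 (𝓝[>] 0) (𝓝 κ)

/-- the nonlinear right hand side: `y D''' - 9D'' + n D = N c y D`, `c ∈ [c1,c2]`. -/
structure NLData (b : ℝ) (p : ℝ → ℝ) (c1 c2 η M : ℝ) (N : ℝ → ℝ → ℝ → ℝ) (F : ℝ → ℝ) : Prop where
  c_le : c1 ≤ c2
  η_nonneg : 0 ≤ η
  η_lt : η < 1
  M_nonneg : 0 ≤ M
  meas : ∀ c ∈ Icc c1 c2, ∀ D : ℝ, Measurable (fun y => N c y D)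
  lip : ∀ c ∈ Icc c1 c2, ∀ y, 0 < y → ∀ D D' : ℝ,
    |N c y D - N c y D'| ≤ η * (p y ^ 2 / chi b y) * |D - D'|
  F_meas : Measurable F
  F_bd : ∀ c ∈ Icc c1 c2, ∀ y, 0 < y → |N c y 0| ≤ F y
  F_int : IntegrableOn (fun y => (chi b y / p y * F y) ^ 2) (Ioi 0)
  F_M : ∫ y in Ioi (0 : ℝ), (chi b y / p y * F y) ^ 2 ≤ M ^ 2
  cont : ∀ y, 0 < y → ∀ D : ℝ, ContinuousOn (fun c => N c y D) (Icc c1 c2)

end Crest.Agent.R213.E
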