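import Crest.Agent.R213.Defs
import Crest.Agent.R213.E.NLDefs

/-! Row 213, PART E (soliton profile): shared definitions (helper9, E captain).
`n = 10`, `θ = y d/dy`, `P(t) = (t-1)(t+9)(t+10)`, `P(θ)g = y³g'''+21y²g''+90yg'-90g`.

Chain: `Cert` (E-CERT) → (`nl_exists`, `pairing`: E-NL) `Mid` → `Soliton` (E-ZERO, E-INF). -/

set_option autoImplicit false

open Set MeasureTheory Filter Topology

noncomputable section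

namespace Crest.Agent.R213.E

/-- `g` has derivatives `g1, g2, g3` on `s`. -/
structure C3On (s : Set ℝ) (g g1 g2 g3 : ℝ → ℝ) : Prop where
  d1 : ∀ y ∈ s, HasDerivAt g (g1 y) y
  d2 : ∀ y ∈ s, HasDerivAt g1 (g2 y) y
  d3 : ∀ y ∈ s, HasDerivAt g2 (g3 y) y

/-- left hand side of the soliton equation. -/
def resid (c y a a1 a2 a3 : ℝ) : ℝ :=
  y ^ 3 * a3 + 21 * y ^ 2 * a2 + 90 * y * a1 + 90 * (1 - a) + y ^ 2 / 2 * (1 / c - 1 / a)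

/-- the soliton equation on `s`. -/
def OdeOn (s : Set ℝ) (c : ℝ) (g g1 g2 g3 : ℝ → ℝ) : Prop :=
  ∀ y ∈ s, resid c y (g y) (g1 y) (g2 y) (g3 y) = 0

/-- formal series at infinity `g ~ c + b1/y² + b2/y⁴ + b3/y⁶ + b4/y⁸ + ...` -/
def b1 (c : ℝ) : ℝ := -180 * c ^ 2 * (1 - c)
def b2 (c : ℝ) : ℝ := -c * b1 c * (180 - 516 * c)
def b3 (c : ℝ) : ℝ := -c * (b2 c * (180 - 480 * c) - 336 * (b1 c) ^ 2)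

/-- the exact truncated series of order 3 at infinity. -/
def S3 (c y : ℝ) : ℝ := c + b1 c / y ^ 2 + b2 c / y ^ 4 + b3 c / y ^ 6

/-- the Volterra kernel at `0` (nonnegative, integral `1/132`). -/
def kV (r : ℝ) : ℝ := 1 / 110 - r ^ 10 / 10 + r ^ 11 / 11

/-- the Volterra form of the equation near `0`, with `g'(0) = -A`. -/
def VoltOn (s : Set ℝ) (c A : ℝ) (g : ℝ → ℝ) : Prop :=
  ∀ y ∈ s, g y = 1 - A * y - y ^ 2 / 2 * ∫ r in (0 : ℝ)..1, kV r * (1 / c - 1 / g (r * y))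

/-- output of the existence part (E-NL, E-CERT): a classical bounded positive solution on
`(0,∞)` (hence regular at `0`) in the weighted class at infinity. -/
structure Mid (c : ℝ) (g g1 g2 g3 : ℝ → ℝ) : Prop where
  c_lo : 7 / 10 ≤ c
  c_hi : c ≤ 3 / 4
  C3 : C3On (Ioi 0) g g1 g2 g3
  ode : OdeOn (Ioi 0) c g g1 g2 g3
  lower : ∀ y, 0 < y → 1 / 10 ≤ g y
  upper : ∀ y, 0 < y → g y ≤ 2
  at_one : g 1 ≤ 9 / 10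
  tail : IntegrableOn (fun y => y ^ 14 * (g y - S3 c y) ^ 2) (Ioi 1)

/-! ### Certificate -/

/-- `n = 1/(2 g0²)` -/
def nn (g0 : ℝ → ℝ) (y : ℝ) : ℝ := 1 / (2 * g0 y ^ 2)

/-- truncation to `[-m,m]` -/
def clamp (m x : ℝ) : ℝ := max (-m) (min m x)

/-- right hand side `N` in `y D''' - 9D'' + nn D = N c y D`, `g = G c y + D/y^10` (unclamped where
`|D| ≤ m y^10`): there it is equivalent to the soliton equation for `g`. -/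
def NN (g0 : ℝ → ℝ) (m : ℝ) (G G1 G2 G3 : ℝ → ℝ → ℝ) (c y D : ℝ) : ℝ :=
  if 0 < y then
    nn g0 y * (y ^ 10 * clamp m (D / y ^ 10))
      + y ^ 10 / 2 * (1 / (G c y + clamp m (D / y ^ 10)) - 1 / G c y)
      - y ^ 8 * resid c y (G c y) (G1 c y) (G2 c y) (G3 c y)
  else 0

/-- all constants of the certificate -/
structure Cst where
  (c0 δ b n1 cq Cq η M m ρ ε Y K1 K2 K : ℝ)

/-- What E-CERT has to deliver.  `g0 = G c0`. -/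
structure Cert (k : Cst) (p R : ℝ → ℝ) (G G1 G2 G3 : ℝ → ℝ → ℝ) (ψ ψ1 ψ2 ψ3 : ℝ → ℝ) : Prop where
  δ_pos : 0 < k.δ
  c_lo : 7 / 10 ≤ k.c0 - k.δ
  c_hi : k.c0 + k.δ ≤ 3 / 4
  -- the family of base profiles
  G_C3 : ∀ c ∈ Icc (k.c0 - k.δ) (k.c0 + k.δ), C3On (Ioi 0) (G c) (G1 c) (G2 c) (G3 c)
  G3_cont : ∀ c ∈ Icc (k.c0 - k.δ) (k.c0 + k.δ), ContinuousOn (G3 c) (Ioi 0)
  G_cc : ∀ y, 0 < y → ContinuousOn (fun c => G c y) (Icc (k.c0 - k.δ) (k.c0 + k.δ))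
  res_cc : ∀ y, 0 < y → ContinuousOn (fun c => resid c y (G c y) (G1 c y) (G2 c y) (G3 c y))
    (Icc (k.c0 - k.δ) (k.c0 + k.δ))
  m_pos : 0 < k.m
  m_le : k.m ≤ 1 / 100
  G_lo : ∀ c ∈ Icc (k.c0 - k.δ) (k.c0 + k.δ), ∀ y, 0 < y → 3 / 20 ≤ G c y
  G_hi : ∀ c ∈ Icc (k.c0 - k.δ) (k.c0 + k.δ), ∀ y, 0 < y → G c y ≤ 3 / 2
  G_lo1 : ∀ c ∈ Icc (k.c0 - k.δ) (k.c0 + k.δ), ∀ y, 0 < y → y ≤ 2 → 3 / 5 ≤ G c y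
  G_lo2 : ∀ c ∈ Icc (k.c0 - k.δ) (k.c0 + k.δ), ∀ y, 2 ≤ y → 4 / 3 ≤ y * (G c y - k.m)
  at_one : ∀ c ∈ Icc (k.c0 - k.δ) (k.c0 + k.δ), G c 1 ≤ 22 / 25
  tail : ∀ c ∈ Icc (k.c0 - k.δ) (k.c0 + k.δ), ∃ C, ∀ y, 1 ≤ y → |G c y - S3 c y| ≤ C / y ^ 8
  -- weights
  b_ge : 12 ≤ k.b ^ 2
  wdata : WData k.b k.n1 k.cq k.Cq (nn (G k.c0)) p
  p_tail : ∃ a, 0 < a ∧ ∀ y, 1 ≤ y → a ≤ p y * y ^ 3
  η_nonneg : 0 ≤ k.η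
  η_lt : k.η < 1
  lip : ∀ c ∈ Icc (k.c0 - k.δ) (k.c0 + k.δ), ∀ y, 0 < y → ∀ h, |h| ≤ k.m →
    |1 / (2 * G k.c0 y ^ 2) - 1 / (2 * (G c y + h) ^ 2)| ≤ k.η * (p y ^ 2 / chi k.b y)
  -- residual
  res : ∀ c ∈ Icc (k.c0 - k.δ) (k.c0 + k.δ), ∀ y, 0 < y →
    |resid c y (G c y) (G1 c y) (G2 c y) (G3 c y)| ≤ R y
  R_meas : Measurable R
  M_nonneg : 0 ≤ k.M
  R_int : IntegrableOn (fun y => (chi k.b y / p y * (y ^ 8 * R y)) ^ 2) (Ioi 0)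
  R_M : ∫ y in Ioi (0 : ℝ), (chi k.b y / p y * (y ^ 8 * R y)) ^ 2 ≤ k.M ^ 2
  R_near : ∀ y, 0 < y → y ≤ 2 → R y ≤ k.ε * y ^ 2
  R_far : ∀ y, 2 ≤ y → R y ≤ k.ρ
  close : (2 / 7 * k.Cq * (k.M / (1 - k.η)) / 66 + k.ρ) / 40 + k.ε / 16 ≤ k.m
  -- adjoint function (zero for `y ≥ Y`)
  Y_pos : 0 < k.Y
  ψ_d : ∀ y ∈ Icc 0 k.Y, HasDerivWithinAt ψ (ψ1 y) (Icc 0 k.Y) y
  ψ1_d : ∀ y ∈ Icc 0 k.Y, HasDerivWithinAt ψ1 (ψ2 y) (Icc 0 k.Y) y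
  ψ2_d : ∀ y ∈ Icc 0 k.Y, HasDerivWithinAt ψ2 (ψ3 y) (Icc 0 k.Y) y
  ψ3_c : ContinuousOn ψ3 (Icc 0 k.Y)
  ψ_Y : ψ k.Y = 0
  ψ1_Y : ψ1 k.Y = 0
  ψ2_Y : ψ2 k.Y = 0
  ψ_0 : 0 < ψ 0
  K1_nonneg : 0 ≤ k.K1
  K2_nonneg : 0 ≤ k.K2
  K1_int : IntervalIntegrable (fun y => (ψ y * p y / chi k.b y) ^ 2) volume 0 k.Y
  K1_le : ∫ y in (0 : ℝ)..k.Y, (ψ y * p y / chi k.b y) ^ 2 ≤ k.K1 ^ 2
  K2_int : IntervalIntegrable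
    (fun y => ((y * ψ3 y + 12 * ψ2 y - nn (G k.c0) y * ψ y) / p y) ^ 2) volume 0 k.Y
  K2_le : ∫ y in (0 : ℝ)..k.Y, ((y * ψ3 y + 12 * ψ2 y - nn (G k.c0) y * ψ y) / p y) ^ 2 ≤ k.K2 ^ 2
  small : (k.η * k.K1 + k.K2) * (k.M / (1 - k.η)) < k.K
  main_hi : k.K ≤ -∫ y in (0 : ℝ)..k.Y, ψ y * (y ^ 8 * resid (k.c0 + k.δ) y (G (k.c0 + k.δ) y)
    (G1 (k.c0 + k.δ) y) (G2 (k.c0 + k.δ) y) (G3 (k.c0 + k.δ) y))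
  main_lo : k.K ≤ ∫ y in (0 : ℝ)..k.Y, ψ y * (y ^ 8 * resid (k.c0 - k.δ) y (G (k.c0 - k.δ) y)
    (G1 (k.c0 - k.δ) y) (G2 (k.c0 - k.δ) y) (G3 (k.c0 - k.δ) y))

end Crest.Agent.R213.E
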