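import Crest.Agent.R213.E.CSound
import Crest.Agent.R213.E.CCheck1
import Crest.Agent.R213.E.CCheck2
import Crest.Agent.R213.E.EDefs

/-!
# Row 213, part E: the cell facts of the certificate (helper223)
-/

set_option autoImplicit false

open Set

namespace Crest.Agent.R213.E.C.Kr

/-! ### the checks for every cell -/

theorem cells_split {c : Cell} (hc : c ∈ cells) :
    c ∈ (cells.drop 0).take 14 ∨ c ∈ (cells.drop 14).take 14 ∨ c ∈ cells.drop 28 := by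
  have h1 : cells = cells.take 14 ++ cells.drop 14 := (List.take_append_drop 14 cells).symm
  have h2 : cells.drop 14 = (cells.drop 14).take 14 ++ (cells.drop 14).drop 14 :=
    (List.take_append_drop 14 _).symm
  rw [List.drop_drop] at h2
  rw [h1, h2] at hc
  rcases List.mem_append.1 hc with h | h
  · left; simpa using h
  · rcases List.mem_append.1 h with h | h
    · exact Or.inr (Or.inl h)
    · exact Or.inr (Or.inr h)

theorem okG_of {c : Cell} (hc : c ∈ cells) : okG c = true := List.all_eq_true.1 allG c hc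
theorem okR_of {c : Cell} (hc : c ∈ cells) : okR c = true := by
  rcases cells_split hc with h | h | h
  · exact List.all_eq_true.1 allR1 c h
  · exact List.all_eq_true.1 allR2 c h
  · exact List.all_eq_true.1 allR3 c h
theorem okB_of {c : Cell} (hc : c ∈ cells) : okB c = true := by
  rcases cells_split hc with h | h | h
  · exact List.all_eq_true.1 allB1 c h
  · exact List.all_eq_true.1 allB2 c h
  · exact List.all_eq_true.1 allB3 c h

/-! ### coordinates -/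

/-- local coordinate of `y` in the cell. -/
noncomputable def tt (c : Cell) (y : ℝ) : ℝ := y / c.gP.h KE - c.M

theorem h_eq (c : Cell) : c.gP.h KE = (c.H : ℝ) / 8 := by
  simp [Pc.h, Cell.gP, KE]; norm_num

theorem H_pos {c : Cell} (hc : c ∈ cells) : 0 < c.H ∧ 0 < c.M := by
  have := okG_of hc
  simp only [okG, Bool.and_eq_true, decide_eq_true_eq] at this
  exact ⟨this.1.2, this.2⟩

theorem y_eq {c : Cell} (hH : 0 < c.H) (y : ℝ) : y = (c.H : ℝ) / 8 * (c.M + tt c y) := by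
  have : (0 : ℝ) < c.H := by exact_mod_cast hH
  unfold tt; rw [h_eq]
  field_simp
  ring

theorem tt_abs {c : Cell} (hH : 0 < c.H) {y : ℝ} (h1 : c.gP.a KE < y) (h2 : y ≤ c.gP.b KE) :
    |tt c y| ≤ 1 := by
  have hh : 0 < c.gP.h KE := Pc.h_pos hH
  have e : c.gP.M = c.M := rfl
  rw [Pc.a, e] at h1
  rw [Pc.b, e] at h2
  have h3 : (c.M : ℝ) - 1 < y / c.gP.h KE := by rw [lt_div_iff₀ hh]; linarith
  have h4 : y / c.gP.h KE ≤ c.M + 1 := by rw [div_le_iff₀ hh]; linarith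
  unfold tt
  rw [abs_le]; constructor <;> linarith

theorem ev_yy {c : Cell} (hH : 0 < c.H) (y : ℝ) : ev (yy c) (tt c y) = 2 ^ 6 * y ^ 2 := by
  have h := y_eq hH y
  have : (2 : ℝ) ^ 6 * y ^ 2 = ((c.H : ℝ) * (c.M + tt c y)) ^ 2 := by
    conv_lhs => rw [h]
    ring
  rw [this]
  simp only [yy, ev_cons, ev_nil]
  push_cast
  ring

/-! ### values of the pieces -/

theorem gf0 (c : Cell) (y : ℝ) : c.gP.f KE SE 0 y = ev c.G (tt c y) / 2 ^ SE := by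
  simp [Pc.f, dern, tt, Cell.gP]

theorem kf0 (c : Cell) (y : ℝ) : c.kP.f KE SE 0 y = ev c.Kd (tt c y) / 2 ^ SE := by
  simp [Pc.f, dern, tt, Cell.gP, Cell.kP, Pc.h]

theorem fP (S : ℕ) (p : Pc) (hH : 0 < p.H) (y : ℝ) :
    y ^ 3 * p.f KE S 3 y + 21 * y ^ 2 * p.f KE S 2 y + 90 * y * p.f KE S 1 y - 90 * p.f KE S 0 y
      = ev (Pth p.M p.P) (y / p.h KE - p.M) / 2 ^ S := by
  have hh : 0 < p.h KE := Pc.h_pos hH
  have h2 : (2 : ℝ) ^ S ≠ 0 := by positivity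
  set t := y / p.h KE - p.M with ht
  have hy : y = p.h KE * (p.M + t) := by rw [ht]; field_simp; ring
  rw [ev_Pth]
  simp only [Pc.f, dern, ← ht]
  push_cast
  have hne := hh.ne'
  rw [eq_div_iff h2]
  conv_lhs => rw [hy]
  field_simp

theorem gPth {c : Cell} (hH : 0 < c.H) (y : ℝ) :
    ev (Pth c.M c.G) (tt c y) = 2 ^ SE * (y ^ 3 * c.gP.f KE SE 3 y + 21 * y ^ 2 * c.gP.f KE SE 2 y
      + 90 * y * c.gP.f KE SE 1 y - 90 * c.gP.f KE SE 0 y) := by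
  rw [fP SE c.gP hH y]
  have : (2 : ℝ) ^ SE ≠ 0 := by positivity
  field_simp
  rfl

theorem kPth {c : Cell} (hH : 0 < c.H) (y : ℝ) :
    ev (Pth c.M c.Kd) (tt c y) = 2 ^ SE * (y ^ 3 * c.kP.f KE SE 3 y + 21 * y ^ 2 * c.kP.f KE SE 2 y
      + 90 * y * c.kP.f KE SE 1 y - 90 * c.kP.f KE SE 0 y) := by
  rw [fP SE c.kP hH y]
  have : (2 : ℝ) ^ SE ≠ 0 := by positivity
  field_simp
  rfl

/-- bounds of `g0`, `k` on the cell. -/
theorem gk_bds {c : Cell} (hc : c ∈ cells) {y : ℝ} (h1 : c.gP.a KE < y) (h2 : y ≤ c.gP.b KE) :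
    (c.gl4 : ℝ) / 10 ^ 4 ≤ c.gP.f KE SE 0 y ∧ c.gP.f KE SE 0 y ≤ (c.gh4 : ℝ) / 10 ^ 4 ∧
      |c.kP.f KE SE 0 y| ≤ (c.kb3 : ℝ) / 10 ^ 3 ∧ (0 : ℝ) < (c.gl4 : ℝ) / 10 ^ 4 := by
  have hH := (H_pos hc).1
  have ht := tt_abs hH h1 h2
  have := okG_of hc
  simp only [okG, Bool.and_eq_true, decide_eq_true_eq] at this
  obtain ⟨⟨⟨⟨⟨g1, g2⟩, g3⟩, g4⟩, -⟩, -⟩ := this
  have h2S : (0 : ℝ) < 2 ^ SE := by positivity
  have l := lo_le c.G ht
  have u := le_hi c.G ht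
  have k := abs_ev_le c.Kd ht
  have g1' : (c.gl4 : ℝ) * 2 ^ SE ≤ 10 ^ 4 * (lo c.G : ℝ) := by exact_mod_cast g1
  have g2' : (10 : ℝ) ^ 4 * (hi c.G : ℝ) ≤ (c.gh4 : ℝ) * 2 ^ SE := by exact_mod_cast g2
  have g3' : (10 : ℝ) ^ 3 * (l1 c.Kd : ℝ) ≤ (c.kb3 : ℝ) * 2 ^ SE := by exact_mod_cast g3
  have g4' : (0 : ℝ) < c.gl4 := by exact_mod_cast g4
  rw [gf0, kf0, abs_div, abs_of_pos h2S]
  refine ⟨?_, ?_, ?_, by positivity⟩
  · rw [div_le_div_iff₀ (by positivity) h2S]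
    nlinarith
  · rw [div_le_div_iff₀ h2S (by positivity)]
    nlinarith
  · rw [div_le_div_iff₀ h2S (by positivity)]
    nlinarith

/-! ### the three polynomials as functions of `y` -/

noncomputable def cc0 : ℝ := (C0 : ℝ) / 2 ^ 60

theorem ev_resI {c : Cell} (hH : 0 < c.H) (y : ℝ) {g Pg : ℝ} (hg : ev c.G (tt c y) = 2 ^ SE * g)
    (hP : ev (Pth c.M c.G) (tt c y) = 2 ^ SE * Pg) :
    ev (resI c) (tt c y) = 2 ^ (67 + 2 * SE) * (cc0 * g * (Pg + 90) + y ^ 2 / 2 * (g - cc0)) := by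
  simp only [resI, ev_add, ev_smul, ev_mul, ev_sub, ev_cons, ev_nil, ev_yy hH, hg, hP]
  have e1 : (2 : ℝ) ^ (67 + 2 * SE) = 2 ^ 67 * (2 ^ SE) ^ 2 := by rw [pow_add, pow_mul']
  have e2 : (C0 : ℝ) = 2 ^ 60 * cc0 := by unfold cc0; ring
  push_cast
  rw [e1, e2]
  generalize (2 : ℝ) ^ SE = s
  ring

theorem ev_FkI {c : Cell} (hH : 0 < c.H) (y : ℝ) {g k Pk : ℝ} (hg : ev c.G (tt c y) = 2 ^ SE * g)
    (hk : ev c.Kd (tt c y) = 2 ^ SE * k) (hP : ev (Pth c.M c.Kd) (tt c y) = 2 ^ SE * Pk) :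
    ev (FkI c) (tt c y) = 2 ^ (127 + 3 * SE) *
      (cc0 ^ 2 * g ^ 2 * Pk + y ^ 2 / 2 * (cc0 ^ 2 * k - g ^ 2)) := by
  simp only [FkI, ev_add, ev_smul, ev_mul, ev_sub, ev_yy hH, hg, hP, hk]
  have e1 : (2 : ℝ) ^ (127 + 3 * SE) = 2 ^ 127 * (2 ^ SE) ^ 3 := by rw [pow_add, pow_mul']
  have e2 : (C0 : ℝ) = 2 ^ 60 * cc0 := by unfold cc0; ring
  have e3 : (2 : ℝ) ^ (2 * SE) = (2 ^ SE) ^ 2 := by rw [pow_mul']
  have e4 : (2 : ℝ) ^ (120 + SE) = 2 ^ 120 * 2 ^ SE := by rw [pow_add]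
  push_cast
  rw [e1, e2, e3, e4]
  generalize (2 : ℝ) ^ SE = s
  ring

theorem ev_XI {c : Cell} (hH : 0 < c.H) (y : ℝ) {g k : ℝ} (hg : ev c.G (tt c y) = 2 ^ SE * g)
    (hk : ev c.Kd (tt c y) = 2 ^ SE * k) :
    ev (XI c) (tt c y) = 2 ^ (186 + 3 * SE) * (y ^ 2 * (g ^ 3 - cc0 ^ 3 * k ^ 2)) := by
  simp only [XI, ev_smul, ev_mul, ev_sub, ev_yy hH, hg, hk]
  have e1 : (2 : ℝ) ^ (186 + 3 * SE) = 2 ^ 186 * (2 ^ SE) ^ 3 := by rw [pow_add, pow_mul']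
  have e2 : (C0 : ℝ) = 2 ^ 60 * cc0 := by unfold cc0; ring
  push_cast
  rw [e1, e2]
  generalize (2 : ℝ) ^ SE = s
  ring

theorem cc0_bd : 7 / 10 < cc0 ∧ cc0 < 3 / 4 := by
  unfold cc0 C0; constructor <;> norm_num

theorem cc0_sub : 0 < cc0 - 1 / 2 ^ 26 := by
  have h26 : (1 : ℝ) / 2 ^ 26 < 1 / 10 := by norm_num
  have := cc0_bd.1
  linarith

/-- RESIDUAL on a cell. -/
theorem cell_resid {c : Cell} (hc : c ∈ cells) {y : ℝ} (h1 : c.gP.a KE < y) (h2 : y ≤ c.gP.b KE)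
    {e : ℝ} (he : |e| ≤ 1 / 2 ^ 26) :
    |resid (cc0 + e) y (c.gP.f KE SE 0 y + e * c.kP.f KE SE 0 y)
      (c.gP.f KE SE 1 y + e * c.kP.f KE SE 1 y) (c.gP.f KE SE 2 y + e * c.kP.f KE SE 2 y)
      (c.gP.f KE SE 3 y + e * c.kP.f KE SE 3 y)| ≤ (c.R20 : ℝ) / 10 ^ 20 := by
  obtain ⟨hH, hM⟩ := H_pos hc
  have ht := tt_abs hH h1 h2
  obtain ⟨g1, -, k1, gl0⟩ := gk_bds hc h1 h2
  have h2S : (0 : ℝ) < 2 ^ SE := by positivity
  have hy0 : 0 ≤ y := by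
    have hM' : (1 : ℝ) ≤ c.M := by exact_mod_cast hM
    have hh : 0 < c.gP.h KE := Pc.h_pos hH
    have : 0 ≤ c.gP.a KE := by
      unfold Pc.a
      exact mul_nonneg hh.le (by show (0:ℝ) ≤ (c.M : ℝ) - 1; linarith)
    linarith
  have hR := okR_of hc
  simp only [okR, forceI_eq, force_eq] at hR
  obtain ⟨r, hR, hr⟩ := kb_sound (p := resI c) (by rw [evI_resI]; rfl) (l1_resI c) hR
  obtain ⟨f, hR, hf⟩ := kb_sound (p := FkI c) (by rw [evI_FkI]; rfl) (l1_FkI c) hR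
  obtain ⟨x, hR, hx⟩ := kb_sound (p := XI c) (by rw [evI_XI]; rfl) (l1_XI c) hR
  simp only [Bool.and_eq_true, decide_eq_true_eq] at hR
  obtain ⟨hR, hpos⟩ := hR
  have hr := hr _ ht
  have hf := hf _ ht
  have hx := hx _ ht
  have eg : ev c.G (tt c y) = 2 ^ SE * c.gP.f KE SE 0 y := by rw [gf0]; field_simp
  have ek : ev c.Kd (tt c y) = 2 ^ SE * c.kP.f KE SE 0 y := by rw [kf0]; field_simp
  rw [ev_resI hH y eg (gPth hH y), abs_mul, abs_of_pos (by positivity), mul_comm,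
    ← le_div_iff₀ (by positivity)] at hr
  rw [ev_FkI hH y eg ek (kPth hH y), abs_mul, abs_of_pos (by positivity), mul_comm,
    ← le_div_iff₀ (by positivity)] at hf
  rw [ev_XI hH y eg ek, abs_mul, abs_of_pos (by positivity), mul_comm,
    ← le_div_iff₀ (by positivity)] at hx
  have hposR : (0 : ℝ) < (c.gl4 : ℝ) / 10 ^ 4 - 1 / 2 ^ 26 * ((c.kb3 : ℝ) / 10 ^ 3) := by
    have := (Rat.cast_lt (K := ℝ)).2 hpos
    push_cast at this; exact this
  have hRR : ((Rsum c r f x : ℚ) : ℝ) ≤ (c.R20 : ℝ) / 10 ^ 20 := by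
    have := (Rat.cast_le (K := ℝ)).2 hR
    push_cast at this; exact this
  obtain ⟨c01, c02⟩ := cc0_bd
  have hyb : y ≤ ((c.H : ℝ) * (c.M + 1)) / 2 ^ KE := by
    refine h2.trans_eq ?_
    unfold Pc.b Pc.h
    show (c.H : ℝ) / 2 ^ KE * ((c.M : ℝ) + 1) = _
    ring
  have main := real_bound (c0 := cc0) (e := e) (δ := 1 / 2 ^ 26) (b := ((c.H : ℝ) * (c.M + 1)) / 2 ^ KE)
    (by linarith) (by positivity) cc0_sub he gl0 g1 k1 hposR hy0 hyb hr hf hx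
  have e0 : resid (cc0 + e) y (c.gP.f KE SE 0 y + e * c.kP.f KE SE 0 y)
      (c.gP.f KE SE 1 y + e * c.kP.f KE SE 1 y) (c.gP.f KE SE 2 y + e * c.kP.f KE SE 2 y)
      (c.gP.f KE SE 3 y + e * c.kP.f KE SE 3 y) =
      (y ^ 3 * c.gP.f KE SE 3 y + 21 * y ^ 2 * c.gP.f KE SE 2 y
        + 90 * y * c.gP.f KE SE 1 y - 90 * c.gP.f KE SE 0 y) +
      e * (y ^ 3 * c.kP.f KE SE 3 y + 21 * y ^ 2 * c.kP.f KE SE 2 y
        + 90 * y * c.kP.f KE SE 1 y - 90 * c.kP.f KE SE 0 y) + 90 + y ^ 2 / 2 *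
      (1 / (cc0 + e) - 1 / (c.gP.f KE SE 0 y + e * c.kP.f KE SE 0 y)) := by
    unfold resid; ring
  rw [e0]
  refine main.trans (le_trans (le_of_eq ?_) hRR)
  unfold Rsum cc0
  push_cast
  ring

/-! ### the first cell -/

theorem first_ok {c : Cell} (hc : c ∈ cells.take 1) : okZ c = true :=
  List.all_eq_true.1 allZ c hc

theorem kf_zero {c : Cell} (hKi : c.Ki = []) (y : ℝ) (r : ℕ) : c.kP.f KE SE r y = 0 := by
  have hd : ∀ r, dern r ([] : List Int) = [] := by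
    intro r; induction r with
    | zero => rfl
    | succ r ih => simpa [dern, der] using ih
  have : c.kP.P = [] := by simp [Cell.kP, Cell.Kd, hKi, smul]
  simp [Pc.f, this, hd]

theorem cell_first {c : Cell} (hc1 : c ∈ cells.take 1) {y : ℝ} (h1 : c.gP.a KE < y)
    (h2 : y ≤ c.gP.b KE) {e : ℝ} (he : |e| ≤ 1 / 2 ^ 26) :
    |resid (cc0 + e) y (c.gP.f KE SE 0 y + e * c.kP.f KE SE 0 y)
      (c.gP.f KE SE 1 y + e * c.kP.f KE SE 1 y) (c.gP.f KE SE 2 y + e * c.kP.f KE SE 2 y)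
      (c.gP.f KE SE 3 y + e * c.kP.f KE SE 3 y)| ≤ 2 / 10 ^ 8 * y ^ 2 := by
  have hc : c ∈ cells := List.mem_of_mem_take hc1
  obtain ⟨hH, hM⟩ := H_pos hc
  have ht := tt_abs hH h1 h2
  obtain ⟨g1, -, -, gl0⟩ := gk_bds hc h1 h2
  have hZ := first_ok hc1
  simp only [okZ, forceI_eq, Bool.and_eq_true, decide_eq_true_eq] at hZ
  obtain ⟨⟨⟨hH8, hM1⟩, hKi⟩, hV, hZ⟩ := hZ
  generalize hVQ : vres (evI c.G XE) (evI (Pth c.M c.G) XE) (evI (yy c) XE) / (1 + XE) ^ 2 = VQ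
    at hV hZ
  generalize hZZ : VQ + (offs WE nE : ℕ) = Z at hZ
  cases Z with
  | negSucc m => simp at hZ
  | ofNat N =>
    simp only [Bool.and_eq_true, decide_eq_true_eq, force_eq] at hZ
    obtain ⟨hN, hq1, hq2⟩ := hZ
    set q := digs WE N 0 nE with hq
    have eq1 : evI q ((2 ^ WE : ℕ) : Int) = VQ := by
      rw [hq, evI_digs]
      simp only [Nat.mul_zero, pow_zero, Nat.div_one]
      rw [Nat.mod_eq_of_lt hN]
      have : ((N : ℕ) : Int) = VQ + (offs WE nE : ℕ) := by rw [hZZ]; rfl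
      rw [this]; ring
    have eqd : ∀ t : ℝ, ev (resI c) t = ev (mul [1, 2, 1] q) t := by
      intro t
      refine ev_eq_of_evI (X := 2 ^ WE) (by positivity) _ _ ?_ ?_ t
      · have h3 := l1_mul [1, 2, 1] q
        have h4 : l1 ([1, 2, 1] : List Int) = 4 := by decide
        rw [h4, l1_digs] at h3
        have h5 := l1_resI c
        omega
      · rw [evI_resI, evI_mul, eq1]
        have h6 : evI [1, 2, 1] ((2 ^ WE : ℕ) : Int) = (1 + XE) ^ 2 := by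
          simp only [evI, XE]; ring
        rw [h6, mul_comm]
        exact hV.symm
    have hyt : y = 1 + tt c y := by
      have := y_eq hH y
      rw [hH8, hM1] at this
      rw [this]
      have h7 : tt c ((8 : ℕ) / 8 * ((1 : ℕ) + tt c y)) = tt c y := by
        rw [← this]
      rw [h7]; norm_num
    have hb : |ev (resI c) (tt c y)| ≤ y ^ 2 * (l1digs WE N 0 nE : ℝ) := by
      rw [eqd, ev_mul, abs_mul]
      have h8 : ev [1, 2, 1] (tt c y) = y ^ 2 := by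
        simp only [ev_cons, ev_nil]
        have : y ^ 2 = (1 + tt c y) ^ 2 := by rw [← hyt]
        rw [this]; push_cast; ring
      rw [h8, abs_of_nonneg (sq_nonneg y), ← l1_digs]
      exact mul_le_mul_of_nonneg_left (abs_ev_le _ ht) (sq_nonneg y)
    have eg : ev c.G (tt c y) = 2 ^ SE * c.gP.f KE SE 0 y := by
      have : (2 : ℝ) ^ SE ≠ 0 := by positivity
      rw [gf0]; field_simp
    rw [ev_resI hH y eg (gPth hH y), abs_mul, abs_of_pos (by positivity), mul_comm,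
      ← le_div_iff₀ (by positivity)] at hb
    have hk : ∀ r, c.kP.f KE SE r y = 0 := kf_zero hKi y
    obtain ⟨c01, c02⟩ := cc0_bd
    have main := real_bound0 (c0 := cc0) (e := e) (δ := 1 / 2 ^ 26)
      (q := (l1digs WE N 0 nE : ℝ) / 2 ^ (67 + 2 * SE)) (by linarith) (by positivity)
      cc0_sub he gl0 g1 (hb.trans_eq (by ring))
    have hq2' : ((l1digs WE N 0 nE : ℕ) : ℝ) / 2 ^ (67 + 2 * SE) / (((C0 : ℝ) / 2 ^ 60)
        * ((c.gl4 : ℝ) / 10 ^ 4)) + 1 / 2 ^ 26 / (2 * ((C0 : ℝ) / 2 ^ 60 - 1 / 2 ^ 26)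
          * ((C0 : ℝ) / 2 ^ 60)) ≤ 2 / 10 ^ 8 := by
      have := (Rat.cast_le (K := ℝ)).2 hq2
      push_cast at this; exact this
    have e0 : resid (cc0 + e) y (c.gP.f KE SE 0 y + e * c.kP.f KE SE 0 y)
        (c.gP.f KE SE 1 y + e * c.kP.f KE SE 1 y) (c.gP.f KE SE 2 y + e * c.kP.f KE SE 2 y)
        (c.gP.f KE SE 3 y + e * c.kP.f KE SE 3 y) =
        (y ^ 3 * c.gP.f KE SE 3 y + 21 * y ^ 2 * c.gP.f KE SE 2 y
          + 90 * y * c.gP.f KE SE 1 y - 90 * c.gP.f KE SE 0 y) + e * 0 + 90 + y ^ 2 / 2 *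
        (1 / (cc0 + e) - 1 / (c.gP.f KE SE 0 y + e * 0)) := by
      unfold resid; rw [hk 0, hk 1, hk 2, hk 3]; ring
    rw [e0]
    refine main.trans ?_
    exact mul_le_mul_of_nonneg_right hq2' (sq_nonneg y)

/-! ### coercivity -/

theorem sig_cover {d : ℕ} (hd : d ≤ 2) {t : ℝ} (ht : |t| ≤ 1) :
    ∃ σ ∈ sig d, |2 ^ d * t - (σ : ℝ)| ≤ 1 := by
  obtain ⟨h1, h2⟩ := abs_le.1 ht
  interval_cases d
  · exact ⟨0, by simp [sig], by simpa using ht⟩
  · rcases le_total 0 t with h | h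
    · exact ⟨1, by simp [sig], by rw [abs_le]; push_cast; constructor <;> linarith⟩
    · exact ⟨-1, by simp [sig], by rw [abs_le]; push_cast; constructor <;> linarith⟩
  · rcases le_total 0 t with h | h
    · rcases le_total (1 / 2) t with h' | h'
      · exact ⟨3, by simp [sig], by rw [abs_le]; push_cast; constructor <;> linarith⟩
      · exact ⟨1, by simp [sig], by rw [abs_le]; push_cast; constructor <;> linarith⟩
    · rcases le_total (-1 / 2) t with h' | h'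
      · exact ⟨-1, by simp [sig], by rw [abs_le]; push_cast; constructor <;> linarith⟩
      · exact ⟨-3, by simp [sig], by rw [abs_le]; push_cast; constructor <;> linarith⟩

theorem cell_B {c : Cell} (hc : c ∈ cells) {y : ℝ} (h1 : c.gP.a KE < y) (h2 : y ≤ c.gP.b KE) :
    (c.B3 : ℝ) / 10 ^ 3 ≤ bet0 4 y / y ^ 2 + 1 / (2 * c.gP.f KE SE 0 y ^ 2) := by
  obtain ⟨hH, hM⟩ := H_pos hc
  have ht := tt_abs hH h1 h2
  obtain ⟨g1, -, -, gl0⟩ := gk_bds hc h1 h2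
  have hg0 : 0 < c.gP.f KE SE 0 y := gl0.trans_le g1
  have h2S : (0 : ℝ) < 2 ^ SE := by positivity
  have hy0 : 0 < y := by
    have hM' : (1 : ℝ) ≤ c.M := by exact_mod_cast hM
    have hh : 0 < c.gP.h KE := Pc.h_pos hH
    have : 0 ≤ c.gP.a KE := by
      unfold Pc.a
      exact mul_nonneg hh.le (by show (0:ℝ) ≤ (c.M : ℝ) - 1; linarith)
    linarith
  have hd : ∃ d ≤ 2, (sig d).all (okB1 c d) = true := by
    have := okB_of hc
    simp only [okB, Bool.or_eq_true] at this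
    rcases this with (h | h) | h
    · exact ⟨0, by norm_num, h⟩
    · exact ⟨1, by norm_num, h⟩
    · exact ⟨2, by norm_num, h⟩
  obtain ⟨d, hd, hall⟩ := hd
  obtain ⟨σ, hσ, hτ⟩ := sig_cover hd ht
  have hk := List.all_eq_true.1 hall σ hσ
  simp only [okB1, forceI_eq, force_eq, Bool.and_eq_true, decide_eq_true_eq] at hk
  obtain ⟨hσ1, hk⟩ := hk
  have hpos := kpos_sound (p := BI c d σ) (by rw [evI_BI]; rfl) (l1_BI c d σ hσ1) hk _ hτ
  set τ := 2 ^ d * tt c y - (σ : ℝ) with hτd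
  have eG : ev (restr d σ c.G) τ = 2 ^ (d * c.G.length) * (2 ^ SE * c.gP.f KE SE 0 y) := by
    rw [ev_restr]
    have : (τ + σ) / 2 ^ d = tt c y := by rw [hτd]; field_simp; ring
    rw [this, gf0]; field_simp
  have eY : ev (yd c d σ) τ = 2 ^ (6 + 2 * d) * y ^ 2 := by
    have h := y_eq hH y
    have h3 : (2 : ℝ) ^ (6 + 2 * d) * y ^ 2 = ((c.H : ℝ) * (2 ^ d * c.M + σ + τ)) ^ 2 := by
      have : (2 : ℝ) ^ d * c.M + σ + τ = 2 ^ d * (c.M + tt c y) := by rw [hτd]; ring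
      rw [this]
      have h4 : (2 : ℝ) ^ (6 + 2 * d) = 64 * (2 ^ d) ^ 2 := by rw [pow_add, pow_mul']; norm_num
      rw [h4]
      conv_lhs => rw [h]
      ring
    rw [h3]
    simp only [yd, ev_cons, ev_nil]
    push_cast
    ring
  have eW : ev (Wd c d σ) τ = 2 ^ (10 + 2 * d) * (1 + y ^ 2 / 16) := by
    simp only [Wd, ev_add, ev_cons, ev_nil, eY]
    have h5 : (2 : ℝ) ^ (10 + 2 * d) = 16 * 2 ^ (6 + 2 * d) := by
      rw [show 10 + 2 * d = 4 + (6 + 2 * d) by ring, pow_add]; norm_num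
    push_cast
    rw [h5]; ring
  apply real_B hg0 hy0 rfl
  simp only [BI, ev_add, ev_smul, ev_mul, ev_cons, ev_nil, eG, eY, eW] at hpos
  set w := 1 + y ^ 2 / 16 with hw
  set g := c.gP.f KE SE 0 y with hgd
  set D : ℝ := 2 ^ d with hD
  have hDpos : 0 < D := by rw [hD]; positivity
  set Lg : ℝ := 2 ^ (d * c.G.length) with hLg
  have hLpos : 0 < Lg := by rw [hLg]; positivity
  have p1 : (2 : ℝ) ^ (10 + 2 * d) = 1024 * D ^ 2 := by rw [hD, pow_add, pow_mul']; norm_num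
  have p2 : (2 : ℝ) ^ (6 + 2 * d) = 64 * D ^ 2 := by rw [hD, pow_add, pow_mul']; norm_num
  have p3 : (2 : ℝ) ^ (4 + 2 * d) = 16 * D ^ 2 := by rw [hD, pow_add, pow_mul']; norm_num
  have p4 : (2 : ℝ) ^ (15 + 4 * d) = 2 ^ 15 * D ^ 4 := by rw [hD, pow_add, pow_mul']
  have p5 : (2 : ℝ) ^ (26 + 6 * d) = 2 ^ 26 * D ^ 6 := by rw [hD, pow_add, pow_mul']
  have p6 : (2 : ℝ) ^ (37 + 8 * d) = 2 ^ 37 * D ^ 8 := by rw [hD, pow_add, pow_mul']
  have p7 : (2 : ℝ) ^ (2 * (SE + d * c.G.length)) = (2 ^ SE * Lg) ^ 2 := by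
    rw [hLg, ← pow_add, pow_mul']
  push_cast at hpos
  rw [p1, p2, p3, p4, p5, p6, p7] at hpos
  generalize hs : (2 : ℝ) ^ SE = s at hpos h2S
  have hfac : 0 < 1000 * 2 ^ 36 * D ^ 8 * (s * Lg) ^ 2 := by positivity
  refine (mul_pos_iff_of_pos_left hfac).1 (lt_of_lt_of_eq hpos ?_)
  ring

end Crest.Agent.R213.E.C.Kr
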