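import Crest.Agent.R213.E.CertData
import Crest.Agent.R213.E.CKron

/-!
# Row 213, part E: the kernel checks of the cells (helper223): formal polynomials and checks
-/

set_option autoImplicit false

namespace Crest.Agent.R213.E.C.Kr

/-- `2^6 y²` -/
def yy (c : Cell) : List Int :=
  [((c.H * c.M) ^ 2 : Nat), (2 * c.H ^ 2 * c.M : Nat), (c.H ^ 2 : Nat)]

/-- `2^(67+2S) · (c0 g (P(θ)g + 90) + (y²/2)(g - c0))` -/
def resI (c : Cell) : List Int :=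
  add (smul (2 ^ 7 * C0) (mul c.G (add (Pth c.M c.G) [90 * 2 ^ SE])))
    (smul (2 ^ SE) (mul (yy c) (sub (smul (2 ^ 60) c.G) [C0 * 2 ^ SE])))

/-- `2^(127+3S) · (c0² g² P(θ)k + (y²/2)(c0² k - g²))` -/
def FkI (c : Cell) : List Int :=
  add (smul (2 ^ 7 * C0 ^ 2) (mul (mul c.G c.G) (Pth c.M c.Kd)))
    (mul (yy c) (sub (smul (2 ^ (2 * SE) * C0 ^ 2) c.Kd) (smul (2 ^ (120 + SE)) (mul c.G c.G))))

/-- `2^(186+3S) · y² (g³ - c0³ k²)` -/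
def XI (c : Cell) : List Int :=
  mul (yy c) (sub (smul (2 ^ 180) (mul c.G (mul c.G c.G)))
    (smul (2 ^ SE * C0 ^ 3) (mul c.Kd c.Kd)))

/-! values at `X` and norms -/

def vres (g pg yy : Int) : Int :=
  2 ^ 7 * C0 * (g * (pg + 90 * 2 ^ SE)) + 2 ^ SE * (yy * (2 ^ 60 * g - C0 * 2 ^ SE))
def nres (g pg yy : ℕ) : ℕ :=
  2 ^ 7 * C0 * (g * (pg + 90 * 2 ^ SE)) + 2 ^ SE * (yy * (2 ^ 60 * g + C0 * 2 ^ SE))
def vF (g k pk yy : Int) : Int :=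
  2 ^ 7 * C0 ^ 2 * (g * g * pk) + yy * (2 ^ (2 * SE) * C0 ^ 2 * k - 2 ^ (120 + SE) * (g * g))
def nF (g k pk yy : ℕ) : ℕ :=
  2 ^ 7 * C0 ^ 2 * (g * g * pk) + yy * (2 ^ (2 * SE) * C0 ^ 2 * k + 2 ^ (120 + SE) * (g * g))
def vX (g k yy : Int) : Int := yy * (2 ^ 180 * (g * (g * g)) - 2 ^ SE * C0 ^ 3 * (k * k))
def nX (g k yy : ℕ) : ℕ := yy * (2 ^ 180 * (g * (g * g)) + 2 ^ SE * C0 ^ 3 * (k * k))

/-- bounds of `g0` and `k` -/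
def okG (c : Cell) : Bool :=
  decide ((c.gl4 * 2 ^ SE : Nat) ≤ 10 ^ 4 * lo c.G) &&
  decide (10 ^ 4 * hi c.G ≤ (c.gh4 * 2 ^ SE : Nat)) &&
  decide (10 ^ 3 * l1 c.Kd ≤ c.kb3 * 2 ^ SE) && decide (0 < c.gl4) && decide (0 < c.H) &&
  decide (0 < c.M)

/-- Kronecker parameters -/
def WE : ℕ := 1792
def nE : ℕ := 90
def XE : Int := ((2 ^ WE : ℕ) : Int)

/-! the coercivity bound `B` on the subcell `(d, σ)` -/

def yd (c : Cell) (d : ℕ) (σ : Int) : List Int :=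
  [(c.H * (2 ^ d * c.M + σ)) ^ 2, 2 * c.H ^ 2 * (2 ^ d * c.M + σ), c.H ^ 2]

def Wd (c : Cell) (d : ℕ) (σ : Int) : List Int := add [2 ^ (10 + 2 * d)] (yd c d σ)

def BI (c : Cell) (d : ℕ) (σ : Int) : List Int :=
  add (smul 1000 (mul (mul (restr d σ c.G) (restr d σ c.G))
      (add (smul (-525 * 2 ^ (4 + 2 * d)) (mul (Wd c d σ) (mul (Wd c d σ) (Wd c d σ))))
      (add (smul (387 * 2 ^ (15 + 4 * d)) (mul (Wd c d σ) (Wd c d σ)))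
      (add (smul (45 * 2 ^ (26 + 6 * d)) (Wd c d σ)) [-51 * 2 ^ (37 + 8 * d)])))))
    (mul (mul (mul (Wd c d σ) (mul (Wd c d σ) (Wd c d σ))) (yd c d σ))
      (add [1000 * 2 ^ (2 * (SE + d * c.G.length))]
        (smul (-2 * c.B3) (mul (restr d σ c.G) (restr d σ c.G)))))

def vB (d : ℕ) (g y w : Int) (L B : ℕ) : Int :=
  1000 * (g * g * (-525 * 2 ^ (4 + 2 * d) * (w * (w * w)) + (387 * 2 ^ (15 + 4 * d) * (w * w)
      + (45 * 2 ^ (26 + 6 * d) * w + (-51 * 2 ^ (37 + 8 * d))))))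
  + w * (w * w) * y * (1000 * 2 ^ (2 * (SE + d * L)) + -2 * B * (g * g))
def nB (d g y w L B : ℕ) : ℕ :=
  1000 * (g * g * (525 * 2 ^ (4 + 2 * d) * (w * (w * w)) + (387 * 2 ^ (15 + 4 * d) * (w * w)
      + (45 * 2 ^ (26 + 6 * d) * w + (51 * 2 ^ (37 + 8 * d))))))
  + w * (w * w) * y * (1000 * 2 ^ (2 * (SE + d * L)) + 2 * B * (g * g))

/-- centres of the subcells of depth `d` -/
def sig : ℕ → List Int
  | 0 => [0]
  | 1 => [-1, 1]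
  | _ => [-3, -1, 1, 3]

def okB1 (c : Cell) (d : ℕ) (σ : Int) : Bool :=
  decide (σ.natAbs + 1 ≤ 2 ^ d) &&
  forceI (evR d (XE + σ) c.G) fun g =>
  forceI (evI (yd c d σ) XE) fun y =>
  force (l1 c.G) fun ng =>
  force (l1 (yd c d σ)) fun ny =>
  force (2 * c.G.length + 12) fun n =>
  kpos WE n (vB d g y (2 ^ (10 + 2 * d) + y) c.G.length c.B3)
    (nB d (2 ^ (d * c.G.length) * ng) ny (2 ^ (10 + 2 * d) + ny) c.G.length c.B3) 0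

def okB (c : Cell) : Bool :=
  (sig 0).all (okB1 c 0) || (sig 1).all (okB1 c 1) || (sig 2).all (okB1 c 2)

/-- the rational bound of the residual, from the norms `r f x` of `resI FkI XI` -/
def Rsum (c : Cell) (r f x : ℕ) : ℚ :=
  (r : ℚ) / 2 ^ (67 + 2 * SE) / ((C0 / 2 ^ 60) * (c.gl4 / 10 ^ 4))
    + 1 / 2 ^ 26 * ((f : ℚ) / 2 ^ (127 + 3 * SE) / ((C0 / 2 ^ 60) ^ 2 * (c.gl4 / 10 ^ 4) ^ 2))
    + (1 / 2 ^ 26) ^ 2 *
      ((x : ℚ) / 2 ^ (186 + 3 * SE) / (2 * (C0 / 2 ^ 60) ^ 3 * (c.gl4 / 10 ^ 4) ^ 3))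
    + (1 / 2 ^ 26) ^ 3 * (((c.H * (c.M + 1)) / 2 ^ KE) ^ 2 / 2) *
      (1 / ((C0 / 2 ^ 60 - 1 / 2 ^ 26) * (C0 / 2 ^ 60) ^ 3)
        + (c.kb3 / 10 ^ 3) ^ 3 /
          ((c.gl4 / 10 ^ 4 - 1 / 2 ^ 26 * (c.kb3 / 10 ^ 3)) * (c.gl4 / 10 ^ 4) ^ 3))

def okR (c : Cell) : Bool :=
  forceI (evI c.G XE) fun g =>
  forceI (evI (Pth c.M c.G) XE) fun pg =>
  forceI (evI c.Kd XE) fun k =>
  forceI (evI (Pth c.M c.Kd) XE) fun pk =>
  forceI (evI (yy c) XE) fun y =>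
  force (l1 c.G) fun ng => force (l1 (Pth c.M c.G)) fun npg =>
  force (l1 c.Kd) fun nk => force (l1 (Pth c.M c.Kd)) fun npk =>
  force (l1 (yy c)) fun ny =>
  force (2 * c.G.length + 4) fun n1 => force (2 * c.G.length + c.Kd.length + 4) fun n2 =>
  force (3 * c.G.length + 4) fun n3 =>
  kb WE n1 (vres g pg y) (nres ng npg ny) fun r =>
  kb WE n2 (vF g k pk y) (nF ng nk npk ny) fun f =>
  kb WE n3 (vX g k y) (nX ng nk ny) fun x =>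
  decide (Rsum c r f x ≤ (c.R20 : ℚ) / 10 ^ 20) &&
  decide (0 < (c.gl4 / 10 ^ 4 - 1 / 2 ^ 26 * (c.kb3 / 10 ^ 3) : ℚ))

/-- first cell: the residual divided by `(1+t)²` -/
def okZ (c : Cell) : Bool :=
  decide (c.H = 8) && decide (c.M = 1) && decide (c.Ki = []) &&
  forceI (vres (evI c.G XE) (evI (Pth c.M c.G) XE) (evI (yy c) XE)) fun V =>
  forceI (V / (1 + XE) ^ 2) fun VQ =>
  decide (VQ * (1 + XE) ^ 2 = V) &&
  forceI (VQ + offs WE nE) fun Z =>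
    match Z with
    | Int.negSucc _ => false
    | Int.ofNat N =>
      decide (N < 2 ^ (WE * nE)) &&
        force (l1digs WE N 0 nE) fun q =>
          decide (nres (l1 c.G) (l1 (Pth c.M c.G)) (l1 (yy c)) + 4 * q < 2 ^ WE) &&
          decide ((q : ℚ) / 2 ^ (67 + 2 * SE) / ((C0 / 2 ^ 60) * (c.gl4 / 10 ^ 4))
            + 1 / 2 ^ 26 / (2 * (C0 / 2 ^ 60 - 1 / 2 ^ 26) * (C0 / 2 ^ 60)) ≤ 2 / 10 ^ 8)

end Crest.Agent.R213.E.C.Kr
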