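import Crest.Agent.R213.E.CTail
import Crest.Agent.R213.E.CertData

/-!
# Row 213, part E, certificate: the family of base profiles `GF r c y` (helper472)

`GF r c y = gg r y + (c - c0) kk r y + zz (c - c0) r y`; `zz = 0` for `y ≤ 128`.
-/

set_option autoImplicit false
set_option Elab.async false

open Set

namespace Crest.Agent.R213.E.C

/-- `g0` and its derivatives -/
noncomputable def gg (r : ℕ) (y : ℝ) : ℝ := pw KE SE (cells.map Cell.gP) (tl 128 SE A0) r y

/-- `k` and its derivatives -/
noncomputable def kk (r : ℕ) (y : ℝ) : ℝ := pw KE SE (cells.map Cell.kP) (tl 128 SE A1) r y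

/-- the zero piece `(-∞,128]` -/
def zP : Pc := ⟨512, 1, []⟩

/-- tail functions of the levels `≥ 2` -/
noncomputable def zT (x : ℝ) (r : ℕ) (y : ℝ) : ℝ := x ^ 2 * tl2 128 SE (EL 60 2 C0) x r y

/-- levels `≥ 2` -/
noncomputable def zz (x : ℝ) (r : ℕ) (y : ℝ) : ℝ := pw KE SE [zP] (zT x) r y

/-- the family -/
noncomputable def GF (r : ℕ) (c y : ℝ) : ℝ :=
  gg r y + (c - C0 / 2 ^ 60) * kk r y + zz (c - C0 / 2 ^ 60) r y

/-- matching of the jets of order `≤ 3` of a piece with the tail, in integers -/
def lastB (K S : ℕ) (p : Pc) (A : List Int) : Bool :=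
  decide (0 < p.H) && (decide (p.H * (p.M + 1) = 128 * 2 ^ K) &&
  (decide (evI (dern 0 p.P) 1 = evI (scn 0 A) 1) &&
  (decide (evI (dern 1 p.P) 1 * (2 ^ K * 128) = evI (scn 1 A) 1 * p.H) &&
  (decide (evI (dern 2 p.P) 1 * (2 ^ K * 128) ^ 2 = evI (scn 2 A) 1 * p.H ^ 2) &&
   decide (evI (dern 3 p.P) 1 * (2 ^ K * 128) ^ 3 = evI (scn 3 A) 1 * p.H ^ 3)))))

theorem lastOK_of {K S : ℕ} {p : Pc} {A : List Int} (h : lastB K S p A = true) :
    LastOK K S p (tl 128 S A) ∧ p.b K = 128 := by
  simp only [lastB, Bool.and_eq_true, decide_eq_true_eq] at h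
  obtain ⟨hH, hb, h0, h1, h2, h3⟩ := h
  have hHR : (0 : ℝ) < p.H := by exact_mod_cast hH
  have hK : (0 : ℝ) < 2 ^ K := pow_pos two_pos K
  have hS : (0 : ℝ) < 2 ^ S := pow_pos two_pos S
  have hb2 : p.b K = 128 := by
    have hb' : (p.H : ℝ) * (p.M + 1) = 128 * 2 ^ K := by exact_mod_cast hb
    unfold Pc.b Pc.h
    rw [div_mul_eq_mul_div, hb']
    field_simp
  refine ⟨⟨?_, ?_⟩, hb2⟩
  · intro r hr
    rw [Pc.f_b hH, hb2]
    unfold tl Pc.h
    have e : (128 : ℝ) ^ 2 / 128 ^ 2 = 1 := by norm_num
    rw [e, ev_one]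
    have h0' : (evI (dern 0 p.P) 1 : ℝ) = evI (scn 0 A) 1 := by exact_mod_cast h0
    have h1' : (evI (dern 1 p.P) 1 : ℝ) * (2 ^ K * 128) = evI (scn 1 A) 1 * p.H := by
      have := congrArg (Int.cast (R := ℝ)) h1
      push_cast at this
      exact this
    have h2' : (evI (dern 2 p.P) 1 : ℝ) * (2 ^ K * 128) ^ 2 = evI (scn 2 A) 1 * p.H ^ 2 := by
      have := congrArg (Int.cast (R := ℝ)) h2
      push_cast at this
      exact this
    have h3' : (evI (dern 3 p.P) 1 : ℝ) * (2 ^ K * 128) ^ 3 = evI (scn 3 A) 1 * p.H ^ 3 := by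
      have := congrArg (Int.cast (R := ℝ)) h3
      push_cast at this
      exact this
    interval_cases r
    · rw [h0']; simp
    · field_simp
      linarith
    · field_simp
      linarith
    · field_simp
      linarith
  · intro r _ y hy
    rw [hb2] at hy
    exact hasDerivAt_tl 128 S A r (by linarith)

/-- integer data of the two splines -/
def famB : Bool :=
  chain (cells.map Cell.gP) && (chain (cells.map Cell.kP) &&
  ((match (cells.map Cell.gP).getLast? with | some p => lastB KE SE p A0 | none => false) &&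
   ((match (cells.map Cell.kP).getLast? with | some p => lastB KE SE p A1 | none => false) &&
    (EL 60 2 C0).all (fun l => lastB KE SE zP l))))

theorem famB_ok : famB = true := by decide +kernel

theorem chain_g : chain (cells.map Cell.gP) = true := by
  have := famB_ok
  simp only [famB, Bool.and_eq_true] at this
  exact this.1

theorem chain_k : chain (cells.map Cell.kP) = true := by
  have := famB_ok
  simp only [famB, Bool.and_eq_true] at this
  exact this.2.1

theorem last_g : ∀ q, (cells.map Cell.gP).getLast? = some q →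
    LastOK KE SE q (tl 128 SE A0) ∧ q.b KE = 128 := by
  intro q hq
  have := famB_ok
  simp only [famB, Bool.and_eq_true] at this
  have h := this.2.2.1
  rw [hq] at h
  exact lastOK_of h

theorem last_k : ∀ q, (cells.map Cell.kP).getLast? = some q →
    LastOK KE SE q (tl 128 SE A1) ∧ q.b KE = 128 := by
  intro q hq
  have := famB_ok
  simp only [famB, Bool.and_eq_true] at this
  have h := this.2.2.2.1
  rw [hq] at h
  exact lastOK_of h

theorem zP_b : zP.b KE = 128 := by
  simp [zP, Pc.b, Pc.h, KE]; norm_num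

theorem last_z_aux (L : List (List Int)) (h : L.all (fun l => lastB KE SE zP l) = true) (x : ℝ) :
    ∀ r ≤ 3, tl2 128 SE L x r 128 = 0 := by
  induction L with
  | nil => intro r _; rfl
  | cons a L ih =>
    simp only [List.all_cons, Bool.and_eq_true] at h
    intro r hr
    have h1 := (lastOK_of h.1).1.jet r hr
    rw [zP_b] at h1
    have h2 : zP.f KE SE r 128 = 0 := by
      have hd : ∀ r, dern r ([] : List Int) = [] := by
        intro r; induction r with
        | zero => rfl
        | succ r ih => simpa [dern, der] using ih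
      simp [Pc.f, zP, hd]
    rw [h2] at h1
    rw [tl2, ← h1, ih h.2 r hr, mul_zero, add_zero]

theorem last_z (x : ℝ) : LastOK KE SE zP (zT x) := by
  have hf := famB_ok
  simp only [famB, Bool.and_eq_true] at hf
  refine ⟨?_, ?_⟩
  · intro r hr
    rw [zP_b, zT, last_z_aux _ hf.2.2.2.2 x r hr, mul_zero]
    have hd : ∀ r, dern r ([] : List Int) = [] := by
      intro r; induction r with
      | zero => rfl
      | succ r ih => simpa [dern, der] using ih
    simp [Pc.f, zP, hd]
  · intro r _ y hy
    rw [zP_b] at hy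
    exact (hasDerivAt_tl2 128 SE _ x r (by linarith : y ≠ 0)).const_mul (x ^ 2)

/-- the family is `C³` in `y` on the whole line -/
theorem GF_hasDerivAt (c : ℝ) : ∀ r < 3, ∀ y : ℝ, HasDerivAt (GF r c) (GF (r + 1) c y) y := by
  intro r hr y
  have h1 := pw_hasDerivAt (cells.map Cell.gP) (by decide) chain_g (fun q hq => (last_g q hq).1) r hr y
  have h2 := pw_hasDerivAt (cells.map Cell.kP) (by decide) chain_k (fun q hq => (last_k q hq).1) r hr y
  have h3 := pw_hasDerivAt [zP] (by decide) (by decide) (fun q hq => by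
    simp only [List.getLast?_singleton, Option.some.injEq] at hq
    subst hq
    exact last_z (c - C0 / 2 ^ 60)) r hr y
  exact (h1.add (h2.const_mul (c - C0 / 2 ^ 60))).add h3

end Crest.Agent.R213.E.C
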