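import Crest.Agent.R213.E.CertData
import Crest.Agent.R213.E.EDefs

/-!
# Row 213, part E, E-CERT: the constants of the certificate (helper49; decision of helper9)
-/

set_option autoImplicit false

noncomputable section

namespace Crest.Agent.R213.E

/-- the constants of the certificate -/
def cst : Cst where
  c0 := (C.C0 : ℝ) / 2 ^ 60
  δ := 1 / 2 ^ 26
  b := 4
  n1 := 200 / 9
  cq := 1 / 4
  Cq := 143 / 100
  η := 1 / 100
  M := 23 / 10
  m := 1 / 2000
  ρ := 1 / 5000
  ε := 2 / 10 ^ 8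
  Y := 16
  K1 := 207 / 100
  K2 := 65 / 1000
  K := 3 / 4

theorem cst_small : (cst.η * cst.K1 + cst.K2) * (cst.M / (1 - cst.η)) < cst.K := by
  norm_num [cst]

theorem cst_close : (2 / 7 * cst.Cq * (cst.M / (1 - cst.η)) / 66 + cst.ρ) / 40 + cst.ε / 16
    ≤ cst.m := by
  norm_num [cst]

theorem cst_lo : 7 / 10 ≤ cst.c0 - cst.δ := by norm_num [cst, C.C0]
theorem cst_hi : cst.c0 + cst.δ ≤ 3 / 4 := by norm_num [cst, C.C0]

end Crest.Agent.R213.E
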