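import Crest.Agent.R213.E.CFam
import Crest.Agent.R213.E.CertCst

/-!
# Row 213, part E, certificate: facts about the family `GF` on the tail (helper472)
-/

set_option autoImplicit false

open Set

namespace Crest.Agent.R213.E.C

/-- beyond the last end the spline is the tail function -/
theorem pw_tail {K S : ℕ} {T : ℕ → ℝ → ℝ} : ∀ (l : List Pc), chain l = true →
    ∀ Y : ℝ, (∀ q, l.getLast? = some q → q.b K = Y) → ∀ r y, Y < y → pw K S l T r y = T r y := by
  intro l
  induction l with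
  | nil => intro _ _ _ r y _; rfl
  | cons p l ih =>
    intro hc Y hY r y hy
    have hpY : p.b K ≤ Y := by
      cases l with
      | nil => exact (hY p rfl).le
      | cons q l' =>
        -- all ends are `≤ Y`
        have key : ∀ (l : List Pc) (p : Pc), chain (p :: l) = true →
            (∀ q, (p :: l).getLast? = some q → q.b K = Y) → p.b K ≤ Y := by
          intro l
          induction l with
          | nil => intro p _ h; exact (h p rfl).le
          | cons q l ih2 =>
            intro p hc h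
            have h1 := ih2 q (chain_tail hc) (fun q' hq' => h q' (by simpa using hq'))
            have hj : joint p q = true := by
              simp only [chain, Bool.and_eq_true] at hc
              exact hc.1.2
            exact (b_lt_b (chain_head (chain_tail hc)) hj).le.trans h1
        exact key (q :: l') p hc hY
    rw [pw, if_neg (not_le.2 (lt_of_le_of_lt hpY hy))]
    cases l with
    | nil => rfl
    | cons q l' => exact ih (chain_tail hc) Y (fun q' hq' => hY q' (by simpa using hq')) r y hy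

theorem gg_tail (r : ℕ) {y : ℝ} (hy : 128 < y) : gg r y = tl 128 SE A0 r y :=
  pw_tail _ chain_g 128 (fun q hq => (last_g q hq).2) r y hy

theorem kk_tail (r : ℕ) {y : ℝ} (hy : 128 < y) : kk r y = tl 128 SE A1 r y :=
  pw_tail _ chain_k 128 (fun q hq => (last_k q hq).2) r y hy

theorem zz_tail (x : ℝ) (r : ℕ) {y : ℝ} (hy : 128 < y) :
    zz x r y = x ^ 2 * tl2 128 SE (EL 60 2 C0) x r y :=
  pw_tail [zP] (by decide) 128 (fun q hq => by
    simp only [List.getLast?_singleton, Option.some.injEq] at hq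
    subst hq
    exact zP_b) r y hy

theorem zz_cell (x : ℝ) (r : ℕ) {y : ℝ} (hy : y ≤ 128) : zz x r y = 0 := by
  unfold zz
  rw [pw, if_pos (by rw [zP_b]; exact hy)]
  have hd : ∀ r, dern r ([] : List Int) = [] := by
    intro r; induction r with
    | zero => rfl
    | succ r ih => simpa [dern, der] using ih
  simp [Pc.f, zP, hd]

/-- on `(-∞,128]` -/
theorem GF_cell (r : ℕ) (c : ℝ) {y : ℝ} (hy : y ≤ 128) :
    GF r c y = gg r y + (c - C0 / 2 ^ 60) * kk r y := by
  rw [GF, zz_cell _ r hy, add_zero]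

/-- on the tail -/
theorem GF_tail (r : ℕ) (c : ℝ) {y : ℝ} (hy : 128 < y) :
    GF r c y = tl2 128 SE (famL 60 2 C0 A0 A1) (c - C0 / 2 ^ 60) r y := by
  rw [GF, gg_tail r hy, kk_tail r hy, zz_tail _ r hy]
  simp only [famL, tl2]
  ring

section
variable (tail_ok : TailOK 60 2 464 C0 A0 A1 26 14 25)
include tail_ok

theorem GF_far {c : ℝ} (hc : |c - C0 / 2 ^ 60| ≤ 1 / 2 ^ 26) {y : ℝ} (hy : 128 < y) :
    |GF 0 c y - C0 / 2 ^ 60| ≤ 1 / 500 := by
  have := tail_near tail_ok hc hy.le
  rw [GF_tail 0 c hy]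
  exact this

theorem GF_far_c {c : ℝ} (hc : |c - C0 / 2 ^ 60| ≤ 1 / 2 ^ 26) {y : ℝ} (hy : 128 < y) :
    |GF 0 c y - GF 0 (C0 / 2 ^ 60) y| ≤ 1 / 2 ^ 25 := by
  have := tail_close tail_ok hc hy.le
  rw [GF_tail 0 c hy, GF_tail 0 _ hy, sub_self]
  exact this

theorem GF_res_tail {c : ℝ} (hc : |c - C0 / 2 ^ 60| ≤ 1 / 2 ^ 26) {y : ℝ} (hy : 128 < y) :
    |resid c y (GF 0 c y) (GF 1 c y) (GF 2 c y) (GF 3 c y)| ≤ 7 / 10 ^ 14 * (128 / y) ^ 6 := by
  have hC : (7139 / 10000 : ℝ) ≤ C0 / 2 ^ 60 := by norm_num [C0]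
  have h := tail_resid tail_ok (c := c) hc hy.le (by push_cast; ring) (by push_cast; linarith)
    (by linarith [(abs_le.1 hc).1, (by norm_num : (1 : ℝ) / 2 ^ 26 ≤ 1 / 10000)])
  rw [GF_tail 0 c hy, GF_tail 1 c hy, GF_tail 2 c hy, GF_tail 3 c hy]
  exact h

theorem GF_ser : ∃ C : ℝ, ∀ c : ℝ, |c - C0 / 2 ^ 60| ≤ 1 / 2 ^ 26 → ∀ y : ℝ, 128 < y →
    |GF 0 c y - S3 c y| ≤ C / y ^ 8 := by
  obtain ⟨C, hC⟩ := tail_S3 tail_ok
  refine ⟨C, fun c hc y hy => ?_⟩
  rw [GF_tail 0 c hy]
  exact hC _ c y hc hy.le (by push_cast; ring)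

end

/-- `GF` is continuous in `y` -/
theorem GF_continuous (c : ℝ) : Continuous (GF 0 c) :=
  continuous_iff_continuousAt.2 fun y => (GF_hasDerivAt c 0 (by norm_num) y).continuousAt

/-- the field `tail` of `FamFacts` -/
theorem GF_tail_all (tail_ok : TailOK 60 2 464 C0 A0 A1 26 14 25) {c : ℝ}
    (hc : |c - C0 / 2 ^ 60| ≤ 1 / 2 ^ 26) :
    ∃ C : ℝ, ∀ y, 1 ≤ y → |GF 0 c y - S3 c y| ≤ C / y ^ 8 := by
  obtain ⟨C, hC⟩ := GF_ser tail_ok
  have hcont : ContinuousOn (fun y => |GF 0 c y - S3 c y| * y ^ 8) (Icc 1 128) := by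
    refine ContinuousOn.mul ?_ (continuous_pow 8).continuousOn
    refine ContinuousOn.abs ?_
    refine ContinuousOn.sub (GF_continuous c).continuousOn ?_
    intro y hy
    have hy0 : y ≠ 0 := by have := hy.1; positivity
    unfold S3
    refine ContinuousAt.continuousWithinAt ?_
    fun_prop (disch := positivity)
  obtain ⟨B, hB⟩ := isCompact_Icc.exists_bound_of_continuousOn hcont
  refine ⟨max B C, fun y hy => ?_⟩
  have hy0 : 0 < y := by linarith
  rcases le_or_gt y 128 with h | h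
  · have h1 := hB y ⟨hy, h⟩
    rw [Real.norm_eq_abs] at h1
    rw [le_div_iff₀ (by positivity)]
    exact ((le_abs_self _).trans h1).trans (le_max_left _ _)
  · refine (hC c hc y h).trans ?_
    gcongr
    exact le_max_right _ _

end Crest.Agent.R213.E.C
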