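import Crest.Agent.R213.E.CTail

/-!
# Row 213, part E, certificate tooling: fast products by packing, Bernstein bounds (helper472)

* packing: a list polynomial with coefficients `< T/2` is determined by its value at `T`;
* `bernB`: `|q| ≤ B` on `[0,1]` from the coefficients of `(1+t)^n q(t/(1+t))`.
-/

set_option autoImplicit false

open Set

namespace Crest.Agent.R213.E.C

/-! ### packing -/

theorem evI_add (p q : List Int) (T : Int) : evI (add p q) T = evI p T + evI q T := by
  induction p generalizing q with
  | nil => simp [add, evI]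
  | cons a p ih =>
    cases q with
    | nil => simp [add, evI]
    | cons b q => simp only [add, evI, ih]; ring

theorem evI_smul (c : Int) (p : List Int) (T : Int) : evI (smul c p) T = c * evI p T := by
  induction p with
  | nil => simp [smul, evI]
  | cons a p ih => simp only [smul, evI, ih]; ring

theorem evI_mul (p q : List Int) (T : Int) : evI (mul p q) T = evI p T * evI q T := by
  induction p with
  | nil => simp [mul, evI]
  | cons a p ih => simp only [mul, evI, evI_add, evI_smul, ih]; ring

theorem eq_of_evI {T : Int} : ∀ p q : List Int, (∀ a ∈ p, 2 * |a| < T) →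
    (∀ b ∈ q, 2 * |b| ≤ T) → evI p T = evI q T → ∀ u : ℝ, ev p u = ev q u := by
  intro p
  induction p with
  | nil =>
    intro q
    induction q with
    | nil => intro _ _ _ u; rfl
    | cons b q ih =>
      intro hp hq h u
      have hb := hq b (by simp)
      have hT : 0 ≤ T := by have := abs_nonneg b; omega
      simp only [evI] at h
      rcases hT.eq_or_lt with hT0 | hT0
      · have hb0 : b = 0 := by
          have := abs_nonneg b
          have : |b| = 0 := by omega
          exact abs_eq_zero.1 this
        have hall : ∀ (q : List Int), (∀ b ∈ q, 2 * |b| ≤ T) → ev q u = 0 := by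
          intro q
          induction q with
          | nil => intro _; rfl
          | cons c q ihq =>
            intro hq'
            have hc := hq' c (by simp)
            have hc0 : c = 0 := by
              have := abs_nonneg c
              have : |c| = 0 := by omega
              exact abs_eq_zero.1 this
            rw [ev_cons, ihq (fun b hb => hq' b (by simp [hb])), hc0]; simp
        rw [ev_cons, hall q (fun b hb => hq b (by simp [hb])), hb0]; simp
      · have h1 : b = T * (-(evI q T)) := by linarith
        have hb0 : b = 0 := by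
          by_contra hne
          have h2 : evI q T ≠ 0 := by
            intro h3; apply hne; rw [h1, h3]; simp
          have h4 : 1 ≤ |evI q T| := Int.one_le_abs h2
          have h5 : |b| = T * |evI q T| := by rw [h1, abs_mul, abs_neg, abs_of_pos hT0]
          nlinarith
        have h6 : evI q T = 0 := by
          rw [hb0] at h1
          rcases mul_eq_zero.1 h1.symm with h | h
          · omega
          · omega
        have := ih (by simp) (fun b hb => hq b (by simp [hb])) (by simp [evI, h6]) u
        rw [ev_cons, ← this, hb0]; simp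
  | cons a p ih =>
    intro q hp hq h u
    have ha := hp a (by simp)
    have hT : 0 < T := by have := abs_nonneg a; omega
    cases q with
    | nil =>
      simp only [evI] at h
      have h1 : a = T * (-(evI p T)) := by linarith
      have ha0 : a = 0 := by
        by_contra hne
        have h2 : evI p T ≠ 0 := by
          intro h3; apply hne; rw [h1, h3]; simp
        have h4 : 1 ≤ |evI p T| := Int.one_le_abs h2
        have h5 : |a| = T * |evI p T| := by rw [h1, abs_mul, abs_neg, abs_of_pos hT]
        nlinarith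
      have h6 : evI p T = 0 := by
        rw [ha0] at h1
        rcases mul_eq_zero.1 h1.symm with h | h
        · omega
        · omega
      have := ih [] (fun b hb => hp b (by simp [hb])) (by simp) (by simp [evI, h6]) u
      rw [ev_cons, this, ha0]; simp
    | cons b q =>
      have hb := hq b (by simp)
      simp only [evI] at h
      have h1 : a - b = T * (evI q T - evI p T) := by linarith
      have hab : a = b := by
        by_contra hne
        have h2 : evI q T - evI p T ≠ 0 := by
          intro h3; apply hne; rw [h3] at h1; linarith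
        have h4 : 1 ≤ |evI q T - evI p T| := Int.one_le_abs h2
        have h5 : |a - b| = T * |evI q T - evI p T| := by rw [h1, abs_mul, abs_of_pos hT]
        have h6 : |a - b| ≤ |a| + |b| := abs_sub a b
        nlinarith
      have h6 : evI p T = evI q T := by
        rw [hab, sub_self] at h1
        rcases mul_eq_zero.1 h1.symm with h | h
        · omega
        · omega
      have := ih q (fun b hb => hp b (by simp [hb])) (fun b hb => hq b (by simp [hb])) h6 u
      rw [ev_cons, ev_cons, this, hab]

/-- packed levels -/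
def pks (T : Int) : List (List Int) → List Int
  | [] => []
  | a :: L => evI a T :: pks T L

theorem pks_add2 (T : Int) (p q : List (List Int)) : pks T (add2 p q) = add (pks T p) (pks T q) := by
  induction p generalizing q with
  | nil => simp [add2, pks, add]
  | cons a p ih =>
    cases q with
    | nil => simp [add2, pks, add]
    | cons b q => simp only [add2, pks, add, ih, evI_add]

theorem pks_mulu (T : Int) (a : List Int) (p : List (List Int)) :
    pks T (mulu a p) = smul (evI a T) (pks T p) := by
  induction p with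
  | nil => rfl
  | cons b p ih => simp only [mulu, pks, smul, ih, evI_mul]

theorem pks_smul2 (T : Int) (c : Int) (p : List (List Int)) :
    pks T (smul2 c p) = smul c (pks T p) := by
  induction p with
  | nil => rfl
  | cons b p ih => simp only [smul2, pks, smul, ih, evI_smul]

theorem pks_mul2 (T : Int) (p q : List (List Int)) : pks T (mul2 p q) = mul (pks T p) (pks T q) := by
  induction p with
  | nil => rfl
  | cons a p ih => simp only [mul2, pks, mul, pks_add2, pks_mulu, ih, evI]

/-! ### norms -/

theorem l1_add_le (p q : List Int) : l1 (add p q) ≤ l1 p + l1 q := by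
  induction p generalizing q with
  | nil => simp [add, l1]
  | cons a p ih =>
    cases q with
    | nil => simp [add, l1]
    | cons b q =>
      simp only [add, l1]
      have h1 := Int.natAbs_add_le a b
      have h2 := ih q
      omega

theorem l1_smul (c : Int) (p : List Int) : l1 (smul c p) = c.natAbs * l1 p := by
  induction p with
  | nil => simp [smul, l1]
  | cons a p ih => simp only [smul, l1, ih, Int.natAbs_mul]; ring

theorem l1_mul_le (p q : List Int) : l1 (mul p q) ≤ l1 p * l1 q := by
  induction p with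
  | nil => simp [mul, l1]
  | cons a p ih =>
    simp only [mul, l1]
    refine (l1_add_le _ _).trans ?_
    rw [l1_smul, l1, Int.natAbs_zero, zero_add, add_mul]
    omega

/-- sum of the norms of the levels -/
def NL : List (List Int) → ℕ
  | [] => 0
  | a :: L => l1 a + NL L

theorem NL_add2 (p q : List (List Int)) : NL (add2 p q) ≤ NL p + NL q := by
  induction p generalizing q with
  | nil => simp [add2, NL]
  | cons a p ih =>
    cases q with
    | nil => simp [add2, NL]
    | cons b q =>
      simp only [add2, NL]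
      have h1 := l1_add_le a b
      have h2 := ih q
      omega

theorem NL_mulu (a : List Int) (p : List (List Int)) : NL (mulu a p) ≤ l1 a * NL p := by
  induction p with
  | nil => simp [mulu, NL]
  | cons b p ih =>
    simp only [mulu, NL]
    have := l1_mul_le a b
    rw [mul_add]; omega

theorem NL_smul2 (c : Int) (p : List (List Int)) : NL (smul2 c p) ≤ c.natAbs * NL p := by
  induction p with
  | nil => simp [smul2, NL]
  | cons b p ih =>
    simp only [smul2, NL, l1_smul]
    rw [mul_add]; omega

theorem NL_mul2 (p q : List (List Int)) : NL (mul2 p q) ≤ NL p * NL q := by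
  induction p with
  | nil => simp [mul2, NL]
  | cons a p ih =>
    simp only [mul2, NL]
    refine (NL_add2 _ _).trans ?_
    have h1 := NL_mulu a q
    rw [NL, l1, zero_add, add_mul]
    omega

theorem coef_le_l1 (p : List Int) : ∀ a ∈ p, a.natAbs ≤ l1 p := by
  induction p with
  | nil => intro a h; simp at h
  | cons b p ih =>
    intro a h
    rcases List.mem_cons.1 h with h | h
    · rw [h, l1]; omega
    · have := ih a h
      rw [l1]; omega

/-- levels and digit lists -/
def sameB (T : Int) : List Int → List (List Int) → Bool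
  | [], [] => true
  | z :: Z, q :: Q => decide (evI q T = z) && (q.all (fun b => decide (2 * |b| ≤ T)) && sameB T Z Q)
  | _, _ => false

theorem sameB_sound (T : Int) : ∀ (L Q : List (List Int)), sameB T (pks T L) Q = true →
    ((2 * NL L : ℕ) : Int) < T → ∀ x u : ℝ, ev2 L x u = ev2 Q x u := by
  intro L
  induction L with
  | nil =>
    intro Q h _ x u
    cases Q with
    | nil => rfl
    | cons q Q => simp [pks, sameB] at h
  | cons a L ih =>
    intro Q h hN x u
    cases Q with
    | nil => simp [pks, sameB] at h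
    | cons q Q =>
      simp only [pks, sameB, Bool.and_eq_true, decide_eq_true_eq, List.all_eq_true] at h
      obtain ⟨h1, h2, h3⟩ := h
      simp only [NL] at hN
      have hN2 : ((2 * NL L : ℕ) : Int) < T := by
        have : ((2 * NL L : ℕ) : Int) ≤ ((2 * (l1 a + NL L) : ℕ) : Int) := by
          exact_mod_cast (by omega : 2 * NL L ≤ 2 * (l1 a + NL L))
        omega
      have e1 := ih Q h3 hN2 x u
      have e2 : ev a u = ev q u := by
        apply eq_of_evI (T := T) a q _ h2 h1.symm
        intro b hb
        have h4 := coef_le_l1 a b hb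
        have h5 : |b| = ((b.natAbs : ℕ) : Int) := Int.abs_eq_natAbs b
        rw [h5]
        have : ((2 * b.natAbs : ℕ) : Int) ≤ ((2 * (l1 a + NL L) : ℕ) : Int) := by
          exact_mod_cast (by omega : 2 * b.natAbs ≤ 2 * (l1 a + NL L))
        push_cast at this hN ⊢
        omega
      rw [ev2_cons, ev2_cons, e1, e2]

/-- balanced digits (at most `n`) -/
def digs (T : Int) : ℕ → Int → List Int
  | 0, _ => []
  | n + 1, z => Int.bmod z T.natAbs :: digs T n ((z - Int.bmod z T.natAbs) / T)

/-! ### Bernstein bound -/

/-- `(1+t)^n` -/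
def binL : ℕ → List Int
  | 0 => [1]
  | n + 1 => add (binL n) (0 :: binL n)

theorem ev_binL (n : ℕ) (t : ℝ) : ev (binL n) t = (1 + t) ^ n := by
  induction n with
  | zero => simp [binL]
  | succ n ih => simp only [binL, ev_add, ev_cons, ih]; push_cast; ring

/-- `(1+t)^(len-1) p(t/(1+t))` -/
def bern : List Int → List Int
  | [] => []
  | a :: p => add (smul a (binL p.length)) (0 :: bern p)

theorem ev_bern (p : List Int) {t : ℝ} (ht : 0 ≤ t) :
    (1 + t) * ev (bern p) t = (1 + t) ^ p.length * ev p (t / (1 + t)) := by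
  have h0 : (1 + t) ≠ 0 := by positivity
  induction p with
  | nil => simp [bern]
  | cons a p ih =>
    simp only [bern, ev_add, ev_smul, ev_binL, ev_cons, List.length_cons]
    have : (1 + t) * ((a : ℝ) * (1 + t) ^ p.length + (((0 : Int) : ℝ) + t * ev (bern p) t)) =
        a * (1 + t) ^ (p.length + 1) + t * ((1 + t) * ev (bern p) t) := by push_cast; ring
    rw [this, ih]
    field_simp
    ring

/-- all coefficients nonnegative -/
def nnB (p : List Int) : Bool := p.all (fun a => decide (0 ≤ a))

theorem nnB_sound (p : List Int) (h : nnB p = true) {t : ℝ} (ht : 0 ≤ t) : 0 ≤ ev p t := by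
  induction p with
  | nil => simp
  | cons a p ih =>
    simp only [nnB, List.all_cons, Bool.and_eq_true, decide_eq_true_eq] at h
    have h1 : (0 : ℝ) ≤ a := by exact_mod_cast h.1
    have h2 := ih h.2
    simp only [ev_cons]
    positivity

/-- Bernstein coefficients of `B ± q` are nonnegative -/
def bernB (B : ℕ) (q : List Int) : Bool :=
  nnB (add (smul B (binL (q.length - 1))) (bern q)) &&
  nnB (add (smul B (binL (q.length - 1))) (smul (-1) (bern q)))

theorem bernB_sound (B : ℕ) (q : List Int) (h : bernB B q = true) {u : ℝ} (h0 : 0 ≤ u)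
    (h1 : u ≤ 1) : |ev q u| ≤ B := by
  cases q with
  | nil => simp
  | cons a p =>
    simp only [bernB, Bool.and_eq_true, List.length_cons, Nat.add_sub_cancel] at h
    -- for `u < 1`
    have key : ∀ v : ℝ, 0 ≤ v → v < 1 → |ev (a :: p) v| ≤ B := by
      intro v hv0 hv1
      have hv : 0 < 1 - v := by linarith
      set t : ℝ := v / (1 - v) with ht
      have ht0 : 0 ≤ t := by positivity
      have e1 : 1 + t = 1 / (1 - v) := by rw [ht]; field_simp; ring
      have e2 : t / (1 + t) = v := by rw [e1, ht]; field_simp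
      have hb := ev_bern (a :: p) ht0
      rw [e2, List.length_cons, pow_succ] at hb
      have hpos : 0 < 1 + t := by positivity
      have hb2 : ev (bern (a :: p)) t = (1 + t) ^ p.length * ev (a :: p) v := by
        have : (1 + t) * ev (bern (a :: p)) t = (1 + t) * ((1 + t) ^ p.length * ev (a :: p) v) := by
          rw [hb]; ring
        exact mul_left_cancel₀ hpos.ne' this
      have c1 := nnB_sound _ h.1 ht0
      have c2 := nnB_sound _ h.2 ht0
      rw [ev_add, ev_smul, ev_binL, hb2] at c1
      rw [ev_add, ev_smul, ev_smul, ev_binL, hb2] at c2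
      have hq : 0 < (1 + t) ^ p.length := by positivity
      have c1' : 0 ≤ (1 + t) ^ p.length * (B + ev (a :: p) v) := by
        calc 0 ≤ _ := c1
          _ = _ := by push_cast; ring
      have c2' : 0 ≤ (1 + t) ^ p.length * (B - ev (a :: p) v) := by
        calc 0 ≤ _ := c2
          _ = _ := by push_cast; ring
      have d1 := nonneg_of_mul_nonneg_right c1' hq
      have d2 := nonneg_of_mul_nonneg_right c2' hq
      exact abs_le.2 ⟨by linarith, by linarith⟩
    rcases h1.lt_or_eq with h2 | h2
    · exact key u h0 h2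
    · subst h2
      have hcl : IsClosed {v : ℝ | |ev (a :: p) v| ≤ B} :=
        isClosed_le (continuous_ev (a :: p)).abs continuous_const
      have hsub : Ico (0 : ℝ) 1 ⊆ {v : ℝ | |ev (a :: p) v| ≤ B} := fun v hv => key v hv.1 hv.2
      have h3 := hcl.closure_subset_iff.2 hsub
      rw [closure_Ico (by norm_num)] at h3
      exact h3 ⟨zero_le_one, le_rfl⟩

/-- `2^(len-1) p(v/2)` -/
def halfL : List Int → List Int
  | [] => []
  | a :: p => (a * 2 ^ p.length) :: halfL p

theorem ev_halfL (p : List Int) (v : ℝ) : 2 * ev (halfL p) v = 2 ^ p.length * ev p (v / 2) := by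
  induction p with
  | nil => simp [halfL]
  | cons a p ih =>
    simp only [halfL, ev_cons, List.length_cons]
    have : 2 * ((((a * 2 ^ p.length : Int)) : ℝ) + v * ev (halfL p) v) =
        a * 2 ^ (p.length + 1) + v * (2 * ev (halfL p) v) := by push_cast; ring
    rw [this, ih]
    ring

/-- `2^(len-1) p((1+v)/2)` -/
def halfR : List Int → List Int
  | [] => []
  | a :: p => add [a * 2 ^ p.length] (add (halfR p) (0 :: halfR p))

theorem ev_halfR (p : List Int) (v : ℝ) :
    2 * ev (halfR p) v = 2 ^ p.length * ev p ((1 + v) / 2) := by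
  induction p with
  | nil => simp [halfR]
  | cons a p ih =>
    simp only [halfR, ev_add, ev_cons, ev_nil, List.length_cons]
    have : 2 * ((((a * 2 ^ p.length : Int)) : ℝ) + v * 0 + (ev (halfR p) v + (((0 : Int) : ℝ)
        + v * ev (halfR p) v))) = a * 2 ^ (p.length + 1) + (1 + v) * (2 * ev (halfR p) v) := by
      push_cast; ring
    rw [this, ih]
    ring

/-- Bernstein bound after one bisection -/
def bern2B (B : ℕ) (q : List Int) : Bool :=
  bernB (B * 2 ^ (q.length - 1)) (halfL q) && bernB (B * 2 ^ (q.length - 1)) (halfR q)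

theorem bern2B_sound (B : ℕ) (q : List Int) (h : bern2B B q = true) {u : ℝ} (h0 : 0 ≤ u)
    (h1 : u ≤ 1) : |ev q u| ≤ B := by
  cases q with
  | nil => simp
  | cons a p =>
    simp only [bern2B, Bool.and_eq_true, List.length_cons, Nat.add_sub_cancel] at h
    have hp : (0 : ℝ) < 2 ^ p.length := pow_pos two_pos _
    rcases le_total u (1 / 2) with hu | hu
    · have h2 := bernB_sound _ _ h.1 (u := 2 * u) (by linarith) (by linarith)
      have h3 := ev_halfL (a :: p) (2 * u)
      rw [mul_div_cancel_left₀ u two_ne_zero, List.length_cons, pow_succ] at h3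
      have h4 : ev (halfL (a :: p)) (2 * u) = 2 ^ p.length * ev (a :: p) u := by linarith
      rw [h4, abs_mul, abs_of_pos hp, Nat.cast_mul, Nat.cast_pow, Nat.cast_ofNat, mul_comm] at h2
      exact le_of_mul_le_mul_right h2 hp
    · have h2 := bernB_sound _ _ h.2 (u := 2 * u - 1) (by linarith) (by linarith)
      have h3 := ev_halfR (a :: p) (2 * u - 1)
      have e : (1 + (2 * u - 1)) / 2 = u := by ring
      rw [e, List.length_cons, pow_succ] at h3
      have h4 : ev (halfR (a :: p)) (2 * u - 1) = 2 ^ p.length * ev (a :: p) u := by linarith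
      rw [h4, abs_mul, abs_of_pos hp, Nat.cast_mul, Nat.cast_pow, Nat.cast_ofNat, mul_comm] at h2
      exact le_of_mul_le_mul_right h2 hp

/-! ### the fast form of the tail check -/

/-- packed `numL` -/
def numP (m S : ℕ) (N T : Int) (L : List (List Int)) : List Int :=
  add (mul (mul [N, 2 ^ m] (smul T (pks T L))) (add [90 * 2 ^ S] (pks T (PthU2 L))))
    (add (smul (2 ^ (m + S + 13)) (pks T L)) (smul (-(2 ^ (2 * S + 13))) [N, 2 ^ m]))

theorem pks_numL (m S : ℕ) (N T : Int) (L : List (List Int)) :
    pks T (numL m S N L) = numP m S N T L := by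
  simp only [numL, numP, pks_add2, pks_mul2, pks_mulu, pks_smul2, ccL, pks, evI, mul_zero, add_zero,
    mul_one, zero_add]

/-- bound for the coefficients of `numL` -/
def numN (m S : ℕ) (N : Int) (L : List (List Int)) : ℕ :=
  ((N.natAbs + 2 ^ m) * NL L) * (90 * 2 ^ S + NL (PthU2 L)) +
    (2 ^ (m + S + 13) * NL L + 2 ^ (2 * S + 13) * (N.natAbs + 2 ^ m))

theorem natAbs_two_pow (m : ℕ) : ((2 : Int) ^ m).natAbs = 2 ^ m := by
  rw [Int.natAbs_pow]; rfl

theorem NL_ccL (m : ℕ) (N : Int) : NL (ccL m N) = N.natAbs + 2 ^ m := by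
  simp only [ccL, NL, l1, natAbs_two_pow, add_zero]

theorem NL_numL (m S : ℕ) (N : Int) (L : List (List Int)) : NL (numL m S N L) ≤ numN m S N L := by
  unfold numL numN
  have hcc := NL_ccL m N
  refine (NL_add2 _ _).trans (Nat.add_le_add ?_ ?_)
  · refine (NL_mul2 _ _).trans (Nat.mul_le_mul ?_ ?_)
    · refine (NL_mul2 _ _).trans (Nat.mul_le_mul hcc.le ?_)
      refine (NL_mulu _ _).trans ?_
      simp [l1]
    · refine (NL_add2 _ _).trans (Nat.add_le_add ?_ le_rfl)
      simp only [NL, l1, Int.natAbs_mul, natAbs_two_pow, add_zero]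
      rfl
  · refine (NL_add2 _ _).trans (Nat.add_le_add ?_ ?_)
    · refine (NL_smul2 _ _).trans ?_
      rw [natAbs_two_pow]
    · refine (NL_smul2 _ _).trans ?_
      rw [Int.natAbs_neg, natAbs_two_pow, hcc]

/-- level bounds: by the `l1` norm, or (Bernstein) on the rest after removing `u^k` -/
def lvB' (k : ℕ) : List (List Int) → List ℕ → Bool
  | [], _ => true
  | _ :: _, [] => false
  | a :: L, b :: bs => van k a && ((decide (l1 a ≤ b) || bern2B b (a.drop k)) && lvB' k L bs)

theorem abs_ev2_le_b' (k d : ℕ) (L : List (List Int)) (bs : List ℕ) (hv : lvB' k L bs = true)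
    {x u : ℝ} (hx : |x| ≤ 1 / 2 ^ d) (h0 : 0 ≤ u) (h1 : u ≤ 1) :
    |ev2 L x u| ≤ u ^ k * nb d bs := by
  induction L generalizing bs with
  | nil =>
    simp only [ev2_nil, abs_zero]
    exact mul_nonneg (pow_nonneg h0 k) (Nat.cast_nonneg _)
  | cons a L ih =>
    cases bs with
    | nil => simp [lvB'] at hv
    | cons b bs =>
      simp only [lvB', Bool.and_eq_true, Bool.or_eq_true, decide_eq_true_eq] at hv
      obtain ⟨hv1, hv2, hv3⟩ := hv
      have h2 : |ev a u| ≤ u ^ k * b := by
        rcases hv2 with h | h
        · have h2 := abs_ev_le_pow k a hv1 h0 h1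
          refine h2.trans (mul_le_mul_of_nonneg_left ?_ (pow_nonneg h0 k))
          exact_mod_cast h
        · rw [ev_drop k a hv1 u, abs_mul, abs_of_nonneg (pow_nonneg h0 k)]
          exact mul_le_mul_of_nonneg_left (bern2B_sound b _ h h0 h1) (pow_nonneg h0 k)
      have h3 := ih bs hv3
      have hd : (0 : ℝ) < 2 ^ d := pow_pos two_pos d
      have h4 : (nb d bs : ℝ) / 2 ^ d ≤ ((nb d bs / 2 ^ d + 1 : ℕ) : ℝ) := by
        have h5 : nb d bs < (nb d bs / 2 ^ d + 1) * 2 ^ d :=
          Nat.lt_mul_of_div_lt (Nat.lt_succ_self _) (pow_pos two_pos d)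
        have h6 : (nb d bs : ℝ) < ((nb d bs / 2 ^ d + 1 : ℕ) : ℝ) * 2 ^ d := by
          have := (Nat.cast_lt (α := ℝ)).2 h5
          rwa [Nat.cast_mul, Nat.cast_pow, Nat.cast_ofNat] at this
        rw [div_le_iff₀ hd]
        exact h6.le
      simp only [ev2_cons]
      have e : nb d (b :: bs) = b + (nb d bs / 2 ^ d + 1) := rfl
      calc |ev a u + x * ev2 L x u| ≤ |ev a u| + |x * ev2 L x u| := abs_add_le _ _
        _ ≤ u ^ k * b + 1 / 2 ^ d * (u ^ k * nb d bs) := by rw [abs_mul]; gcongr
        _ = u ^ k * (b + nb d bs / 2 ^ d) := by ring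
        _ ≤ u ^ k * nb d (b :: bs) := by
          apply mul_le_mul_of_nonneg_left _ (pow_nonneg h0 k)
          rw [e, Nat.cast_add]
          exact add_le_add le_rfl h4

/-- the residual part of the tail check, packed: base `2^W`, digit lists `Q` -/
def resB (m S : ℕ) (N : Int) (L : List (List Int)) (W : ℕ) (bs : List ℕ) (Q : List (List Int)) :
    Bool :=
  sameB (2 ^ W) (numP m S N (2 ^ W) L) Q && (decide (2 * numN m S N L < 2 ^ W) && lvB' 4 Q bs)

theorem resB_sound {m S : ℕ} {N : Int} {L : List (List Int)} {W : ℕ} {bs : List ℕ}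
    {Q : List (List Int)} (h : resB m S N L W bs Q = true) (d : ℕ) {x u : ℝ}
    (hx : |x| ≤ 1 / 2 ^ d) (h0 : 0 ≤ u) (h1 : u ≤ 1) :
    |ev2 (numL m S N L) x u| ≤ u ^ 4 * nb d bs := by
  simp only [resB, Bool.and_eq_true, decide_eq_true_eq] at h
  obtain ⟨ha, hb, hc⟩ := h
  rw [← pks_numL] at ha
  have hN : ((2 * NL (numL m S N L) : ℕ) : Int) < 2 ^ W := by
    have h2 := NL_numL m S N L
    have h3 : 2 * NL (numL m S N L) < 2 ^ W := lt_of_le_of_lt (Nat.mul_le_mul_left 2 h2) hb
    have h4 := (Nat.cast_lt (α := Int)).2 h3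
    rwa [Nat.cast_pow, Nat.cast_ofNat] at h4
  rw [sameB_sound _ _ _ ha hN x u]
  exact abs_ev2_le_b' 4 d Q bs hc hx h0 h1

/-- the rest of the tail check -/
def tailB2 (m s S : ℕ) (N : Int) (A0 A1 : List Int) (d t t2 : ℕ) (bs : List ℕ) : Bool :=
  decide (S = 7 * m + (42 + s)) &&
  (decide (2 * nb d bs * 10 ^ t ≤ 7 * 2 ^ (m + 2 * S)) &&
  (van2 4 (add2 (famL m s N A0 A1) (smul2 (-1) (S3L m s N))) &&
  (decide (A0.head? = some (N * 2 ^ (S - m))) &&
  (decide (500 * (l1 A0.tail + (nq d (A1 :: EL m s N) / 2 ^ d + 1)) ≤ 2 ^ S) &&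
   decide (nq d (A1 :: EL m s N) * 2 ^ t2 ≤ 2 ^ (S + d))))))

theorem tailOK_of_fast {m s S : ℕ} {N : Int} {A0 A1 : List Int} {d t t2 : ℕ} {W : ℕ} {bs : List ℕ}
    {Q : List (List Int)} (h : tailB2 m s S N A0 A1 d t t2 bs = true)
    (hres : resB m S N (famL m s N A0 A1) W bs Q = true) :
    TailOK m s S N A0 A1 d t t2 := by
  unfold tailB2 at h
  simp only [Bool.and_eq_true, decide_eq_true_eq] at h
  obtain ⟨h0, h2, h3, h4, h5, h6⟩ := h
  have ht : (0 : ℝ) < 10 ^ t := pow_pos (by norm_num) t
  have ht2 : (0 : ℝ) < 2 ^ t2 := pow_pos two_pos t2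
  have hd : (0 : ℝ) < 2 ^ d := pow_pos two_pos d
  have hm : (2 : ℝ) ^ m ≠ 0 := pow_ne_zero _ two_ne_zero
  refine ⟨h0, ?_, ?_, ?_, ?_⟩
  · intro x u hx hu0 hu1
    have h7 := resB_sound hres d hx hu0 hu1
    refine h7.trans ?_
    have h8 : (2 : ℝ) * nb d bs * 10 ^ t ≤ 7 * 2 ^ (m + 2 * S) := by
      have := (Nat.cast_le (α := ℝ)).2 h2
      rwa [Nat.cast_mul, Nat.cast_mul, Nat.cast_pow, Nat.cast_ofNat, Nat.cast_ofNat, Nat.cast_mul,
        Nat.cast_pow, Nat.cast_ofNat, Nat.cast_ofNat] at this
    clear h2 h3 h4 h5 h6 h7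
    apply mul_le_mul_of_nonneg_left _ (pow_nonneg hu0 4)
    generalize (2 : ℝ) ^ (m + 2 * S) = Q at h8 ⊢
    generalize (nb d bs : ℝ) = k at h8 ⊢
    have e : Q * (7 / (2 * 10 ^ t)) = (7 * Q) / (2 * 10 ^ t) := by ring
    rw [e, le_div_iff₀ (by positivity)]
    linarith
  · refine ⟨(nq d (add2 (famL m s N A0 A1) (smul2 (-1) (S3L m s N))) : ℕ), ?_⟩
    intro x u hx hu0 hu1
    have h7 := abs_ev2_le_q 4 d _ h3 hx hu0 hu1
    rw [ev2_add, ev2_smul] at h7
    clear h2 h3 h4 h5 h6
    have e : ev2 (famL m s N A0 A1) x u - ev2 (S3L m s N) x u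
      = ev2 (famL m s N A0 A1) x u + ((-1 : Int) : ℝ) * ev2 (S3L m s N) x u := by push_cast; ring
    rw [e]
    exact h7
  · intro x u hx hu0 hu1
    have h8 := cast_le_pow h5
    clear h2 h3 h5 h6
    cases A0 with
    | nil => simp at h4
    | cons a A =>
      simp only [List.head?_cons, Option.some.injEq] at h4
      have h9 := ev2_near d a A (A1 :: EL m s N) (van2_zero _) hx hu0 hu1
      rw [List.tail_cons, Nat.cast_mul] at h8
      have h10 : (a : ℝ) = N / 2 ^ m * 2 ^ S := by
        have h11 : m + (S - m) = S := by omega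
        rw [h4, Int.cast_mul, Int.cast_pow, ← h11, pow_add]
        field_simp
        congr 2
        omega
      rw [h10] at h9
      clear h4 h10
      refine h9.trans ?_
      rw [le_div_iff₀ (by norm_num), mul_comm]
      exact h8
  · intro x u hx hu0 hu1
    have h7 := abs_ev2_le_q 0 d _ (van2_zero (A1 :: EL m s N)) hx hu0 hu1
    have h8 := cast_le_pow h6
    clear h2 h3 h4 h5 h6
    rw [Nat.cast_mul, Nat.cast_pow, Nat.cast_ofNat, pow_add] at h8
    have e : ev2 (famL m s N A0 A1) x u - ev2 (famL m s N A0 A1) 0 u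
      = x * ev2 (A1 :: EL m s N) x u := by
      unfold famL
      rw [ev2_cons, ev2_cons A0 (A1 :: EL m s N) 0, zero_mul]
      ring
    rw [e, abs_mul, le_div_iff₀ ht2]
    rw [pow_zero, one_mul] at h7
    generalize ev2 (A1 :: EL m s N) x u = w at h7 ⊢
    generalize (nq d (A1 :: EL m s N) : ℝ) = k at h7 h8
    have hk : 0 ≤ k := (abs_nonneg _).trans h7
    calc |x| * |w| * 2 ^ t2 ≤ 1 / 2 ^ d * k * 2 ^ t2 := by gcongr
      _ = (k * 2 ^ t2) / 2 ^ d := by ring
      _ ≤ (2 ^ S * 2 ^ d) / 2 ^ d := by gcongr
      _ = 2 ^ S := by field_simp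

end Crest.Agent.R213.E.C
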