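import Crest.Agent.R213.E.CCheck0
import Crest.Agent.R213.E.NLDefs

/-!
# Row 213, part E: soundness of the cell checks (helper223)
-/

set_option autoImplicit false

open Set

namespace Crest.Agent.R213.E.C.Kr

/-! ### real inequalities -/

/-- the residual of `g + e k` from the three polynomial bounds. -/
theorem real_bound {c0 e δ g k Pg Pk y b gl kb r f x : ℝ} (hc0 : 0 < c0) (hδ : 0 ≤ δ)
    (hcδ : 0 < c0 - δ) (he : |e| ≤ δ) (hgl : 0 < gl) (hg : gl ≤ g) (hk : |k| ≤ kb)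
    (hglk : 0 < gl - δ * kb) (hy : 0 ≤ y) (hyb : y ≤ b)
    (h1 : |c0 * g * (Pg + 90) + y ^ 2 / 2 * (g - c0)| ≤ r)
    (h2 : |c0 ^ 2 * g ^ 2 * Pk + y ^ 2 / 2 * (c0 ^ 2 * k - g ^ 2)| ≤ f)
    (h3 : |y ^ 2 * (g ^ 3 - c0 ^ 3 * k ^ 2)| ≤ x) :
    |Pg + e * Pk + 90 + y ^ 2 / 2 * (1 / (c0 + e) - 1 / (g + e * k))| ≤
      r / (c0 * gl) + δ * (f / (c0 ^ 2 * gl ^ 2)) + δ ^ 2 * (x / (2 * c0 ^ 3 * gl ^ 3))
        + δ ^ 3 * (b ^ 2 / 2) * (1 / ((c0 - δ) * c0 ^ 3) + kb ^ 3 / ((gl - δ * kb) * gl ^ 3)) := by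
  have hg0 : 0 < g := hgl.trans_le hg
  have hkb : 0 ≤ kb := (abs_nonneg k).trans hk
  have hr : 0 ≤ r := (abs_nonneg _).trans h1
  have hf : 0 ≤ f := (abs_nonneg _).trans h2
  have hx : 0 ≤ x := (abs_nonneg _).trans h3
  obtain ⟨e1, e2⟩ := abs_le.1 he
  have hc : 0 < c0 + e := by linarith
  have hek : |e * k| ≤ δ * kb := by rw [abs_mul]; gcongr
  have hG : gl - δ * kb ≤ g + e * k := by
    have := (abs_le.1 hek).1; linarith
  have hG0 : 0 < g + e * k := hglk.trans_le hG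
  -- decomposition
  have key : Pg + e * Pk + 90 + y ^ 2 / 2 * (1 / (c0 + e) - 1 / (g + e * k)) =
      (c0 * g * (Pg + 90) + y ^ 2 / 2 * (g - c0)) / (c0 * g)
      + e * ((c0 ^ 2 * g ^ 2 * Pk + y ^ 2 / 2 * (c0 ^ 2 * k - g ^ 2)) / (c0 ^ 2 * g ^ 2))
      + e ^ 2 * (y ^ 2 * (g ^ 3 - c0 ^ 3 * k ^ 2) / (2 * c0 ^ 3 * g ^ 3))
      + e ^ 3 * (y ^ 2 / 2) * (-(1 / ((c0 + e) * c0 ^ 3)) + k ^ 3 / ((g + e * k) * g ^ 3)) := by
    have a1 := hc0.ne'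
    have a2 := hg0.ne'
    have a3 := hc.ne'
    have a4 := hG0.ne'
    field_simp
    ring
  rw [key]
  have t1 : |(c0 * g * (Pg + 90) + y ^ 2 / 2 * (g - c0)) / (c0 * g)| ≤ r / (c0 * gl) := by
    rw [abs_div, abs_of_pos (by positivity : 0 < c0 * g)]
    gcongr
  have t2 : |e * ((c0 ^ 2 * g ^ 2 * Pk + y ^ 2 / 2 * (c0 ^ 2 * k - g ^ 2)) / (c0 ^ 2 * g ^ 2))|
      ≤ δ * (f / (c0 ^ 2 * gl ^ 2)) := by
    rw [abs_mul, abs_div, abs_of_pos (by positivity : 0 < c0 ^ 2 * g ^ 2)]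
    gcongr
  have t3 : |e ^ 2 * (y ^ 2 * (g ^ 3 - c0 ^ 3 * k ^ 2) / (2 * c0 ^ 3 * g ^ 3))|
      ≤ δ ^ 2 * (x / (2 * c0 ^ 3 * gl ^ 3)) := by
    rw [abs_mul, abs_div, abs_of_pos (by positivity : 0 < 2 * c0 ^ 3 * g ^ 3), abs_pow]
    gcongr
  have t4 : |e ^ 3 * (y ^ 2 / 2) * (-(1 / ((c0 + e) * c0 ^ 3)) + k ^ 3 / ((g + e * k) * g ^ 3))|
      ≤ δ ^ 3 * (b ^ 2 / 2) * (1 / ((c0 - δ) * c0 ^ 3) + kb ^ 3 / ((gl - δ * kb) * gl ^ 3)) := by
    rw [abs_mul, abs_mul, abs_pow, abs_of_nonneg (by positivity : 0 ≤ y ^ 2 / 2)]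
    have u1 : |-(1 / ((c0 + e) * c0 ^ 3)) + k ^ 3 / ((g + e * k) * g ^ 3)| ≤
        1 / ((c0 - δ) * c0 ^ 3) + kb ^ 3 / ((gl - δ * kb) * gl ^ 3) := by
      refine (abs_add_le _ _).trans ?_
      rw [abs_neg, abs_of_pos (by positivity : 0 < 1 / ((c0 + e) * c0 ^ 3)), abs_div, abs_pow,
        abs_of_pos (by positivity : 0 < (g + e * k) * g ^ 3)]
      have u2 : 1 / ((c0 + e) * c0 ^ 3) ≤ 1 / ((c0 - δ) * c0 ^ 3) := by
        apply one_div_le_one_div_of_le (by positivity)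
        gcongr
        linarith
      have u3 : |k| ^ 3 / ((g + e * k) * g ^ 3) ≤ kb ^ 3 / ((gl - δ * kb) * gl ^ 3) := by
        gcongr
      linarith
    gcongr
  refine (abs_add_le _ _).trans (add_le_add ((abs_add_le _ _).trans (add_le_add
    ((abs_add_le _ _).trans (add_le_add t1 t2)) t3)) t4)

/-- the residual in the first cell (`k = 0`), divided by `y²`. -/
theorem real_bound0 {c0 e δ g Pg y gl q : ℝ} (hc0 : 0 < c0) (hδ : 0 ≤ δ)
    (hcδ : 0 < c0 - δ) (he : |e| ≤ δ) (hgl : 0 < gl) (hg : gl ≤ g)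
    (h1 : |c0 * g * (Pg + 90) + y ^ 2 / 2 * (g - c0)| ≤ y ^ 2 * q) :
    |Pg + e * 0 + 90 + y ^ 2 / 2 * (1 / (c0 + e) - 1 / (g + e * 0))| ≤
      (q / (c0 * gl) + δ / (2 * (c0 - δ) * c0)) * y ^ 2 := by
  have hg0 : 0 < g := hgl.trans_le hg
  obtain ⟨e1, e2⟩ := abs_le.1 he
  have hc : 0 < c0 + e := by linarith
  have key : Pg + e * 0 + 90 + y ^ 2 / 2 * (1 / (c0 + e) - 1 / (g + e * 0)) =
      (c0 * g * (Pg + 90) + y ^ 2 / 2 * (g - c0)) / (c0 * g)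
      + y ^ 2 * (-e / (2 * (c0 + e) * c0)) := by
    have a1 := hc0.ne'
    have a2 := hg0.ne'
    have a3 := hc.ne'
    simp only [mul_zero, add_zero]
    field_simp
    ring
  rw [key]
  have hyq : 0 ≤ y ^ 2 * q := (abs_nonneg _).trans h1
  have t1 : |(c0 * g * (Pg + 90) + y ^ 2 / 2 * (g - c0)) / (c0 * g)| ≤ y ^ 2 * q / (c0 * gl) := by
    rw [abs_div, abs_of_pos (by positivity : 0 < c0 * g)]
    gcongr
  have t2 : |y ^ 2 * (-e / (2 * (c0 + e) * c0))| ≤ y ^ 2 * (δ / (2 * (c0 - δ) * c0)) := by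
    rw [abs_mul, abs_of_nonneg (sq_nonneg y), abs_div, abs_neg,
      abs_of_pos (by positivity : 0 < 2 * (c0 + e) * c0)]
    gcongr
    linarith
  calc _ ≤ _ := abs_add_le _ _
    _ ≤ y ^ 2 * q / (c0 * gl) + y ^ 2 * (δ / (2 * (c0 - δ) * c0)) := add_le_add t1 t2
    _ = _ := by ring

/-- coercivity from the polynomial inequality. -/
theorem real_B {g y B w : ℝ} (hg : 0 < g) (hy : 0 < y) (hw : w = 1 + y ^ 2 / 16)
    (h : 0 < 2 * g ^ 2 * (-(525 / 8) * w ^ 3 + 387 / 4 * w ^ 2 + 45 / 2 * w - 51) + w ^ 3 * y ^ 2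
      - 2 * B * g ^ 2 * w ^ 3 * y ^ 2) :
    B ≤ bet0 4 y / y ^ 2 + 1 / (2 * g ^ 2) := by
  have hw0 : 0 < w := by rw [hw]; positivity
  have hu : uu 4 y = 1 / w := by
    unfold uu; rw [hw]; norm_num
  have key : bet0 4 y / y ^ 2 + 1 / (2 * g ^ 2) - B =
      (2 * g ^ 2 * (-(525 / 8) * w ^ 3 + 387 / 4 * w ^ 2 + 45 / 2 * w - 51) + w ^ 3 * y ^ 2
      - 2 * B * g ^ 2 * w ^ 3 * y ^ 2) / (2 * g ^ 2 * w ^ 3 * y ^ 2) := by
    unfold bet0; rw [hu]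
    field_simp
  have : 0 < bet0 4 y / y ^ 2 + 1 / (2 * g ^ 2) - B := by rw [key]; positivity
  linarith

/-! ### values and norms of the formal polynomials -/

theorem evI_single (a x : Int) : evI [a] x = a := by simp [evI]
theorem l1_single (a : Int) : l1 [a] = a.natAbs := by simp [l1]

theorem evI_resI (c : Cell) (x : Int) :
    evI (resI c) x = vres (evI c.G x) (evI (Pth c.M c.G) x) (evI (yy c) x) := by
  simp only [resI, vres, evI_add, evI_smul, evI_mul, evI_sub, evI_single]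

theorem l1_resI (c : Cell) :
    l1 (resI c) ≤ nres (l1 c.G) (l1 (Pth c.M c.G)) (l1 (yy c)) := by
  unfold resI nres
  refine (l1_add _ _).trans (add_le_add ?_ ?_)
  · rw [l1_smul]
    refine Nat.mul_le_mul (by simp [Int.natAbs_mul, Int.natAbs_pow]) ?_
    refine (l1_mul _ _).trans (Nat.mul_le_mul le_rfl ((l1_add _ _).trans ?_))
    rw [l1_single]
    simp [Int.natAbs_mul, Int.natAbs_pow]
  · rw [l1_smul]
    refine Nat.mul_le_mul (by simp [Int.natAbs_pow]) ?_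
    refine (l1_mul _ _).trans (Nat.mul_le_mul le_rfl ((l1_sub _ _).trans ?_))
    rw [l1_single, l1_smul]
    simp [Int.natAbs_mul, Int.natAbs_pow]

theorem evI_FkI (c : Cell) (x : Int) :
    evI (FkI c) x = vF (evI c.G x) (evI c.Kd x) (evI (Pth c.M c.Kd) x) (evI (yy c) x) := by
  simp only [FkI, vF, evI_add, evI_smul, evI_mul, evI_sub]

theorem l1_FkI (c : Cell) :
    l1 (FkI c) ≤ nF (l1 c.G) (l1 c.Kd) (l1 (Pth c.M c.Kd)) (l1 (yy c)) := by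
  unfold FkI nF
  refine (l1_add _ _).trans (add_le_add ?_ ?_)
  · rw [l1_smul]
    refine Nat.mul_le_mul (by simp [Int.natAbs_mul, Int.natAbs_pow]) ?_
    exact (l1_mul _ _).trans (Nat.mul_le_mul (l1_mul _ _) le_rfl)
  · refine (l1_mul _ _).trans (Nat.mul_le_mul le_rfl ((l1_sub _ _).trans ?_))
    rw [l1_smul, l1_smul]
    refine add_le_add (Nat.mul_le_mul (by simp [Int.natAbs_mul, Int.natAbs_pow]) le_rfl) ?_
    exact Nat.mul_le_mul (by simp [Int.natAbs_pow]) (l1_mul _ _)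

theorem evI_XI (c : Cell) (x : Int) :
    evI (XI c) x = vX (evI c.G x) (evI c.Kd x) (evI (yy c) x) := by
  simp only [XI, vX, evI_smul, evI_mul, evI_sub]

theorem l1_XI (c : Cell) : l1 (XI c) ≤ nX (l1 c.G) (l1 c.Kd) (l1 (yy c)) := by
  unfold XI nX
  refine (l1_mul _ _).trans (Nat.mul_le_mul le_rfl ((l1_sub _ _).trans ?_))
  rw [l1_smul, l1_smul]
  refine add_le_add (Nat.mul_le_mul (by simp [Int.natAbs_pow]) ?_)
    (Nat.mul_le_mul (by simp [Int.natAbs_mul, Int.natAbs_pow]) (l1_mul _ _))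
  exact (l1_mul _ _).trans (Nat.mul_le_mul le_rfl (l1_mul _ _))

theorem evI_Wd (c : Cell) (d : ℕ) (σ x : Int) :
    evI (Wd c d σ) x = 2 ^ (10 + 2 * d) + evI (yd c d σ) x := by
  simp only [Wd, evI_add, evI_single]

theorem l1_Wd (c : Cell) (d : ℕ) (σ : Int) :
    l1 (Wd c d σ) ≤ 2 ^ (10 + 2 * d) + l1 (yd c d σ) := by
  refine (l1_add _ _).trans ?_
  rw [l1_single]
  simp [Int.natAbs_pow]

theorem evI_BI (c : Cell) (d : ℕ) (σ x : Int) :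
    evI (BI c d σ) x = vB d (evR d (x + σ) c.G) (evI (yd c d σ) x)
      (2 ^ (10 + 2 * d) + evI (yd c d σ) x) c.G.length c.B3 := by
  simp only [BI, vB, evI_add, evI_smul, evI_mul, evI_restr, evI_Wd, evI_single]

theorem l1_BI (c : Cell) (d : ℕ) (σ : Int) (hσ : σ.natAbs + 1 ≤ 2 ^ d) :
    l1 (BI c d σ) ≤ nB d (2 ^ (d * c.G.length) * l1 c.G) (l1 (yd c d σ))
      (2 ^ (10 + 2 * d) + l1 (yd c d σ)) c.G.length c.B3 := by
  have hG := l1_restr d σ hσ c.G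
  have hW := l1_Wd c d σ
  have hG2 := (l1_mul (restr d σ c.G) (restr d σ c.G)).trans (Nat.mul_le_mul hG hG)
  have hW2 := (l1_mul (Wd c d σ) (Wd c d σ)).trans (Nat.mul_le_mul hW hW)
  have hW3 := (l1_mul (Wd c d σ) (mul (Wd c d σ) (Wd c d σ))).trans (Nat.mul_le_mul hW hW2)
  unfold BI nB
  refine (l1_add _ _).trans (add_le_add ?_ ?_)
  · rw [l1_smul]
    refine Nat.mul_le_mul (by simp) ((l1_mul _ _).trans (Nat.mul_le_mul hG2 ?_))
    refine (l1_add _ _).trans (add_le_add ?_ ((l1_add _ _).trans (add_le_add ?_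
      ((l1_add _ _).trans (add_le_add ?_ ?_)))))
    · rw [l1_smul]; exact Nat.mul_le_mul (by simp [Int.natAbs_mul, Int.natAbs_pow]) hW3
    · rw [l1_smul]; exact Nat.mul_le_mul (by simp [Int.natAbs_mul, Int.natAbs_pow]) hW2
    · rw [l1_smul]; exact Nat.mul_le_mul (by simp [Int.natAbs_mul, Int.natAbs_pow]) hW
    · rw [l1_single]; simp [Int.natAbs_mul, Int.natAbs_pow]
  · refine (l1_mul _ _).trans (Nat.mul_le_mul ((l1_mul _ _).trans (Nat.mul_le_mul hW3 le_rfl)) ?_)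
    refine (l1_add _ _).trans (add_le_add ?_ ?_)
    · rw [l1_single]; simp [Int.natAbs_mul, Int.natAbs_pow]
    · rw [l1_smul]; exact Nat.mul_le_mul (by simp [Int.natAbs_mul]) hG2

end Crest.Agent.R213.E.C.Kr
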