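import Crest.Agent.R213.E.CFast
import Crest.Agent.R213.E.CertData

/-!
# Row 213, part E, certificate: kernel check of the tail (helper472)
-/

set_option autoImplicit false
set_option Elab.async false

open Set

namespace Crest.Agent.R213.E.C

/-- level bounds for the numerator of the residual -/
def tailBs : List ℕ :=
  [2 ^ 927, 2 ^ 938, (349 * 2 ^ 1040) / 10 ^ 16, 2 ^ 1002, 2 ^ 1002, 2 ^ 1002, 2 ^ 1001, 2 ^ 999,
    2 ^ 997, 2 ^ 995, 2 ^ 993, 2 ^ 991, 2 ^ 988, 2 ^ 986, 2 ^ 982, 2 ^ 979]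

/-- digit lists of the packed numerator -/
def tailQ : List (List Int) :=
  (numP 60 464 C0 (2 ^ 1024) (famL 60 2 C0 A0 A1)).map (digs (2 ^ 1024) 57)

theorem tail_check1 : resB 60 464 C0 (famL 60 2 C0 A0 A1) 1024 tailBs tailQ = true := by
  decide +kernel

theorem tail_check2 : tailB2 60 2 464 C0 A0 A1 26 14 25 tailBs = true := by
  decide +kernel

theorem tail_ok : TailOK 60 2 464 C0 A0 A1 26 14 25 := tailOK_of_fast tail_check2 tail_check1

end Crest.Agent.R213.E.C
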