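import Crest.Agent.R213.E.CPoly

/-!
# Row 213, part E, certificate: tail tooling (helper472)

* `tl Y S A r y` = `r`-th derivative (in `y`) of `ev A (Y²/y²) / 2^S`, a polynomial in `u = Y²/y²`;
* `ev2 L x u = ∑ x^l ev L_l u`: integer polynomials in two variables as lists of lists.
-/

set_option autoImplicit false

open Set

namespace Crest.Agent.R213.E.C

/-- coefficient `a_j ↦ (k - 2 j) a_j` -/
def scA : Int → List Int → List Int
  | _, [] => []
  | k, a :: p => (k * a) :: scA (k - 2) p

theorem ev_scA (k : Int) (p : List Int) (t : ℝ) :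
    ev (scA k p) t = k * ev p t - 2 * (t * ev (der p) t) := by
  induction p generalizing k with
  | nil => simp [scA, der]
  | cons a p ih =>
    simp only [scA, ev_cons, ih, ev_der_cons]
    push_cast
    ring

/-- `r` derivatives of a polynomial in `u = Y²/y²` (times `y^r`) -/
def scn : ℕ → List Int → List Int
  | 0, A => A
  | r + 1, A => scA (-(r : Int)) (scn r A)

/-- `r`-th derivative of `y ↦ ev A (Y²/y²) / 2^S` -/
noncomputable def tl (Y : ℝ) (S : ℕ) (A : List Int) (r : ℕ) (y : ℝ) : ℝ :=
  ev (scn r A) (Y ^ 2 / y ^ 2) / 2 ^ S / y ^ r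

theorem hasDerivAt_tl (Y : ℝ) (S : ℕ) (A : List Int) (r : ℕ) {y : ℝ} (hy : y ≠ 0) :
    HasDerivAt (tl Y S A r) (tl Y S A (r + 1) y) y := by
  have h1 : HasDerivAt (fun y : ℝ => Y ^ 2 / y ^ 2) (-2 * Y ^ 2 / y ^ 3) y := by
    have := (hasDerivAt_const y (Y ^ 2)).div (hasDerivAt_pow 2 y) (pow_ne_zero 2 hy)
    refine this.congr_deriv ?_
    field_simp
    push_cast
    ring
  have h2 := ((hasDerivAt_ev (scn r A) (Y ^ 2 / y ^ 2)).comp y h1).div_const ((2 : ℝ) ^ S)
  have h3 := h2.div (hasDerivAt_pow r y) (pow_ne_zero r hy)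
  refine h3.congr_deriv ?_
  simp only [tl, scn, ev_scA, Function.comp]
  cases r with
  | zero => simp; field_simp
  | succ n =>
    simp only [Nat.add_sub_cancel]
    field_simp
    push_cast
    ring

/-- `P(θ)` on the tail functions -/
def PthU (A : List Int) : List Int :=
  add (scn 3 A) (add (smul 21 (scn 2 A)) (add (smul 90 (scn 1 A)) (smul (-90) A)))

theorem PthU_tl (Y : ℝ) (S : ℕ) (A : List Int) {y : ℝ} (hy : y ≠ 0) :
    y ^ 3 * tl Y S A 3 y + 21 * y ^ 2 * tl Y S A 2 y + 90 * y * tl Y S A 1 y - 90 * tl Y S A 0 y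
      = ev (PthU A) (Y ^ 2 / y ^ 2) / 2 ^ S := by
  simp only [tl, PthU, ev_add, ev_smul]
  push_cast
  field_simp
  simp only [scn]
  ring

/-! ### two variables -/

/-- `∑ x^l ev L_l u` -/
noncomputable def ev2 : List (List Int) → ℝ → ℝ → ℝ
  | [], _, _ => 0
  | a :: L, x, u => ev a u + x * ev2 L x u

@[simp] theorem ev2_nil (x u : ℝ) : ev2 [] x u = 0 := rfl
@[simp] theorem ev2_cons (a : List Int) (L : List (List Int)) (x u : ℝ) :
    ev2 (a :: L) x u = ev a u + x * ev2 L x u := rfl

def add2 : List (List Int) → List (List Int) → List (List Int)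
  | [], q => q
  | a :: p, [] => a :: p
  | a :: p, b :: q => add a b :: add2 p q

@[simp] theorem ev2_add (p q : List (List Int)) (x u : ℝ) :
    ev2 (add2 p q) x u = ev2 p x u + ev2 q x u := by
  induction p generalizing q with
  | nil => simp [add2]
  | cons a p ih =>
    cases q with
    | nil => simp [add2]
    | cons b q => simp [add2, ih]; ring

/-- multiply by a one variable polynomial in `u` -/
def mulu (a : List Int) : List (List Int) → List (List Int)
  | [] => []
  | b :: p => mul a b :: mulu a p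

@[simp] theorem ev2_mulu (a : List Int) (p : List (List Int)) (x u : ℝ) :
    ev2 (mulu a p) x u = ev a u * ev2 p x u := by
  induction p with
  | nil => simp [mulu]
  | cons b p ih => simp [mulu, ih]; ring

def smul2 (c : Int) : List (List Int) → List (List Int)
  | [] => []
  | b :: p => smul c b :: smul2 c p

@[simp] theorem ev2_smul (c : Int) (p : List (List Int)) (x u : ℝ) :
    ev2 (smul2 c p) x u = c * ev2 p x u := by
  induction p with
  | nil => simp [smul2]
  | cons b p ih => simp [smul2, ih]; ring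

def mul2 : List (List Int) → List (List Int) → List (List Int)
  | [], _ => []
  | a :: p, q => add2 (mulu a q) ([] :: mul2 p q)

@[simp] theorem ev2_mul (p q : List (List Int)) (x u : ℝ) :
    ev2 (mul2 p q) x u = ev2 p x u * ev2 q x u := by
  induction p with
  | nil => simp [mul2]
  | cons a p ih => simp [mul2, ih]; ring

/-- apply `P(θ)` levelwise -/
def PthU2 : List (List Int) → List (List Int)
  | [] => []
  | a :: p => PthU a :: PthU2 p

/-- the first `k` coefficients vanish -/
def van : ℕ → List Int → Bool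
  | 0, _ => true
  | _ + 1, [] => true
  | k + 1, a :: p => decide (a = 0) && van k p

/-- split bound: `l1` of the coefficients of index in `[k, k+m)` and of those `≥ k+m` -/
def lowl1 : ℕ → List Int → ℕ
  | 0, _ => 0
  | _ + 1, [] => 0
  | m + 1, a :: p => a.natAbs + lowl1 m p

theorem abs_ev_le_pow (k : ℕ) (p : List Int) (hv : van k p = true) {u : ℝ} (h0 : 0 ≤ u)
    (h1 : u ≤ 1) : |ev p u| ≤ u ^ k * l1 p := by
  induction k generalizing p with
  | zero => simpa using abs_ev_le p (abs_le.2 ⟨by linarith, h1⟩)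
  | succ k ih =>
    cases p with
    | nil => simp [l1]
    | cons a p =>
      simp only [van, Bool.and_eq_true, decide_eq_true_eq] at hv
      have := ih p hv.2
      simp only [ev_cons, hv.1, l1, Int.cast_zero, zero_add, Int.natAbs_zero]
      rw [abs_mul, abs_of_nonneg h0, pow_succ]
      calc u * |ev p u| ≤ u * (u ^ k * l1 p) := by gcongr
        _ = u ^ k * u * l1 p := by ring

/-- sharper: `|ev p u| ≤ low + u^m * high` -/
theorem abs_ev_le_split (m : ℕ) (p : List Int) {u : ℝ} (h0 : 0 ≤ u) (h1 : u ≤ 1) :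
    |ev p u| ≤ lowl1 m p + u ^ m * l1 (p.drop m) := by
  induction m generalizing p with
  | zero => simpa [lowl1] using abs_ev_le p (abs_le.2 ⟨by linarith, h1⟩)
  | succ m ih =>
    cases p with
    | nil => simp [lowl1, l1]
    | cons a p =>
      have := ih p
      simp only [ev_cons, lowl1, List.drop_succ_cons]
      have h2 : |(a : ℝ)| = (a.natAbs : ℝ) := by rw [Nat.cast_natAbs, Int.cast_abs]
      calc |(a : ℝ) + u * ev p u| ≤ |(a : ℝ)| + |u * ev p u| := abs_add_le _ _
        _ ≤ a.natAbs + u * (lowl1 m p + u ^ m * l1 (p.drop m)) := by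
          rw [abs_mul, abs_of_nonneg h0, h2]; gcongr
        _ ≤ a.natAbs + (1 * lowl1 m p + u * (u ^ m * l1 (p.drop m))) := by
          rw [mul_add]; gcongr
        _ = ((a.natAbs + lowl1 m p : ℕ) : ℝ) + u ^ (m + 1) * l1 (p.drop m) := by
          push_cast; ring

/-- all levels start with `k` zeros -/
def van2 (k : ℕ) : List (List Int) → Bool
  | [] => true
  | a :: L => van k a && van2 k L

/-- `∑ X^l l1 L_l` -/
def n1 (X : ℕ) : List (List Int) → ℕ
  | [] => 0
  | a :: L => l1 a + X * n1 X L

theorem abs_ev2_le (k X : ℕ) (L : List (List Int)) (hv : van2 k L = true) {x u : ℝ}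
    (hx : |x| ≤ X) (h0 : 0 ≤ u) (h1 : u ≤ 1) : |ev2 L x u| ≤ u ^ k * n1 X L := by
  induction L with
  | nil => simp [n1]
  | cons a L ih =>
    simp only [van2, Bool.and_eq_true] at hv
    have h2 := abs_ev_le_pow k a hv.1 h0 h1
    have h3 := ih hv.2
    simp only [ev2_cons, n1]
    calc |ev a u + x * ev2 L x u| ≤ |ev a u| + |x * ev2 L x u| := abs_add_le _ _
      _ ≤ u ^ k * l1 a + X * (u ^ k * n1 X L) := by rw [abs_mul]; gcongr
      _ = u ^ k * ((l1 a + X * n1 X L : ℕ) : ℝ) := by push_cast; ring

end Crest.Agent.R213.E.C
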