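import Crest.Agent.R213.E.CertFam
import Crest.Agent.R213.E.CCheck

/-!
# Row 213, part E: `CellFacts` (helper223)
-/

set_option autoImplicit false

open Set

namespace Crest.Agent.R213.E.C.Kr

/-- every point lies in a piece. -/
theorem exists_pc {K : ℕ} : ∀ (l : List Pc) (p : Pc), chain (p :: l) = true → ∀ y : ℝ, p.a K < y →
    (∀ q, (p :: l).getLast? = some q → y ≤ q.b K) → ∃ q ∈ p :: l, q.a K < y ∧ y ≤ q.b K := by
  intro l
  induction l with
  | nil => intro p _ y h1 h2; exact ⟨p, by simp, h1, h2 p rfl⟩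
  | cons r l ih =>
    intro p hc y h1 h2
    rcases le_or_gt y (p.b K) with h | h
    · exact ⟨p, by simp, h1, h⟩
    · have hc' := hc
      simp only [chain, Bool.and_eq_true, decide_eq_true_eq] at hc
      have hj := hc.1.2
      rw [joint_ends hj] at h
      obtain ⟨q, hq, h3, h4⟩ := ih r (chain_tail hc') y h (fun q hq => h2 q (by simpa using hq))
      exact ⟨q, List.mem_cons_of_mem _ hq, h3, h4⟩

theorem cells_cons : ∃ l, cells = cell1 :: l := ⟨cells.tail, cells_eq⟩

theorem exists_cell {y : ℝ} (h0 : 0 < y) (h1 : y ≤ 128) :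
    ∃ c ∈ cells, c.gP.a KE < y ∧ y ≤ c.gP.b KE := by
  have hc := chain_g
  have hl := last_g
  rw [cells_eq, List.map_cons] at hc hl
  have ha : cell1.gP.a KE = 0 := by
    unfold Pc.a
    have : cell1.gP.M = 1 := cell1_M
    rw [this]; simp
  obtain ⟨q, hq, h2, h3⟩ := exists_pc _ _ hc y (by rw [ha]; exact h0)
    (fun q hq => by rw [(hl q hq).2]; exact h1)
  rw [← List.map_cons, ← cells_eq] at hq
  obtain ⟨c, hc, rfl⟩ := List.mem_map.1 hq
  exact ⟨c, hc, h2, h3⟩

theorem gg_eq {c : Cell} (hc : c ∈ cells) {y : ℝ} (h1 : c.gP.a KE < y) (h2 : y ≤ c.gP.b KE) (r : ℕ) :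
    gg r y = c.gP.f KE SE r y :=
  pw_eq_f _ chain_g _ (List.mem_map_of_mem hc) y h1 h2 r

theorem kk_eq {c : Cell} (hc : c ∈ cells) {y : ℝ} (h1 : c.gP.a KE < y) (h2 : y ≤ c.gP.b KE) (r : ℕ) :
    kk r y = c.kP.f KE SE r y :=
  pw_eq_f _ chain_k _ (List.mem_map_of_mem hc) y h1 h2 r

end Crest.Agent.R213.E.C.Kr

namespace Crest.Agent.R213.E

open C C.Kr

theorem cellFacts : CellFacts where
  cell := by
    intro y h0 h1
    obtain ⟨c, hc, ha, hb⟩ := C.Kr.exists_cell h0 h1
    obtain ⟨g1, g2, k1, -⟩ := gk_bds hc ha hb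
    refine ⟨c, hc, ⟨ha, hb, ?_, ?_, ?_⟩, ?_⟩
    · rw [gg_eq hc ha hb]; exact g1
    · rw [gg_eq hc ha hb]; exact g2
    · rw [kk_eq hc ha hb]; exact k1
    · rw [gg_eq hc ha hb]; exact cell_B hc ha hb
  res := by
    intro c hcI y h0 h1
    obtain ⟨q, hq, ha, hb⟩ := C.Kr.exists_cell h0 h1
    have he := c_abs hcI
    have hcc : c = cc0 + (c - cst.c0) := by
      rw [cst_c0]; unfold cc0; ring
    rw [gg_eq hq ha hb, gg_eq hq ha hb, gg_eq hq ha hb, gg_eq hq ha hb, kk_eq hq ha hb,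
      kk_eq hq ha hb, kk_eq hq ha hb, kk_eq hq ha hb]
    have hq' := hq
    rw [cells_eq] at hq'
    rcases List.mem_cons.1 hq' with h | h
    · have hq1 : q ∈ cells.take 1 := by rw [cells_eq, h]; simp
      have := cell_first hq1 ha hb he
      rw [← hcc] at this
      have hy2 : y ≤ 2 := by
        refine hb.trans_eq ?_
        rw [gP_b, h, cell1_H, cell1_M]; norm_num
      rw [St.sd_R_zero hy2]
      exact this
    · have := cell_resid hq ha hb he
      rw [← hcc] at this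
      rw [St.sd_R_cell h (by rw [St.aQ_cast]; exact ha) (by rw [St.b_cast]; exact hb), St.R_cast]
      exact this

end Crest.Agent.R213.E
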