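import Crest.Agent.R213.E.CertBd

set_option autoImplicit false

open Set

namespace Crest.Agent.R213.E.C

/-- the first cell, `(0,2]` -/
def cell1 : Cell := cells.headD ⟨0, 0, 0, [], 0, [], 0, 0, 0, 0, 0⟩

theorem cells_eq : cells = cell1 :: cells.tail := rfl

theorem cell1_H : cell1.H = 8 := rfl
theorem cell1_M : cell1.M = 1 := rfl

theorem pw_one_g (T : ℕ → ℝ → ℝ) : pw KE SE (cells.map Cell.gP) T 0 1 = ev cell1.G 0 / 2 ^ SE := by
  have hb : (cell1.gP).b KE = 2 := by rw [gP_b, cell1_H, cell1_M]; norm_num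
  rw [cells_eq, List.map_cons, pw, if_pos (by rw [hb]; norm_num)]
  simp [Pc.f, dern, Pc.h, Cell.gP, cell1_H, cell1_M, KE]
  norm_num

theorem pw_one_k (T : ℕ → ℝ → ℝ) : pw KE SE (cells.map Cell.kP) T 0 1 = 0 := by
  have hb : (cell1.kP).b KE = 2 := by
    have : cell1.kP.b KE = cell1.gP.b KE := rfl
    rw [this, gP_b, cell1_H, cell1_M]; norm_num
  rw [cells_eq, List.map_cons, pw, if_pos (by rw [hb]; norm_num)]
  have : cell1.kP.P = [] := rfl
  simp [Pc.f, dern, this]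

theorem pw_one_le (T : ℕ → ℝ → ℝ) : pw KE SE (cells.map Cell.gP) T 0 1 ≤ 879 / 1000 := by
  rw [pw_one_g]
  have e : ev cell1.G 0 = (evI cell1.G 0 : ℝ) := by simpa using ev_int cell1.G 0
  have h : (1000 : ℝ) * (evI cell1.G 0 : ℝ) ≤ 879 * 2 ^ SE := by
    exact_mod_cast (by decide +kernel : 1000 * evI cell1.G 0 ≤ 879 * 2 ^ SE)
  rw [e, div_le_iff₀ (by positivity)]
  linarith

end Crest.Agent.R213.E.C
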