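import Crest.Agent.R213.E.CFamTail
import Crest.Agent.R213.E.CertOne

/-!
# Row 213, part E, E-CERT: the residual on the first cell `(0,2]` (helper472)
-/

set_option autoImplicit false
set_option Elab.async false

open Set

namespace Crest.Agent.R213.E.C

/-- synthetic division by `1 + t` (the last entry is the remainder) -/
def dvA : Int → List Int → List Int
  | _, [] => []
  | r, a :: p => (a - r) :: dvA (a - r) p

/-- quotient by `(1+t)` -/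
def dv1 (p : List Int) : List Int := (dvA 0 p).dropLast

/-- `P(θ) g + 90` -/
def c1P : List Int := add (Pth 1 cell1.G) [90 * 2 ^ 464]
/-- its quotient by `(1+t)²` -/
def c1Q : List Int := dv1 (dv1 c1P)

def c1A0 : List Int :=
  add (mul (smul C0 cell1.G) c1Q) (add (smul (2 ^ 523) cell1.G) [-(2 ^ 927 * C0)])
def c1A1 : List Int := smul (2 ^ 60) (add (mul cell1.G c1Q) [-(2 ^ 927)])

def c1B : Bool :=
  decide (mul [1, 2, 1] c1Q = c1P) && (decide (7493 * 2 ^ 464 ≤ 10000 * lo cell1.G) &&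
  decide (10 ^ 16 * (l1 c1A0 * 2 ^ 26 + l1 c1A1) ≤ 2 * 7139 * 7493 * 2 ^ (988 + 26)))

theorem c1B_ok : c1B = true := by decide +kernel

theorem gg_one {y : ℝ} (hy : y ≤ 2) (r : ℕ) :
    gg r y = ev (dern r cell1.G) (y - 1) / 2 ^ 464 := by
  have hb : (cell1.gP).b KE = 2 := by rw [gP_b, cell1_H, cell1_M]; norm_num
  unfold gg
  rw [cells_eq, List.map_cons, pw, if_pos (by rw [hb]; exact hy)]
  simp [Pc.f, Pc.h, Cell.gP, cell1_H, cell1_M, KE, SE]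
  norm_num

theorem kk_one {y : ℝ} (hy : y ≤ 2) (r : ℕ) : kk r y = 0 := by
  have hb : (cell1.kP).b KE = 2 := by
    have : cell1.kP.b KE = cell1.gP.b KE := rfl
    rw [this, gP_b, cell1_H, cell1_M]; norm_num
  unfold kk
  rw [cells_eq, List.map_cons, pw, if_pos (by rw [hb]; exact hy)]
  have : cell1.kP.P = [] := rfl
  have hd : ∀ r, dern r ([] : List Int) = [] := by
    intro r; induction r with
    | zero => rfl
    | succ r ih => simpa [dern, der] using ih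
  simp [Pc.f, this, hd]

theorem fin1 {y t x c g P : ℝ} (hy0 : 0 < y) (htt : |t| ≤ 1) (hx : |x| ≤ 1 / 2 ^ 26) (hP : 0 < P)
    (hn : (10 : ℝ) ^ 16 * (l1 c1A0 * 2 ^ 26 + l1 c1A1) ≤ 2 * 7139 * 7493 * (P * 2 ^ 26))
    (hc : 7139 / 10000 ≤ c) (hg : 7493 / 10000 ≤ g) :
    |y ^ 2 * ((ev c1A0 t + x * ev c1A1 t) / (P * c * g))| ≤ 2 / 10 ^ 8 * y ^ 2 := by
  have hc0 : 0 < c := lt_of_lt_of_le (by norm_num) hc
  have hg0 : 0 < g := lt_of_lt_of_le (by norm_num) hg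
  have hpos : 0 < P * c * g := mul_pos (mul_pos hP hc0) hg0
  rw [abs_mul, abs_of_pos (pow_pos hy0 2), mul_comm]
  apply mul_le_mul_of_nonneg_right _ (pow_pos hy0 2).le
  rw [abs_div, abs_of_pos hpos, div_le_iff₀ hpos]
  have a0 := abs_ev_le c1A0 htt
  have a1 := abs_ev_le c1A1 htt
  have a2 : |ev c1A0 t + x * ev c1A1 t| ≤ l1 c1A0 + 1 / 2 ^ 26 * l1 c1A1 := by
    refine (abs_add_le _ _).trans ?_
    rw [abs_mul]
    exact add_le_add a0 (mul_le_mul hx a1 (abs_nonneg _) (by norm_num))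
  refine a2.trans ?_
  clear a0 a1 a2
  generalize (l1 c1A0 : ℝ) = u0 at hn ⊢
  generalize (l1 c1A1 : ℝ) = u1 at hn ⊢
  have hcg : (7139 / 10000 : ℝ) * (7493 / 10000) ≤ c * g :=
    mul_le_mul hc hg (by norm_num) hc0.le
  have h5 : 2 / 10 ^ 8 * (P * (7139 / 10000 * (7493 / 10000))) ≤ 2 / 10 ^ 8 * (P * c * g) := by
    rw [mul_assoc P c g]
    exact mul_le_mul_of_nonneg_left (mul_le_mul_of_nonneg_left hcg hP.le) (by norm_num)
  refine le_trans ?_ h5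
  norm_num at hn ⊢
  linarith

/-- the residual on `(0,2]` -/
theorem res_cell1 {c : ℝ} (hc : |c - C0 / 2 ^ 60| ≤ 1 / 2 ^ 26) {y : ℝ} (hy0 : 0 < y) (hy : y ≤ 2) :
    |resid c y (gg 0 y + (c - C0 / 2 ^ 60) * kk 0 y) (gg 1 y + (c - C0 / 2 ^ 60) * kk 1 y)
      (gg 2 y + (c - C0 / 2 ^ 60) * kk 2 y) (gg 3 y + (c - C0 / 2 ^ 60) * kk 3 y)|
      ≤ 2 / 10 ^ 8 * y ^ 2 := by
  have hB := c1B_ok
  simp only [c1B, Bool.and_eq_true, decide_eq_true_eq] at hB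
  obtain ⟨hP, hl, hn⟩ := hB
  have h1 : ∀ r, gg r y + (c - C0 / 2 ^ 60) * kk r y = ev (dern r cell1.G) (y - 1) / 2 ^ 464 := by
    intro r; rw [kk_one hy, mul_zero, add_zero, gg_one hy]
  rw [h1 0, h1 1, h1 2, h1 3]
  set t : ℝ := y - 1 with ht
  have htt : |t| ≤ 1 := abs_le.2 ⟨by linarith, by linarith⟩
  have hyt : y = 1 + t := by rw [ht]; ring
  set x : ℝ := c - C0 / 2 ^ 60 with hx
  have hC : (7139 / 10000 : ℝ) ≤ C0 / 2 ^ 60 := by norm_num [C0]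
  have hcc : c = C0 / 2 ^ 60 + x := by rw [hx]; ring
  -- lower bound of c: `C0/2^60 - 2^-26 ≥ 7139/10000`
  have hC' : (7139 / 10000 : ℝ) + 1 / 2 ^ 26 ≤ C0 / 2 ^ 60 := by norm_num [C0]
  have hc1 : (7139 / 10000 : ℝ) ≤ c := by rw [hcc]; linarith [(abs_le.1 hc).1]
  have hg : (7493 / 10000 : ℝ) ≤ ev cell1.G t / 2 ^ 464 := by
    have h2 := lo_le cell1.G htt
    have h3 : (7493 : ℝ) * 2 ^ 464 ≤ 10000 * (lo cell1.G : ℝ) := by
      have := (Int.cast_le (R := ℝ)).2 hl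
      rwa [Int.cast_mul, Int.cast_mul, Int.cast_pow, Int.cast_ofNat, Int.cast_ofNat,
        Int.cast_ofNat] at this
    rw [le_div_iff₀ (by positivity)]
    linarith
  set g : ℝ := ev cell1.G t / 2 ^ 464 with hgdef
  have hG : ev cell1.G t = g * 2 ^ 464 := by rw [hgdef]; field_simp
  have hPth := ev_Pth 1 cell1.G t
  have hPP : ev c1P t = (1 + t) ^ 2 * ev c1Q t := by
    rw [← hP, ev_mul]
    simp only [ev_cons, ev_nil]
    push_cast
    ring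
  have hPQ : (1 + t) ^ 3 * ev (dern 3 cell1.G) t + 21 * (1 + t) ^ 2 * ev (dern 2 cell1.G) t
      + 90 * (1 + t) * ev (dern 1 cell1.G) t - 90 * ev cell1.G t + 90 * 2 ^ 464
      = (1 + t) ^ 2 * ev c1Q t := by
    rw [← hPP]
    simp only [c1P, ev_add, hPth, ev_cons, ev_nil, dern]
    push_cast
    ring
  have hres : resid c y (ev (dern 0 cell1.G) t / 2 ^ 464) (ev (dern 1 cell1.G) t / 2 ^ 464)
      (ev (dern 2 cell1.G) t / 2 ^ 464) (ev (dern 3 cell1.G) t / 2 ^ 464)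
      = y ^ 2 * ((ev c1A0 t + x * ev c1A1 t) / (2 ^ 988 * c * g)) := by
    have hc0 : c ≠ 0 := by linarith
    have hg0 : g ≠ 0 := by linarith
    have e0 : ev (dern 0 cell1.G) t = g * 2 ^ 464 := hG
    simp only [c1A0, c1A1, ev_add, ev_mul, ev_smul, ev_cons, ev_nil, hG]
    have hQ : ev c1Q t = ((1 + t) ^ 3 * ev (dern 3 cell1.G) t
      + 21 * (1 + t) ^ 2 * ev (dern 2 cell1.G) t
      + 90 * (1 + t) * ev (dern 1 cell1.G) t - 90 * (g * 2 ^ 464) + 90 * 2 ^ 464) / (1 + t) ^ 2 := by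
      rw [← hG, hPQ]
      have : (1 + t) ≠ 0 := by rw [← hyt]; exact hy0.ne'
      field_simp
    have hx2 : x = c - C0 / 2 ^ 60 := hx
    rw [hQ, e0, hx2]
    simp only [resid]
    have h1t : (1 + t) ≠ 0 := by rw [← hyt]; exact hy0.ne'
    rw [hyt]
    have p1 : (2 : ℝ) ^ 523 = 2 ^ 464 * 2 ^ 59 := by rw [← pow_add]
    have p2 : (2 : ℝ) ^ 927 = 2 ^ 464 * 2 ^ 464 / 2 := by
      rw [eq_div_iff two_ne_zero, ← pow_succ, ← pow_add]
    have p3 : (2 : ℝ) ^ 988 = 2 ^ 464 * 2 ^ 464 * 2 ^ 60 := by rw [← pow_add, ← pow_add]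
    push_cast
    rw [p1, p2, p3]
    have hS : (2 : ℝ) ^ 464 ≠ 0 := pow_ne_zero _ two_ne_zero
    generalize (2 : ℝ) ^ 464 = Q at hS ⊢
    field_simp
    ring
  clear hPQ hPP hPth hP hl h1 hG
  have hn' : (10 : ℝ) ^ 16 * (l1 c1A0 * 2 ^ 26 + l1 c1A1) ≤ 2 * 7139 * 7493 * 2 ^ (988 + 26) := by
    have := (Nat.cast_le (α := ℝ)).2 hn
    rwa [Nat.cast_mul, Nat.cast_add, Nat.cast_mul, Nat.cast_mul, Nat.cast_mul, Nat.cast_mul,
      Nat.cast_pow, Nat.cast_pow, Nat.cast_pow, Nat.cast_ofNat, Nat.cast_ofNat, Nat.cast_ofNat,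
      Nat.cast_ofNat] at this
  clear hn
  have e3 : (2 : ℝ) ^ (988 + 26) = 2 ^ 988 * 2 ^ 26 := pow_add _ _ _
  rw [e3] at hn'
  have hP : (0 : ℝ) < 2 ^ 988 := pow_pos two_pos _
  rw [hres]
  clear hres
  generalize (2 : ℝ) ^ 988 = P at hn' hP ⊢
  exact fin1 hy0 htt hc hP hn' hc1 hg

end Crest.Agent.R213.E.C
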