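import Crest.Agent.R213.E.StepData

/-!
# Row 213, part E, E-CERT: weights, Lipschitz bound, residual bounds from step data (helper587)
-/

set_option autoImplicit false

open Set MeasureTheory Filter Topology

noncomputable section

namespace Crest.Agent.R213.E.St

variable {s : SD}

/-- rational form of the Lipschitz bound -/
def lipB (lo e : ℚ) : ℚ := 1 / (2 * (lo - e) ^ 2) - 1 / (2 * lo ^ 2)

/-- the numerical checks; parameters `n1` is `200/9`, `cq`, `Cq`, `η`, `m`, `ρ`, `a` -/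
def SD.chk (s : SD) (cq Cq η m ρ a : ℚ) : Bool :=
  decide (0 < cq) && decide (0 ≤ Cq) && decide (0 < a) && decide (0 ≤ m) &&
  -- near zone
  (decide (cq ^ 2 * s.be0 ≤ 1) && decide (1 ≤ Cq ^ 2 * s.be0) &&
    decide (a ^ 2 ≤ 4 / 5 * s.be0) && decide (0 ≤ s.dg0) && decide (s.dg0 + m < s.lo0) &&
    decide (lipB s.lo0 (s.dg0 + m) ≤ η * s.be0) && decide (4 * s.eps ≤ ρ)) &&
  -- cells
  ((cells 2 s.l).all fun q =>
    decide (cq ^ 2 * q.2.be ≤ 1) &&
    decide ((16 / (16 + q.1 ^ 2)) ^ 3 ≤ Cq ^ 2 * q.2.be) &&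
    decide (a ^ 2 ≤ 4 / 5 * q.2.be) && decide (0 ≤ q.2.dg) && decide (q.2.dg + m < q.2.lo) &&
    decide (lipB q.2.lo (q.2.dg + m) ≤ η * q.2.be) && decide (q.2.R ≤ ρ)) &&
  -- tail
  (decide (cq * s.cp ≤ 32) && decide (4096 ≤ Cq * (s.cp * s.Y ^ 3)) && decide (a ≤ s.cp) &&
    decide (0 ≤ s.dgt) && decide (s.dgt + m < s.lot) &&
    decide (lipB s.lot (s.dgt + m) ≤ η * (s.cp ^ 2 / 4096)) && decide (s.Rt ≤ ρ))

/-- facts on the base profile `g0` -/
structure GFacts (s : SD) (g0 : ℝ → ℝ) : Prop where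
  meas : Measurable g0
  lo_near : ∀ y, 0 < y → y ≤ 2 → (s.lo0 : ℝ) ≤ g0 y
  lo_cell : ∀ q ∈ cells 2 s.l, ∀ y : ℝ, (q.1 : ℝ) < y → y ≤ q.2.b → (q.2.lo : ℝ) ≤ g0 y
  lo_far : ∀ y : ℝ, (s.Y : ℝ) < y → (s.lot : ℝ) ≤ g0 y
  be_near : ∀ y, 0 < y → y ≤ 2 → (s.be0 : ℝ) ≤ bet0 4 y / y ^ 2 + 1 / (2 * g0 y ^ 2)
  be_cell : ∀ q ∈ cells 2 s.l, ∀ y : ℝ, (q.1 : ℝ) < y → y ≤ q.2.b →
    (q.2.be : ℝ) ≤ bet0 4 y / y ^ 2 + 1 / (2 * g0 y ^ 2)
  be_far : ∀ y : ℝ, (s.Y : ℝ) < y →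
    ((s.cp : ℝ) / y ^ 3) ^ 2 ≤ chi 4 y * (bet0 4 y / y ^ 2 + 1 / (2 * g0 y ^ 2))

/-- `(1+y)^6 χ ≥ 1` -/
lemma chi_one_add {y : ℝ} (hy : 0 ≤ y) : 1 ≤ chi 4 y * (1 + y) ^ 6 := by
  unfold chi
  rw [uu_eq]
  have e : (16 / (16 + y ^ 2)) ^ 3 * (1 + y) ^ 6 = (16 * (1 + y) ^ 2 / (16 + y ^ 2)) ^ 3 := by
    field_simp
  rw [e]
  apply one_le_pow₀
  rw [one_le_div (by positivity)]
  nlinarith

/-- `χ y^6 ≥ 4/5` for `y ≥ 1` -/
lemma chi_y6_ge {y : ℝ} (hy : 1 ≤ y) : 4 / 5 ≤ chi 4 y * y ^ 6 := by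
  have := chi_pow6' (a := 1) (by norm_num) hy
  refine le_trans (by norm_num) this

lemma chi_div_p_cell {y be p : ℝ} (hb : 0 < be) (h : p ^ 2 = chi 4 y * be) :
    (chi 4 y / p) ^ 2 = chi 4 y / be := by
  rw [div_pow, h]
  have := (chi_pos y).ne'
  field_simp

section
variable {cq Cq η m ρ a : ℚ}

lemma mem_all {l : List SC} {f : ℚ × SC → Bool} {a : ℚ} (h : (cells a l).all f = true)
    {q : ℚ × SC} (hq : q ∈ cells a l) : f q = true := List.all_eq_true.1 h q hq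

lemma lipB_mono {a b lo e : ℝ} (he : 0 ≤ e) (hlo : e < lo) (ha : lo ≤ a) (hb : |b - a| ≤ e) :
    |1 / (2 * a ^ 2) - 1 / (2 * b ^ 2)| ≤ 1 / (2 * (lo - e) ^ 2) - 1 / (2 * lo ^ 2) := by
  have hlo0 : 0 < lo := by linarith
  have ha0 : 0 < a := by linarith
  have h1 := abs_le.1 hb
  have hb0 : 0 < b := by linarith
  have hle : 0 < lo - e := by linarith
  -- increasing function `x ↦ 1/(2(x-e)²) - 1/(2x²)` is decreasing in `x`
  have key : ∀ x y : ℝ, lo - e ≤ x → x ≤ y → y - x ≤ e →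
      1 / (2 * x ^ 2) - 1 / (2 * y ^ 2) ≤ 1 / (2 * (lo - e) ^ 2) - 1 / (2 * lo ^ 2) := by
    intro x y hx hxy hd
    have hx0 : 0 < x := by linarith
    have hy0 : 0 < y := by linarith
    by_cases hy : lo ≤ y
    · -- y - x ≤ e
      have e1 : 1 / (2 * x ^ 2) - 1 / (2 * y ^ 2) = (y - x) * (1 / x + 1 / y) * (1 / x * (1 / y)) / 2 := by
        field_simp
        ring
      have e2 : 1 / (2 * (lo - e) ^ 2) - 1 / (2 * lo ^ 2) =
          e * (1 / (lo - e) + 1 / lo) * (1 / (lo - e) * (1 / lo)) / 2 := by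
        field_simp
        ring
      rw [e1, e2]
      have i1 : 1 / x ≤ 1 / (lo - e) := one_div_le_one_div_of_le hle hx
      have i2 : 1 / y ≤ 1 / lo := one_div_le_one_div_of_le hlo0 hy
      have p1 : 0 < 1 / x := by positivity
      have p2 : 0 < 1 / y := by positivity
      have := mul_le_mul (mul_le_mul hd (add_le_add i1 i2) (by positivity) he)
        (mul_le_mul i1 i2 p2.le (by positivity)) (by positivity)
        (by positivity)
      linarith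
    · push Not at hy
      have i1 : 1 / (2 * x ^ 2) ≤ 1 / (2 * (lo - e) ^ 2) := by
        apply one_div_le_one_div_of_le (by positivity)
        have := pow_le_pow_left₀ hle.le hx 2
        linarith
      have i2 : 1 / (2 * lo ^ 2) ≤ 1 / (2 * y ^ 2) := by
        apply one_div_le_one_div_of_le (by positivity)
        have := pow_le_pow_left₀ hy0.le hy.le 2
        linarith
      linarith
  rw [abs_le]
  constructor
  · by_cases hab : a ≤ b
    · have : 1 / (2 * b ^ 2) ≤ 1 / (2 * a ^ 2) := by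
        apply one_div_le_one_div_of_le (by positivity)
        have := pow_le_pow_left₀ ha0.le hab 2
        linarith
      have h2 := key lo lo (by linarith) le_rfl (by linarith)
      have h3 : 0 ≤ 1 / (2 * (lo - e) ^ 2) - 1 / (2 * lo ^ 2) := by
        have : 1 / (2 * lo ^ 2) ≤ 1 / (2 * (lo - e) ^ 2) := by
          apply one_div_le_one_div_of_le (by positivity)
          have := pow_le_pow_left₀ hle.le (show lo - e ≤ lo by linarith) 2
          linarith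
        linarith
      linarith
    · push Not at hab
      have := key b a (by linarith) hab.le (by linarith)
      linarith
  · by_cases hab : a ≤ b
    · exact key a b (by linarith) hab (by linarith)
    · push Not at hab
      have : 1 / (2 * a ^ 2) ≤ 1 / (2 * b ^ 2) := by
        apply one_div_le_one_div_of_le (by positivity)
        have := pow_le_pow_left₀ hb0.le hab.le 2
        linarith
      have h3 : 0 ≤ 1 / (2 * (lo - e) ^ 2) - 1 / (2 * lo ^ 2) := by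
        have : 1 / (2 * lo ^ 2) ≤ 1 / (2 * (lo - e) ^ 2) := by
          apply one_div_le_one_div_of_le (by positivity)
          have := pow_le_pow_left₀ hle.le (show lo - e ≤ lo by linarith) 2
          linarith
        linarith
      linarith

/-- `lip` on one zone -/
lemma lip_zone {g0 Gc h be η' : ℝ} {lo dg m' : ℝ} (hm : 0 ≤ m') (hdg : 0 ≤ dg)
    (hlo : dg + m' < lo) (hg : lo ≤ g0) (hG : |Gc - g0| ≤ dg) (hh : |h| ≤ m')
    (hb : 1 / (2 * (lo - (dg + m')) ^ 2) - 1 / (2 * lo ^ 2) ≤ η' * be) :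
    |1 / (2 * g0 ^ 2) - 1 / (2 * (Gc + h) ^ 2)| ≤ η' * be := by
  refine (lipB_mono (a := g0) (b := Gc + h) (lo := lo) (e := dg + m') (by linarith) hlo hg ?_).trans
    hb
  have e : Gc + h - g0 = (Gc - g0) + h := by ring
  rw [e]
  exact (abs_add_le _ _).trans (add_le_add hG hh)

/-- unpacked checks -/
structure CK (s : SD) (cq Cq η m ρ a : ℚ) : Prop where
  cq0 : 0 < cq
  Cq0 : 0 ≤ Cq
  a0 : 0 < a
  m0 : 0 ≤ m
  n1 : cq ^ 2 * s.be0 ≤ 1
  n2 : 1 ≤ Cq ^ 2 * s.be0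
  n3 : a ^ 2 ≤ 4 / 5 * s.be0
  n4 : 0 ≤ s.dg0
  n5 : s.dg0 + m < s.lo0
  n6 : lipB s.lo0 (s.dg0 + m) ≤ η * s.be0
  n7 : 4 * s.eps ≤ ρ
  c : ∀ q ∈ cells 2 s.l, cq ^ 2 * q.2.be ≤ 1 ∧
    (16 / (16 + q.1 ^ 2)) ^ 3 ≤ Cq ^ 2 * q.2.be ∧
    a ^ 2 ≤ 4 / 5 * q.2.be ∧ 0 ≤ q.2.dg ∧ q.2.dg + m < q.2.lo ∧
    lipB q.2.lo (q.2.dg + m) ≤ η * q.2.be ∧ q.2.R ≤ ρ
  t1 : cq * s.cp ≤ 32
  t2 : 4096 ≤ Cq * (s.cp * s.Y ^ 3)
  t3 : a ≤ s.cp
  t4 : 0 ≤ s.dgt
  t5 : s.dgt + m < s.lot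
  t6 : lipB s.lot (s.dgt + m) ≤ η * (s.cp ^ 2 / 4096)
  t7 : s.Rt ≤ ρ

lemma ck_of (h : s.chk cq Cq η m ρ a = true) : CK s cq Cq η m ρ a := by
  simp only [SD.chk, Bool.and_eq_true, decide_eq_true_eq, List.all_eq_true] at h
  obtain ⟨⟨⟨⟨⟨⟨h1, h2⟩, h3⟩, h4⟩, ⟨⟨⟨⟨⟨⟨a1, a2⟩, a3⟩, a4⟩, a5⟩, a6⟩, a7⟩⟩, hc⟩,
    ⟨⟨⟨⟨⟨⟨t1, t2⟩, t3⟩, t4⟩, t5⟩, t6⟩, t7⟩⟩ := h
  refine ⟨h1, h2, h3, h4, a1, a2, a3, a4, a5, a6, a7, ?_, t1, t2, t3, t4, t5, t6, t7⟩
  intro q hq
  obtain ⟨⟨⟨⟨⟨⟨b1, b2⟩, b3⟩, b4⟩, b5⟩, b6⟩, b7⟩ := hc q hq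
  exact ⟨b1, b2, b3, b4, b5, b6, b7⟩

/-- `q_low` and `q_up` on a cell -/
lemma q_zone {y be p x : ℝ} (hy : 0 < y) (hb : 0 < be) (hp : 0 < p) (h : p ^ 2 = chi 4 y * be)
    (h1 : (cq : ℝ) ^ 2 * be ≤ 1) (hCq : (0 : ℝ) ≤ Cq)
    (h2 : x ≤ (Cq : ℝ) ^ 2 * be) (hx : chi 4 y ≤ x) :
    (cq : ℝ) ≤ chi 4 y / p * (1 + y) ^ 3 ∧ chi 4 y / p ≤ Cq := by
  have hq := chi_div_p_cell hb h
  have hc := chi_pos y
  constructor
  · refine le_of_pow_le_pow_left₀ two_ne_zero (by positivity) ?_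
    rw [mul_pow, hq]
    have h3 := chi_one_add hy.le
    have e : chi 4 y / be * ((1 + y) ^ 3) ^ 2 = (chi 4 y * (1 + y) ^ 6) / be := by ring
    rw [e, le_div_iff₀ hb]
    linarith
  · refine le_of_pow_le_pow_left₀ two_ne_zero hCq ?_
    rw [hq, div_le_iff₀ hb]
    linarith

/-- `q = χ/p` lower and upper bounds -/
lemma q_bds (h : s.ok) (k : CK s cq Cq η m ρ a) : ∀ y, 0 < y →
    (cq : ℝ) ≤ chi 4 y / s.p y * (1 + y) ^ 3 ∧ chi 4 y / s.p y ≤ Cq := by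
  have hcq : (0 : ℝ) < cq := by exact_mod_cast k.cq0
  have hCq : (0 : ℝ) ≤ Cq := by exact_mod_cast k.Cq0
  refine zones h (Q := fun y => (cq : ℝ) ≤ chi 4 y / s.p y * (1 + y) ^ 3 ∧
    chi 4 y / s.p y ≤ Cq) ?_ ?_ ?_
  · intro y hy hy2
    refine q_zone hy (by exact_mod_cast h.1) (p_pos h y hy) (p2_near h y hy2)
      (by exact_mod_cast k.n1) hCq (x := 1) (by exact_mod_cast k.n2) (chi_le_one y)
  · intro q hq y h1 h2
    have hy : 0 < y := by linarith [h.q_ge hq]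
    obtain ⟨c1, c2, -⟩ := k.c q hq
    refine q_zone hy (by exact_mod_cast (h.2.2.2.2.2 _ (mem_of_cells hq)).1) (p_pos h y hy)
      (p2_cell h hq h1 h2) (by exact_mod_cast c1) hCq
      (x := (16 / (16 + (q.1 : ℝ) ^ 2)) ^ 3) (by exact_mod_cast c2)
      (chi_anti (by linarith [h.q_ge hq]) h1.le)
  · intro y hy
    have hY := h.Y_gtR
    have hy0 : 0 < y := by linarith
    have hcp : (0 : ℝ) < s.cp := by exact_mod_cast h.2.2.1
    have e : chi 4 y / s.p y = chi 4 y * y ^ 3 / s.cp := by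
      rw [p_far h hy]
      field_simp
    have hc := chi_pos y
    rw [e]
    constructor
    · have h1 := chi_pow6' (a := 2) (by norm_num) (show (2 : ℝ) ≤ y by linarith)
      have h2 : y ^ 3 ≤ (1 + y) ^ 3 := pow_le_pow_left₀ hy0.le (by linarith) 3
      have h3 : (cq : ℝ) * s.cp ≤ 32 := by exact_mod_cast k.t1
      rw [div_mul_eq_mul_div, le_div_iff₀ hcp]
      have h4 : chi 4 y * y ^ 6 ≤ chi 4 y * y ^ 3 * (1 + y) ^ 3 := by
        have := mul_le_mul_of_nonneg_left h2 (show 0 ≤ chi 4 y * y ^ 3 by positivity)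
        calc chi 4 y * y ^ 6 = chi 4 y * y ^ 3 * y ^ 3 := by ring
          _ ≤ _ := this
      norm_num at h1
      linarith
    · have h1 := chi_pow6_lt y
      have h3 : (4096 : ℝ) ≤ Cq * (s.cp * s.Y ^ 3) := by exact_mod_cast k.t2
      rw [div_le_iff₀ hcp]
      have h4 : (s.Y : ℝ) ^ 3 ≤ y ^ 3 := pow_le_pow_left₀ (by linarith) hy.le 3
      have hy3 : 0 < y ^ 3 := by positivity
      have h5 : chi 4 y * y ^ 3 * y ^ 3 ≤ Cq * s.cp * y ^ 3 := by
        calc chi 4 y * y ^ 3 * y ^ 3 = chi 4 y * y ^ 6 := by ring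
          _ ≤ 4096 := h1
          _ ≤ Cq * (s.cp * s.Y ^ 3) := h3
          _ = Cq * s.cp * s.Y ^ 3 := by ring
          _ ≤ Cq * s.cp * y ^ 3 := mul_le_mul_of_nonneg_left h4 (by positivity)
      exact le_of_mul_le_mul_right h5 hy3

/-- the field `wdata` -/
theorem wdata {g0 : ℝ → ℝ} (h : s.ok) (k : CK s cq Cq η m ρ a) (F : GFacts s g0)
    (hlo : ∀ y, 0 < y → 3 / 20 ≤ g0 y) :
    WData 4 (200 / 9) cq Cq (nn g0) s.p where
  b_pos := by norm_num
  n_meas := by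
    unfold nn
    exact measurable_const.div ((F.meas.pow_const 2).const_mul 2)
  n_nonneg := fun y hy => by unfold nn; positivity
  n_le := fun y hy => by
    unfold nn
    have h1 := hlo y hy
    rw [div_le_iff₀ (by positivity)]
    nlinarith [pow_le_pow_left₀ (by norm_num) h1 2]
  p_meas := p_measurable
  p_pos := p_pos h
  cq_pos := by exact_mod_cast k.cq0
  q_low := fun y hy => (q_bds h k y hy).1
  q_up := fun y hy => (q_bds h k y hy).2
  coer := by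
    refine zones h (Q := fun y => s.p y ^ 2 ≤ chi 4 y * (bet0 4 y / y ^ 2 + nn g0 y)) ?_ ?_ ?_
    · intro y hy hy2
      rw [p2_near h y hy2]
      exact mul_le_mul_of_nonneg_left (F.be_near y hy hy2) (chi_pos y).le
    · intro q hq y h1 h2
      rw [p2_cell h hq h1 h2]
      exact mul_le_mul_of_nonneg_left (F.be_cell q hq y h1 h2) (chi_pos y).le
    · intro y hy
      rw [p_far h hy]
      exact F.be_far y hy

/-- the field `p_tail` -/
theorem p_tail (h : s.ok) (k : CK s cq Cq η m ρ a) :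
    ∃ a' : ℝ, 0 < a' ∧ ∀ y, 1 ≤ y → a' ≤ s.p y * y ^ 3 := by
  have ha : (0 : ℝ) < a := by exact_mod_cast k.a0
  refine ⟨a, ha, ?_⟩
  have key : ∀ y, 0 < y → 1 ≤ y → (a : ℝ) ≤ s.p y * y ^ 3 := by
    refine zones h (Q := fun y => 1 ≤ y → (a : ℝ) ≤ s.p y * y ^ 3) ?_ ?_ ?_
    · intro y hy hy2 h1
      have hp := p_pos h y hy
      refine le_of_pow_le_pow_left₀ two_ne_zero (by positivity) ?_
      rw [mul_pow, p2_near h y hy2]
      have hb : (0 : ℝ) < s.be0 := by exact_mod_cast h.1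
      have h2 : (a : ℝ) ^ 2 ≤ 4 / 5 * s.be0 := by
        have := (Rat.cast_le (K := ℝ)).2 k.n3
        push_cast at this
        exact this
      have h3 := mul_le_mul_of_nonneg_right (chi_y6_ge h1) hb.le
      calc (a : ℝ) ^ 2 ≤ 4 / 5 * s.be0 := h2
        _ ≤ chi 4 y * y ^ 6 * s.be0 := h3
        _ = _ := by ring
    · intro q hq y h1' h2' h1
      have hy : 0 < y := by linarith
      have hp := p_pos h y hy
      refine le_of_pow_le_pow_left₀ two_ne_zero (by positivity) ?_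
      rw [mul_pow, p2_cell h hq h1' h2']
      have hb : (0 : ℝ) < q.2.be := by exact_mod_cast (h.2.2.2.2.2 _ (mem_of_cells hq)).1
      have h2 : (a : ℝ) ^ 2 ≤ 4 / 5 * q.2.be := by
        have := (Rat.cast_le (K := ℝ)).2 (k.c q hq).2.2.1
        push_cast at this
        exact this
      have h3 := mul_le_mul_of_nonneg_right (chi_y6_ge h1) hb.le
      calc (a : ℝ) ^ 2 ≤ 4 / 5 * q.2.be := h2
        _ ≤ chi 4 y * y ^ 6 * q.2.be := h3
        _ = _ := by ring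
    · intro y hy h1
      rw [p_far h hy]
      have hy0 : 0 < y := by linarith
      have : (a : ℝ) ≤ s.cp := by exact_mod_cast k.t3
      calc (a : ℝ) ≤ s.cp := this
        _ = s.cp / y ^ 3 * y ^ 3 := by field_simp
  exact fun y hy => key y (by linarith) hy

/-- facts on the family: `|G - g0| ≤ dg` -/
structure DFacts (s : SD) (g0 Gc : ℝ → ℝ) : Prop where
  near : ∀ y, 0 < y → y ≤ 2 → |Gc y - g0 y| ≤ s.dg0
  cell : ∀ q ∈ cells 2 s.l, ∀ y : ℝ, (q.1 : ℝ) < y → y ≤ q.2.b → |Gc y - g0 y| ≤ q.2.dg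
  far : ∀ y : ℝ, (s.Y : ℝ) < y → |Gc y - g0 y| ≤ s.dgt

/-- the field `lip` -/
theorem lip {g0 Gc : ℝ → ℝ} (h : s.ok) (k : CK s cq Cq η m ρ a) (hη : 0 ≤ η) (F : GFacts s g0)
    (D : DFacts s g0 Gc) : ∀ y, 0 < y → ∀ h : ℝ, |h| ≤ (m : ℝ) →
    |1 / (2 * g0 y ^ 2) - 1 / (2 * (Gc y + h) ^ 2)| ≤ (η : ℝ) * (s.p y ^ 2 / chi 4 y) := by
  have hm : (0 : ℝ) ≤ m := by exact_mod_cast k.m0
  refine zones h (Q := fun y => ∀ h : ℝ, |h| ≤ (m : ℝ) →
    |1 / (2 * g0 y ^ 2) - 1 / (2 * (Gc y + h) ^ 2)| ≤ (η : ℝ) * (s.p y ^ 2 / chi 4 y)) ?_ ?_ ?_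
  · intro y hy hy2 v hv
    have e : s.p y ^ 2 / chi 4 y = s.be0 := by
      rw [p2_near h y hy2]
      have := (chi_pos y).ne'
      field_simp
    rw [e]
    refine lip_zone hm (by exact_mod_cast k.n4) (by exact_mod_cast k.n5) (F.lo_near y hy hy2)
      (D.near y hy hy2) hv ?_
    have := k.n6
    unfold lipB at this
    exact_mod_cast this
  · intro q hq y h1 h2 v hv
    obtain ⟨-, -, -, c4, c5, c6, -⟩ := k.c q hq
    have e : s.p y ^ 2 / chi 4 y = q.2.be := by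
      rw [p2_cell h hq h1 h2]
      have := (chi_pos y).ne'
      field_simp
    rw [e]
    refine lip_zone hm (by exact_mod_cast c4) (by exact_mod_cast c5) (F.lo_cell q hq y h1 h2)
      (D.cell q hq y h1 h2) hv ?_
    unfold lipB at c6
    exact_mod_cast c6
  · intro y hy v hv
    have hY := h.Y_gtR
    have hy0 : 0 < y := by linarith
    have hcp : (0 : ℝ) < s.cp := by exact_mod_cast h.2.2.1
    have e : (s.cp : ℝ) ^ 2 / 4096 ≤ s.p y ^ 2 / chi 4 y := by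
      rw [p_far h hy, div_pow, ← pow_mul, div_div]
      have h6 := chi_pow6_lt y
      have hc := chi_pos y
      apply div_le_div_of_nonneg_left (by positivity) (by positivity)
      norm_num
      linarith
    have hη' : (0 : ℝ) ≤ η := by exact_mod_cast hη
    refine (lip_zone (be := (s.cp : ℝ) ^ 2 / 4096) (η' := (η : ℝ)) hm (by exact_mod_cast k.t4)
      (by exact_mod_cast k.t5) (F.lo_far y hy) (D.far y hy) hv ?_).trans
      (mul_le_mul_of_nonneg_left e hη')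
    have := k.t6
    unfold lipB at this
    exact_mod_cast this

/-- the field `R_near` -/
theorem R_near' (y : ℝ) (_ : 0 < y) (hy : y ≤ 2) : s.R y ≤ s.eps * y ^ 2 := (R_near y hy).le

/-- the field `R_far` -/
theorem R_far' (h : s.ok) (k : CK s cq Cq η m ρ a) : ∀ y, 2 ≤ y → s.R y ≤ ρ := by
  have key : ∀ y, 0 < y → 2 ≤ y → s.R y ≤ ρ := by
    refine zones h (Q := fun y => 2 ≤ y → s.R y ≤ ρ) ?_ ?_ ?_
    · intro y hy hy2 h2
      have : y = 2 := le_antisymm hy2 h2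
      subst this
      rw [R_near _ le_rfl]
      have : (4 : ℝ) * s.eps ≤ ρ := by exact_mod_cast k.n7
      linarith
    · intro q hq y h1 h2 _
      rw [R_cell h hq h1 h2]
      exact_mod_cast (k.c q hq).2.2.2.2.2.2
    · intro y hy _
      rw [R_far h hy]
      have hY := h.Y_gtR
      have hRt : (0 : ℝ) ≤ s.Rt := by exact_mod_cast h.2.2.2.1
      have h1 : ((s.Y : ℝ) / y) ^ 6 ≤ 1 := by
        apply pow_le_one₀ (by positivity)
        rw [div_le_one (by linarith)]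
        exact hy.le
      calc (s.Rt : ℝ) * (s.Y / y) ^ 6 ≤ s.Rt * 1 := mul_le_mul_of_nonneg_left h1 hRt
        _ = s.Rt := mul_one _
        _ ≤ ρ := by exact_mod_cast k.t7
  exact fun y hy => key y (by linarith) hy

end

end Crest.Agent.R213.E.St
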