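import Crest.Agent.R213.E.CertData
import Crest.Agent.R213.E.StepCert

/-!
# Row 213, part E, E-CERT: the step data `sd` of the certificate and its checks (helper587)
-/

set_option autoImplicit false

open Set MeasureTheory Filter Topology

noncomputable section

namespace Crest.Agent.R213.E.St

/-- step data of a cell (`dg` for `|c - c0| ≤ 2^-26`) -/
def toSC (c : C.Cell) : SC where
  b := (c.H : ℚ) * (c.M + 1) / 8
  be := (c.B3 : ℚ) / 1000
  R := (c.R20 : ℚ) / 10 ^ 20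
  lo := (c.gl4 : ℚ) / 10 ^ 4
  dg := (c.kb3 : ℚ) / 10 ^ 3 / 2 ^ 26

/-- the step data -/
def sd : SD where
  be0 := 49 / 100
  eps := 2 / 10 ^ 8
  lo0 := 7493 / 10 ^ 4
  dg0 := 0
  l := C.cells.tail.map toSC
  Y := 128
  cp := 1568 / 25
  Rt := 7 / 10 ^ 14
  lot := 7 / 10
  dgt := 1 / 2 ^ 25

def okB (s : SD) : Bool :=
  decide (0 < s.be0) && decide (0 ≤ s.eps) && decide (0 < s.cp) && decide (0 ≤ s.Rt) &&
    ends 2 s.l s.Y && s.l.all fun c => decide (0 < c.be) && decide (0 ≤ c.R)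

lemma ok_of {s : SD} (h : okB s = true) : s.ok := by
  simp only [okB, Bool.and_eq_true, decide_eq_true_eq, List.all_eq_true] at h
  obtain ⟨⟨⟨⟨⟨h1, h2⟩, h3⟩, h4⟩, h5⟩, h6⟩ := h
  exact ⟨h1, h2, h3, h4, h5, h6⟩

set_option maxRecDepth 100000 in
lemma sd_ok : sd.ok := ok_of (by decide +kernel)

set_option maxRecDepth 100000 in
lemma sd_chk : sd.chk (1 / 4) (143 / 100) (1 / 100) (1 / 2000) (1 / 5000) (1 / 2) = true := by
  decide +kernel

set_option maxRecDepth 100000 in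
lemma sd_M2 : sd.M2 ≤ (23 / 10) ^ 2 := by
  decide +kernel

/-! ### the cells of `sd` are the cells of `CertData` -/

/-- left end of a cell -/
def aQ (c : C.Cell) : ℚ := (c.H : ℚ) * (c.M - 1) / 8

lemma sd_cells : ((cells 2 sd.l).map fun q => (q.1, q.2.b, q.2.be, q.2.R, q.2.lo, q.2.dg)) =
    C.cells.tail.map fun c => (aQ c, (toSC c).b, (toSC c).be, (toSC c).R, (toSC c).lo,
      (toSC c).dg) := by
  decide +kernel

lemma SC_ext {c d : SC} (h1 : c.b = d.b) (h2 : c.be = d.be) (h3 : c.R = d.R) (h4 : c.lo = d.lo)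
    (h5 : c.dg = d.dg) : c = d := by
  cases c; cases d; simp_all

lemma mem_cells_of {c : C.Cell} (h : c ∈ C.cells.tail) : (aQ c, toSC c) ∈ cells 2 sd.l := by
  have h1 : (aQ c, (toSC c).b, (toSC c).be, (toSC c).R, (toSC c).lo, (toSC c).dg) ∈
      (cells 2 sd.l).map fun q => (q.1, q.2.b, q.2.be, q.2.R, q.2.lo, q.2.dg) := by
    rw [sd_cells]
    exact List.mem_map_of_mem h
  obtain ⟨q, hq, he⟩ := List.mem_map.1 h1
  simp only [Prod.mk.injEq] at he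
  obtain ⟨e1, e2, e3, e4, e5, e6⟩ := he
  have : q = (aQ c, toSC c) := Prod.ext e1 (SC_ext e2 e3 e4 e5 e6)
  rw [← this]
  exact hq

lemma cell_of_mem {q : ℚ × SC} (h : q ∈ cells 2 sd.l) :
    ∃ c ∈ C.cells.tail, q = (aQ c, toSC c) := by
  have h1 : (q.1, q.2.b, q.2.be, q.2.R, q.2.lo, q.2.dg) ∈
      (cells 2 sd.l).map fun q => (q.1, q.2.b, q.2.be, q.2.R, q.2.lo, q.2.dg) :=
    List.mem_map_of_mem (f := fun q : ℚ × SC => (q.1, q.2.b, q.2.be, q.2.R, q.2.lo, q.2.dg)) h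
  rw [sd_cells] at h1
  obtain ⟨c, hc, he⟩ := List.mem_map.1 h1
  simp only [Prod.mk.injEq] at he
  obtain ⟨e1, e2, e3, e4, e5, e6⟩ := he
  exact ⟨c, hc, (Prod.ext e1 (SC_ext e2 e3 e4 e5 e6) : (aQ c, toSC c) = q).symm⟩

/-- a point lies in only one cell -/
lemma cells_unique {a Y : ℚ} {l : List SC} (h : ends a l Y = true) {q q' : ℚ × SC}
    (hq : q ∈ cells a l) (hq' : q' ∈ cells a l) {y : ℝ} (h1 : (q.1 : ℝ) < y) (h2 : y ≤ q.2.b)
    (h1' : (q'.1 : ℝ) < y) (h2' : y ≤ q'.2.b) : q = q' := by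
  induction l generalizing a with
  | nil => simp [cells] at hq
  | cons c l ih =>
    simp only [ends, Bool.and_eq_true, decide_eq_true_eq] at h
    simp only [cells, List.mem_cons] at hq hq'
    rcases hq with rfl | hq
    · rcases hq' with rfl | hq'
      · rfl
      · have h3 := (cells_lt h.2 q' hq').1
        have h4 : (c.b : ℝ) < y := lt_of_le_of_lt (by exact_mod_cast h3) h1'
        exact absurd h2 (not_le.2 h4)
    · rcases hq' with rfl | hq'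
      · have h3 := (cells_lt h.2 q hq).1
        have h4 : (c.b : ℝ) < y := lt_of_le_of_lt (by exact_mod_cast h3) h1
        exact absurd h2' (not_le.2 h4)
      · exact ih h.2 hq hq'

lemma head_b : ∀ c ∈ C.cells, c ∈ C.cells.tail ∨ (toSC c).b = 2 := by
  intro c hc
  have : C.cells = C.cells.head (by decide) :: C.cells.tail := (List.cons_head_tail _).symm
  rw [this] at hc
  rcases List.mem_cons.1 hc with h | h
  · right
    rw [h]
    decide +kernel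
  · exact Or.inl h

/-- from the existence form of cell facts to the universal form -/
lemma of_exists {Q : C.Cell → ℝ → Prop}
    (h : ∀ y : ℝ, 0 < y → y ≤ 128 →
      ∃ c ∈ C.cells, ((aQ c : ℚ) : ℝ) < y ∧ y ≤ (toSC c).b ∧ Q c y) :
    ∀ q ∈ cells 2 sd.l, ∀ y : ℝ, (q.1 : ℝ) < y → y ≤ q.2.b →
      ∃ c ∈ C.cells.tail, q = (aQ c, toSC c) ∧ Q c y := by
  intro q hq y h1 h2
  have hlt := cells_lt sd_ok.2.2.2.2.1 q hq
  have hy2 : 2 < y := lt_of_le_of_lt (by exact_mod_cast hlt.1) h1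
  have hy3 : y ≤ 128 := h2.trans (by
    have := (Rat.cast_le (K := ℝ)).2 hlt.2.2
    exact this.trans (by norm_num [sd]))
  obtain ⟨c, hc, c1, c2, c3⟩ := h y (by linarith) hy3
  have hct : c ∈ C.cells.tail := by
    rcases head_b c hc with h | h
    · exact h
    · rw [h] at c2
      norm_num at c2
      exact absurd c2 (not_le.2 hy2)
  exact ⟨c, hct, cells_unique sd_ok.2.2.2.2.1 hq (mem_cells_of hct) h1 h2 c1 c2, c3⟩

/-- the same for the first cell -/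
lemma of_exists0 {Q : C.Cell → ℝ → Prop}
    (h : ∀ y : ℝ, 0 < y → y ≤ 128 →
      ∃ c ∈ C.cells, ((aQ c : ℚ) : ℝ) < y ∧ y ≤ (toSC c).b ∧ Q c y) :
    ∀ y : ℝ, 0 < y → y ≤ 2 → Q (C.cells.head (by decide)) y := by
  intro y h1 h2
  obtain ⟨c, hc, c1, c2, c3⟩ := h y h1 (by linarith)
  have : C.cells = C.cells.head (by decide) :: C.cells.tail := (List.cons_head_tail _).symm
  rw [this] at hc
  rcases List.mem_cons.1 hc with h | h
  · rw [← h]; exact c3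
  · have h3 := (cells_lt sd_ok.2.2.2.2.1 _ (mem_cells_of h)).1
    have h4 : (2 : ℝ) ≤ aQ c := by exact_mod_cast h3
    linarith

/-- the weight inequality in the tail -/
lemma be_far {y g : ℝ} (hy : 128 < y) (hg : 0 < g) (hg2 : g ≤ 717 / 1000) :
    ((1568 / 25 : ℝ) / y ^ 3) ^ 2 ≤ chi 4 y * (bet0 4 y / y ^ 2 + 1 / (2 * g ^ 2)) := by
  have hy0 : 0 < y := by linarith
  have h1 : (16 * (128 : ℝ) ^ 2 / (16 + (128 : ℝ) ^ 2)) ^ 3 ≤ chi 4 y * y ^ 6 :=
    chi_pow6' (by norm_num) hy.le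
  have h2 : (4084 : ℝ) ≤ chi 4 y * y ^ 6 := le_trans (by norm_num) h1
  have hu0 := uu_pos y
  have hu1 : uu 4 y ≤ 1 := by
    rw [uu_eq, div_le_one (by positivity)]; nlinarith [sq_nonneg y]
  have h3 : -(525 / 8) ≤ bet0 4 y := by
    unfold bet0
    have h31 : uu 4 y ^ 3 ≤ uu 4 y := by
      calc uu 4 y ^ 3 = uu 4 y * uu 4 y ^ 2 := by ring
        _ ≤ uu 4 y * 1 := mul_le_mul_of_nonneg_left (pow_le_one₀ hu0.le hu1) hu0.le
        _ = uu 4 y := mul_one _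
    nlinarith [sq_nonneg (uu 4 y)]
  have hy2 : (16384 : ℝ) ≤ y ^ 2 := by nlinarith
  have h4 : -(525 / 8) / 16384 ≤ bet0 4 y / y ^ 2 := by
    rw [div_le_div_iff₀ (by norm_num) (by positivity)]
    nlinarith
  have h5 : (1 : ℝ) / (2 * (717 / 1000) ^ 2) ≤ 1 / (2 * g ^ 2) := by
    apply one_div_le_one_div_of_le (by positivity)
    have := pow_le_pow_left₀ hg.le hg2 2
    linarith
  have h6 : (968 / 1000 : ℝ) ≤ bet0 4 y / y ^ 2 + 1 / (2 * g ^ 2) := by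
    have : (968 / 1000 : ℝ) ≤ -(525 / 8) / 16384 + 1 / (2 * (717 / 1000) ^ 2) := by norm_num
    linarith
  have h7 : (4084 : ℝ) * (968 / 1000) ≤
      chi 4 y * y ^ 6 * (bet0 4 y / y ^ 2 + 1 / (2 * g ^ 2)) :=
    mul_le_mul h2 h6 (by norm_num) (by have := (chi_pos y).le; positivity)
  rw [div_pow, ← pow_mul, div_le_iff₀ (by positivity)]
  calc (1568 / 25 : ℝ) ^ 2 ≤ 4084 * (968 / 1000) := by norm_num
    _ ≤ _ := h7
    _ = _ := by ring

/-! ### hypotheses in terms of the cells of `CertData` -/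

/-- what is needed about `g0` -/
structure HG (g0 : ℝ → ℝ) : Prop where
  meas : Measurable g0
  cell : ∀ y : ℝ, 0 < y → y ≤ 128 →
    ∃ c ∈ C.cells, ((aQ c : ℚ) : ℝ) < y ∧ y ≤ ((toSC c).b : ℝ) ∧
      (((toSC c).lo : ℚ) : ℝ) ≤ g0 y ∧
      (((toSC c).be : ℚ) : ℝ) ≤ bet0 4 y / y ^ 2 + 1 / (2 * g0 y ^ 2)
  lo_far : ∀ y : ℝ, 128 < y → 7 / 10 ≤ g0 y
  hi_far : ∀ y : ℝ, 128 < y → g0 y ≤ 717 / 1000

/-- what is needed about `G c - g0` -/
structure HD (g0 Gc : ℝ → ℝ) : Prop where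
  cell : ∀ y : ℝ, 0 < y → y ≤ 128 →
    ∃ c ∈ C.cells, ((aQ c : ℚ) : ℝ) < y ∧ y ≤ ((toSC c).b : ℝ) ∧
      |Gc y - g0 y| ≤ (((toSC c).dg : ℚ) : ℝ)
  far : ∀ y : ℝ, 128 < y → |Gc y - g0 y| ≤ 1 / 2 ^ 25

lemma sd_Y : (sd.Y : ℝ) = 128 := by norm_num [sd]

lemma head_eq : (toSC (C.cells.head (by decide))).lo = sd.lo0 ∧
    (toSC (C.cells.head (by decide))).be = sd.be0 ∧
    (toSC (C.cells.head (by decide))).dg = sd.dg0 := by decide +kernel

lemma HG.facts {g0 : ℝ → ℝ} (H : HG g0) : GFacts sd g0 where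
  meas := H.meas
  lo_near := fun y h1 h2 => by
    have := (of_exists0 (Q := fun c y => (((toSC c).lo : ℚ) : ℝ) ≤ g0 y ∧
      (((toSC c).be : ℚ) : ℝ) ≤ bet0 4 y / y ^ 2 + 1 / (2 * g0 y ^ 2)) H.cell y h1 h2).1
    rw [head_eq.1] at this
    exact this
  lo_cell := fun q hq y h1 h2 => by
    obtain ⟨c, -, he, h3, -⟩ := of_exists (Q := fun c y => (((toSC c).lo : ℚ) : ℝ) ≤ g0 y ∧
      (((toSC c).be : ℚ) : ℝ) ≤ bet0 4 y / y ^ 2 + 1 / (2 * g0 y ^ 2)) H.cell q hq y h1 h2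
    rw [he]
    exact h3
  lo_far := fun y hy => by
    rw [sd_Y] at hy
    have := H.lo_far y hy
    norm_num [sd]
    linarith
  be_near := fun y h1 h2 => by
    have := (of_exists0 (Q := fun c y => (((toSC c).lo : ℚ) : ℝ) ≤ g0 y ∧
      (((toSC c).be : ℚ) : ℝ) ≤ bet0 4 y / y ^ 2 + 1 / (2 * g0 y ^ 2)) H.cell y h1 h2).2
    rw [head_eq.2.1] at this
    exact this
  be_cell := fun q hq y h1 h2 => by
    obtain ⟨c, -, he, -, h3⟩ := of_exists (Q := fun c y => (((toSC c).lo : ℚ) : ℝ) ≤ g0 y ∧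
      (((toSC c).be : ℚ) : ℝ) ≤ bet0 4 y / y ^ 2 + 1 / (2 * g0 y ^ 2)) H.cell q hq y h1 h2
    rw [he]
    exact h3
  be_far := fun y hy => by
    rw [sd_Y] at hy
    have h1 := H.lo_far y hy
    have := be_far hy (by linarith) (H.hi_far y hy)
    have e : (sd.cp : ℝ) = 1568 / 25 := by norm_num [sd]
    rw [e]
    exact this

lemma HD.facts {g0 Gc : ℝ → ℝ} (H : HD g0 Gc) : DFacts sd g0 Gc where
  near := fun y h1 h2 => by
    have := of_exists0 (Q := fun c y => |Gc y - g0 y| ≤ (((toSC c).dg : ℚ) : ℝ)) H.cell y h1 h2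
    rw [head_eq.2.2] at this
    exact this
  cell := fun q hq y h1 h2 => by
    obtain ⟨c, -, he, h3⟩ := of_exists (Q := fun c y => |Gc y - g0 y| ≤ (((toSC c).dg : ℚ) : ℝ))
      H.cell q hq y h1 h2
    rw [he]
    exact h3
  far := fun y hy => by
    rw [sd_Y] at hy
    have e : (sd.dgt : ℝ) = 1 / 2 ^ 25 := by norm_num [sd]
    rw [e]
    exact H.far y hy

/-! ### the fields of `Cert` (constants `b = 4`, `n1 = 200/9`, `cq = 1/4`, `Cq = 143/100`,
`η = 1/100`, `M = 23/10`, `m = 1/2000`, `ρ = 1/5000`, `ε = 2/10^8`) -/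

theorem sd_wdata {g0 : ℝ → ℝ} (H : HG g0) (hlo : ∀ y, 0 < y → 3 / 20 ≤ g0 y) :
    WData 4 (200 / 9) (1 / 4) (143 / 100) (nn g0) sd.p := by
  have := wdata sd_ok (ck_of sd_chk) H.facts hlo
  norm_num at this
  norm_num
  exact this

theorem sd_p_tail : ∃ a : ℝ, 0 < a ∧ ∀ y, 1 ≤ y → a ≤ sd.p y * y ^ 3 :=
  p_tail sd_ok (ck_of sd_chk)

theorem sd_lip {g0 Gc : ℝ → ℝ} (H : HG g0) (D : HD g0 Gc) :
    ∀ y, 0 < y → ∀ h : ℝ, |h| ≤ 1 / 2000 →
    |1 / (2 * g0 y ^ 2) - 1 / (2 * (Gc y + h) ^ 2)| ≤ 1 / 100 * (sd.p y ^ 2 / chi 4 y) := by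
  intro y hy h hh
  have := lip sd_ok (ck_of sd_chk) (by norm_num) H.facts D.facts y hy h (by
    push_cast
    exact hh)
  push_cast at this
  exact this

theorem sd_R_meas : Measurable sd.R := R_measurable

theorem sd_R_M : IntegrableOn (fun y => (chi 4 y / sd.p y * (y ^ 8 * sd.R y)) ^ 2) (Ioi 0) ∧
    ∫ y in Ioi (0 : ℝ), (chi 4 y / sd.p y * (y ^ 8 * sd.R y)) ^ 2 ≤ (23 / 10) ^ 2 := by
  apply R_M sd_ok
  have := (Rat.cast_le (K := ℝ)).2 sd_M2
  push_cast at this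
  exact this

theorem sd_R_near : ∀ y, 0 < y → y ≤ 2 → sd.R y ≤ 2 / 10 ^ 8 * y ^ 2 := by
  intro y h1 h2
  have := R_near' (s := sd) y h1 h2
  have e : (sd.eps : ℝ) = 2 / 10 ^ 8 := by norm_num [sd]
  rw [e] at this
  exact this

theorem sd_R_far : ∀ y, 2 ≤ y → sd.R y ≤ 1 / 5000 := by
  intro y h1
  have := R_far' sd_ok (ck_of sd_chk) y h1
  push_cast at this
  exact this

theorem sd_close : ((2 : ℝ) / 7 * (143 / 100) * (23 / 10 / (1 - 1 / 100)) / 66 + 1 / 5000) / 40 +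
    2 / 10 ^ 8 / 16 ≤ 1 / 2000 := by norm_num

/-- values of `p` and `R` on the cells (for the other fields) -/
theorem sd_p_cell {c : C.Cell} (hc : c ∈ C.cells) {y : ℝ} (h1 : ((aQ c : ℚ) : ℝ) < y)
    (h2 : y ≤ ((toSC c).b : ℝ)) : sd.p y = √(chi 4 y * ((toSC c).be : ℝ)) := by
  have : C.cells = C.cells.head (by decide) :: C.cells.tail := (List.cons_head_tail _).symm
  rw [this] at hc
  rcases List.mem_cons.1 hc with h | h
  · have hb : (toSC (C.cells.head (by decide))).b = 2 := by decide +kernel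
    rw [h] at h2 ⊢
    rw [hb] at h2
    rw [head_eq.2.1]
    exact p_near y (by exact_mod_cast h2)
  · exact p_cell sd_ok (mem_cells_of h) h1 h2

theorem sd_R_cell {c : C.Cell} (hc : c ∈ C.cells.tail) {y : ℝ} (h1 : ((aQ c : ℚ) : ℝ) < y)
    (h2 : y ≤ ((toSC c).b : ℝ)) : sd.R y = ((toSC c).R : ℝ) :=
  R_cell sd_ok (mem_cells_of hc) h1 h2

theorem sd_R_zero {y : ℝ} (h : y ≤ 2) : sd.R y = 2 / 10 ^ 8 * y ^ 2 := by
  rw [R_near y h]
  norm_num [sd]

theorem sd_p_far {y : ℝ} (h : 128 < y) : sd.p y = 1568 / 25 / y ^ 3 := by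
  rw [p_far sd_ok (by rw [sd_Y]; exact h)]
  norm_num [sd]

theorem sd_R_tail {y : ℝ} (h : 128 < y) : sd.R y = 7 / 10 ^ 14 * (128 / y) ^ 6 := by
  rw [R_far sd_ok (by rw [sd_Y]; exact h)]
  norm_num [sd]

end Crest.Agent.R213.E.St
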