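import Crest.Agent.R213.E.CertBd
import Crest.Agent.R213.E.SDef

/-!
# Row 213, part E, E-CERT: from the cell facts (`C.Fact`) to the inputs `HG`, `HD` of SDef (helper587)
-/

set_option autoImplicit false

open Set MeasureTheory Filter Topology

noncomputable section

namespace Crest.Agent.R213.E.St

lemma aQ_cast (c : C.Cell) : ((aQ c : ℚ) : ℝ) = c.gP.a C.KE := by
  rw [C.gP_a]; unfold aQ; push_cast; ring

lemma b_cast (c : C.Cell) : (((toSC c).b : ℚ) : ℝ) = c.gP.b C.KE := by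
  rw [C.gP_b]; unfold toSC; push_cast; ring

lemma lo_cast (c : C.Cell) : (((toSC c).lo : ℚ) : ℝ) = (c.gl4 : ℝ) / 10 ^ 4 := by
  unfold toSC; push_cast; rfl

lemma be_cast (c : C.Cell) : (((toSC c).be : ℚ) : ℝ) = (c.B3 : ℝ) / 1000 := by
  unfold toSC; push_cast; rfl

lemma R_cast (c : C.Cell) : (((toSC c).R : ℚ) : ℝ) = (c.R20 : ℝ) / 10 ^ 20 := by
  unfold toSC; push_cast; rfl

lemma dg_cast (c : C.Cell) : (((toSC c).dg : ℚ) : ℝ) = (c.kb3 : ℝ) / 10 ^ 3 * (1 / 2 ^ 26) := by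
  unfold toSC; push_cast; ring

/-- `HG` from the cell facts -/
theorem HG_of {g k : ℝ → ℝ} (hm : Measurable g)
    (hf : ∀ y : ℝ, 0 < y → y ≤ 128 → ∃ c ∈ C.cells, C.Fact g k c y ∧
      (c.B3 : ℝ) / 10 ^ 3 ≤ bet0 4 y / y ^ 2 + 1 / (2 * g y ^ 2))
    (hl : ∀ y : ℝ, 128 < y → 7 / 10 ≤ g y) (hh : ∀ y : ℝ, 128 < y → g y ≤ 717 / 1000) :
    HG g where
  meas := hm
  cell := fun y h1 h2 => by
    obtain ⟨c, hc, ⟨f1, f2, f3, -, -⟩, f4⟩ := hf y h1 h2
    refine ⟨c, hc, by rw [aQ_cast]; exact f1, by rw [b_cast]; exact f2,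
      by rw [lo_cast]; exact f3, ?_⟩
    rw [be_cast]
    have e : (1000 : ℝ) = 10 ^ 3 := by norm_num
    rw [e]
    exact f4
  lo_far := hl
  hi_far := hh

/-- `HD` from the cell facts -/
theorem HD_of {g k Gc : ℝ → ℝ} {e : ℝ} (he : |e| ≤ 1 / 2 ^ 26)
    (hf : ∀ y : ℝ, 0 < y → y ≤ 128 → ∃ c ∈ C.cells, C.Fact g k c y)
    (hG : ∀ y : ℝ, 0 < y → y ≤ 128 → Gc y = g y + e * k y)
    (ht : ∀ y : ℝ, 128 < y → |Gc y - g y| ≤ 1 / 2 ^ 25) :
    HD g Gc where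
  cell := fun y h1 h2 => by
    obtain ⟨c, hc, f1, f2, -, -, f5⟩ := hf y h1 h2
    refine ⟨c, hc, by rw [aQ_cast]; exact f1, by rw [b_cast]; exact f2, ?_⟩
    rw [hG y h1 h2, add_sub_cancel_left, abs_mul, dg_cast, mul_comm]
    exact mul_le_mul f5 he (abs_nonneg _) (by positivity)
  far := ht

/-- measurability of a spline -/
theorem pw_measurable {K S : ℕ} {T : ℕ → ℝ → ℝ} (l : List C.Pc) (hl : l ≠ [])
    (hc : C.chain l = true) (hT : ∀ q, l.getLast? = some q → C.LastOK K S q T) :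
    Measurable (C.pw K S l T 0) :=
  (continuous_iff_continuousAt.2 fun y =>
    (C.pw_hasDerivAt l hl hc hT 0 (by norm_num) y).continuousAt).measurable

end Crest.Agent.R213.E.St
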