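import Crest.Agent.R213.E.CertCst
import Crest.Agent.R213.E.SBridge

/-!
# Row 213, part E, E-CERT: assembly of the certificate from the cell facts and the tail facts (helper49)
-/

set_option autoImplicit false

open Set MeasureTheory Filter Topology

noncomputable section

namespace Crest.Agent.R213.E

/-- facts about the family `G` (with `y`-derivatives `G1, G2, G3`) and the `c`-derivative `k`. -/
structure FamFacts (k : ℝ → ℝ) (G G1 G2 G3 : ℝ → ℝ → ℝ) : Prop where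
  C3 : ∀ c ∈ Icc (cst.c0 - cst.δ) (cst.c0 + cst.δ), C3On (Ioi 0) (G c) (G1 c) (G2 c) (G3 c)
  G3c : ∀ c ∈ Icc (cst.c0 - cst.δ) (cst.c0 + cst.δ), ContinuousOn (G3 c) (Ioi 0)
  Gcc : ∀ y, 0 < y → ContinuousOn (fun c => G c y) (Icc (cst.c0 - cst.δ) (cst.c0 + cst.δ))
  Rcc : ∀ y, 0 < y → ContinuousOn (fun c => resid c y (G c y) (G1 c y) (G2 c y) (G3 c y))
    (Icc (cst.c0 - cst.δ) (cst.c0 + cst.δ))
  meas : Measurable (G cst.c0)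
  cell : ∀ y : ℝ, 0 < y → y ≤ 128 → ∃ c ∈ C.cells, C.Fact (G cst.c0) k c y ∧
      (c.B3 : ℝ) / 10 ^ 3 ≤ bet0 4 y / y ^ 2 + 1 / (2 * G cst.c0 y ^ 2)
  lin : ∀ c ∈ Icc (cst.c0 - cst.δ) (cst.c0 + cst.δ), ∀ y : ℝ, 0 < y → y ≤ 128 →
    G c y = G cst.c0 y + (c - cst.c0) * k y
  one : G cst.c0 1 ≤ 879 / 1000
  res : ∀ c ∈ Icc (cst.c0 - cst.δ) (cst.c0 + cst.δ), ∀ y : ℝ, 0 < y →
    |resid c y (G c y) (G1 c y) (G2 c y) (G3 c y)| ≤ St.sd.R y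
  far : ∀ c ∈ Icc (cst.c0 - cst.δ) (cst.c0 + cst.δ), ∀ y : ℝ, 128 < y → |G c y - cst.c0| ≤ 3 / 1000
  far_c : ∀ c ∈ Icc (cst.c0 - cst.δ) (cst.c0 + cst.δ), ∀ y : ℝ, 128 < y →
    |G c y - G cst.c0 y| ≤ 1 / 2 ^ 25
  tail : ∀ c ∈ Icc (cst.c0 - cst.δ) (cst.c0 + cst.δ), ∃ C, ∀ y, 1 ≤ y → |G c y - S3 c y| ≤ C / y ^ 8

theorem c0_mem : cst.c0 ∈ Icc (cst.c0 - cst.δ) (cst.c0 + cst.δ) := by
  have : 0 < cst.δ := by norm_num [cst]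
  constructor <;> linarith

theorem c_abs {c : ℝ} (hc : c ∈ Icc (cst.c0 - cst.δ) (cst.c0 + cst.δ)) :
    |c - cst.c0| ≤ 1 / 2 ^ 26 := by
  have h : cst.δ = 1 / 2 ^ 26 := rfl
  rw [abs_le, ← h]; constructor <;> linarith [hc.1, hc.2]

theorem c0_bd : 7139 / 10000 ≤ cst.c0 ∧ cst.c0 ≤ 714 / 1000 := by
  constructor <;> norm_num [cst, C.C0]

variable {k : ℝ → ℝ} {G G1 G2 G3 : ℝ → ℝ → ℝ}

/-- bounds for every `y > 0`. -/
theorem fam_bds (F : FamFacts k G G1 G2 G3) {c : ℝ}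
    (hc : c ∈ Icc (cst.c0 - cst.δ) (cst.c0 + cst.δ)) {y : ℝ} (hy : 0 < y) :
    169 / 1000 ≤ G c y ∧ G c y ≤ 11 / 10 ∧ (y ≤ 2 → 7 / 10 ≤ G c y) ∧
      (2 ≤ y → 4 / 3 ≤ y * (G c y - 1 / 2000)) := by
  have hcb := c0_bd
  rcases le_or_gt y 128 with h | h
  · obtain ⟨q, hq, hf, -⟩ := F.cell y hy h
    obtain ⟨h1, h2, -, h3, h4⟩ := C.fact_bounds hq hf (c_abs hc)
    rw [← F.lin c hc y hy h] at h1 h2 h3 h4
    refine ⟨h1, h2, h3, fun h5 => ?_⟩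
    rcases h5.lt_or_eq with h5 | h5
    · exact h4 h5
    · have := h3 h5.symm.le
      rw [← h5] at this ⊢; linarith
  · have h1 := abs_le.1 (F.far c hc y h)
    have h2 : 7 / 10 ≤ G c y := by linarith
    refine ⟨by linarith, by linarith, fun h3 => by linarith, fun _ => ?_⟩
    have h3 : 128 * (7 / 10 - 1 / 2000) ≤ y * (G c y - 1 / 2000) := by
      apply mul_le_mul h.le (by linarith) (by norm_num) hy.le
    refine le_trans ?_ h3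
    norm_num

/-- the weights' input. -/
theorem fam_HG (F : FamFacts k G G1 G2 G3) : St.HG (G cst.c0) := by
  have hcb := c0_bd
  refine St.HG_of F.meas F.cell (fun y hy => ?_) (fun y hy => ?_)
  · have := abs_le.1 (F.far cst.c0 c0_mem y hy); linarith
  · have := abs_le.1 (F.far cst.c0 c0_mem y hy); linarith

theorem fam_HD (F : FamFacts k G G1 G2 G3) {c : ℝ}
    (hc : c ∈ Icc (cst.c0 - cst.δ) (cst.c0 + cst.δ)) : St.HD (G cst.c0) (G c) := by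
  refine St.HD_of (c_abs hc) (k := k) (fun y h1 h2 => ?_) (F.lin c hc) (F.far_c c hc)
  obtain ⟨q, hq, hf, -⟩ := F.cell y h1 h2
  exact ⟨q, hq, hf⟩

/-- facts about the adjoint function. -/
structure PsiFacts (G G1 G2 G3 : ℝ → ℝ → ℝ) (ψ ψ1 ψ2 ψ3 : ℝ → ℝ) : Prop where
  ψ_d : ∀ y ∈ Icc 0 cst.Y, HasDerivWithinAt ψ (ψ1 y) (Icc 0 cst.Y) y
  ψ1_d : ∀ y ∈ Icc 0 cst.Y, HasDerivWithinAt ψ1 (ψ2 y) (Icc 0 cst.Y) y
  ψ2_d : ∀ y ∈ Icc 0 cst.Y, HasDerivWithinAt ψ2 (ψ3 y) (Icc 0 cst.Y) y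
  ψ3_c : ContinuousOn ψ3 (Icc 0 cst.Y)
  ψ_Y : ψ cst.Y = 0
  ψ1_Y : ψ1 cst.Y = 0
  ψ2_Y : ψ2 cst.Y = 0
  ψ_0 : 0 < ψ 0
  K1_int : IntervalIntegrable (fun y => (ψ y * St.sd.p y / chi cst.b y) ^ 2) volume 0 cst.Y
  K1_le : ∫ y in (0 : ℝ)..cst.Y, (ψ y * St.sd.p y / chi cst.b y) ^ 2 ≤ cst.K1 ^ 2
  K2_int : IntervalIntegrable
    (fun y => ((y * ψ3 y + 12 * ψ2 y - nn (G cst.c0) y * ψ y) / St.sd.p y) ^ 2) volume 0 cst.Y
  K2_le : ∫ y in (0 : ℝ)..cst.Y,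
    ((y * ψ3 y + 12 * ψ2 y - nn (G cst.c0) y * ψ y) / St.sd.p y) ^ 2 ≤ cst.K2 ^ 2
  main_hi : cst.K ≤ -∫ y in (0 : ℝ)..cst.Y, ψ y * (y ^ 8 * resid (cst.c0 + cst.δ) y
    (G (cst.c0 + cst.δ) y) (G1 (cst.c0 + cst.δ) y) (G2 (cst.c0 + cst.δ) y) (G3 (cst.c0 + cst.δ) y))
  main_lo : cst.K ≤ ∫ y in (0 : ℝ)..cst.Y, ψ y * (y ^ 8 * resid (cst.c0 - cst.δ) y
    (G (cst.c0 - cst.δ) y) (G1 (cst.c0 - cst.δ) y) (G2 (cst.c0 - cst.δ) y) (G3 (cst.c0 - cst.δ) y))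

theorem cert_of {ψ ψ1 ψ2 ψ3 : ℝ → ℝ} (F : FamFacts k G G1 G2 G3)
    (H : PsiFacts G G1 G2 G3 ψ ψ1 ψ2 ψ3) :
    Cert cst St.sd.p St.sd.R G G1 G2 G3 ψ ψ1 ψ2 ψ3 where
  δ_pos := by norm_num [cst]
  c_lo := cst_lo
  c_hi := cst_hi
  G_C3 := F.C3
  G3_cont := F.G3c
  G_cc := F.Gcc
  res_cc := F.Rcc
  m_pos := by norm_num [cst]
  m_le := by norm_num [cst]
  G_lo := fun c hc y hy => by have := (fam_bds F hc hy).1; linarith
  G_hi := fun c hc y hy => by have := (fam_bds F hc hy).2.1; linarith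
  G_lo1 := fun c hc y hy h2 => by have := (fam_bds F hc hy).2.2.1 h2; linarith
  G_lo2 := fun c hc y hy => (fam_bds F hc (by linarith)).2.2.2 hy
  at_one := fun c hc => by
    have h1 := F.lin c hc 1 one_pos (by norm_num)
    obtain ⟨q, hq, hf, -⟩ := F.cell 1 one_pos (by norm_num)
    have h2 := abs_le.1 (C.fact_bounds hq hf (c_abs hc)).2.2.1
    have h3 := F.one
    rw [h1]; linarith
  tail := F.tail
  b_ge := by norm_num [cst]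
  wdata := St.sd_wdata (fam_HG F) (fun y hy => by
    have := (fam_bds F c0_mem hy).1; linarith)
  p_tail := St.sd_p_tail
  η_nonneg := by norm_num [cst]
  η_lt := by norm_num [cst]
  lip := fun c hc => St.sd_lip (fam_HG F) (fam_HD F hc)
  res := F.res
  R_meas := St.sd_R_meas
  M_nonneg := by norm_num [cst]
  R_int := St.sd_R_M.1
  R_M := St.sd_R_M.2
  R_near := St.sd_R_near
  R_far := St.sd_R_far
  close := cst_close
  Y_pos := by norm_num [cst]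
  ψ_d := H.ψ_d
  ψ1_d := H.ψ1_d
  ψ2_d := H.ψ2_d
  ψ3_c := H.ψ3_c
  ψ_Y := H.ψ_Y
  ψ1_Y := H.ψ1_Y
  ψ2_Y := H.ψ2_Y
  ψ_0 := H.ψ_0
  K1_nonneg := by norm_num [cst]
  K2_nonneg := by norm_num [cst]
  K1_int := H.K1_int
  K1_le := H.K1_le
  K2_int := H.K2_int
  K2_le := H.K2_le
  small := cst_small
  main_hi := H.main_hi
  main_lo := H.main_lo

end Crest.Agent.R213.E
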