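import Crest.Agent.R213.E.CertData
import Crest.Agent.R213.E.EDefs

/-!
# Row 213, part E, E-CERT: elementary bounds of the base profiles (helper49)

From the cell facts (`gl4/10⁴ ≤ g0 ≤ gh4/10⁴`, `|k| ≤ kb3/10³` on `(a,b]`) and the tail facts.
-/

set_option autoImplicit false

open Set

namespace Crest.Agent.R213.E.C

theorem bd_all : cells.all (fun c => decide (1700 ≤ c.gl4) && decide (c.gh4 ≤ 10100)
    && decide (c.kb3 ≤ 9000)) = true := by decide +kernel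

theorem bd_first : (cells.take 1).all (fun c => decide (7400 ≤ c.gl4)) = true := by decide +kernel

/-- cells beyond `2`: `a (gl - m - …) ≥ 4/3`. -/
theorem bd_rest : cells.all (fun c => decide (c.M = 1 ∧ c.H = 8 ∧ 7400 ≤ c.gl4) ||
    decide (320000 ≤ 3 * (c.H * (c.M - 1)) * (c.gl4 - 6) ∧ 16 ≤ c.H * (c.M - 1) ∧ 1 ≤ c.M)) = true := by
  decide +kernel

/-- facts on one cell. -/
def Fact (g k : ℝ → ℝ) (c : Cell) (y : ℝ) : Prop :=
  c.gP.a KE < y ∧ y ≤ c.gP.b KE ∧ (c.gl4 : ℝ) / 10 ^ 4 ≤ g y ∧ g y ≤ (c.gh4 : ℝ) / 10 ^ 4 ∧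
    |k y| ≤ (c.kb3 : ℝ) / 10 ^ 3

theorem gP_a (c : Cell) : c.gP.a KE = (c.H : ℝ) / 8 * ((c.M : ℝ) - 1) := by
  simp [Pc.a, Pc.h, Cell.gP, KE]; left; norm_num

theorem gP_b (c : Cell) : c.gP.b KE = (c.H : ℝ) / 8 * ((c.M : ℝ) + 1) := by
  simp [Pc.b, Pc.h, Cell.gP, KE]; left; norm_num

theorem fact_bounds {g k : ℝ → ℝ} {c : Cell} (hc : c ∈ cells) {y : ℝ} (h : Fact g k c y) {e : ℝ}
    (he : |e| ≤ 1 / 2 ^ 26) :
    169 / 1000 ≤ g y + e * k y ∧ g y + e * k y ≤ 11 / 10 ∧ |e * k y| ≤ 1 / 10 ^ 6 ∧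
      (y ≤ 2 → 7 / 10 ≤ g y + e * k y) ∧ (2 < y → 4 / 3 ≤ y * (g y + e * k y - 1 / 2000)) := by
  obtain ⟨ha, hb, h1, h2, h3⟩ := h
  have hA := List.all_eq_true.1 bd_all c hc
  have hR := List.all_eq_true.1 bd_rest c hc
  simp only [Bool.and_eq_true, decide_eq_true_eq] at hA
  simp only [Bool.or_eq_true, decide_eq_true_eq] at hR
  obtain ⟨⟨g1, g2⟩, k1⟩ := hA
  have g1' : (1700 : ℝ) ≤ c.gl4 := by exact_mod_cast g1
  have g2' : (c.gh4 : ℝ) ≤ 10100 := by exact_mod_cast g2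
  have k1' : (c.kb3 : ℝ) ≤ 9000 := by exact_mod_cast k1
  have hek : |e * k y| ≤ 1 / 10 ^ 6 := by
    rw [abs_mul]
    have h4 : |k y| ≤ 9 := by
      refine h3.trans ?_
      rw [div_le_iff₀ (by norm_num)]; norm_num; linarith
    calc |e| * |k y| ≤ 1 / 2 ^ 26 * 9 := by gcongr
      _ ≤ 1 / 10 ^ 6 := by norm_num
  obtain ⟨e1, e2⟩ := abs_le.1 hek
  have hgl : (1700 : ℝ) / 10 ^ 4 ≤ g y := by
    refine le_trans ?_ h1; gcongr
  have hgh : g y ≤ 10100 / 10 ^ 4 := by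
    refine h2.trans ?_; gcongr
  refine ⟨by norm_num at *; linarith, by norm_num at *; linarith, hek, ?_, ?_⟩
  · intro hy
    rcases hR with hR | hR
    · have : (7400 : ℝ) ≤ c.gl4 := by exact_mod_cast hR.2.2
      have h5 : (7400 : ℝ) / 10 ^ 4 ≤ g y := by
        refine le_trans ?_ h1; gcongr
      norm_num at *; linarith
    · exfalso
      rw [gP_a] at ha
      have h6 : (16 : ℝ) ≤ c.H * ((c.M : ℝ) - 1) := by
        have := hR.2.1
        have h7 : ((16 : ℕ) : ℝ) ≤ ((c.H * (c.M - 1) : ℕ) : ℝ) := by exact_mod_cast this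
        rw [Nat.cast_mul, Nat.cast_sub hR.2.2] at h7
        push_cast at h7; exact h7
      nlinarith
  · intro hy
    rcases hR with hR | hR
    · exfalso
      rw [gP_b, hR.1, hR.2.1] at hb
      norm_num at hb; linarith
    · have h7 : (320000 : ℝ) ≤ 3 * (c.H * ((c.M : ℝ) - 1)) * ((c.gl4 : ℝ) - 6) := by
        have := hR.1
        have h7 : ((320000 : ℕ) : ℝ) ≤ ((3 * (c.H * (c.M - 1)) * (c.gl4 - 6) : ℕ) : ℝ) := by
          exact_mod_cast this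
        rw [Nat.cast_mul, Nat.cast_mul, Nat.cast_mul, Nat.cast_sub hR.2.2,
          Nat.cast_sub (by omega)] at h7
        push_cast at h7; exact h7
      rw [gP_a] at ha
      have hg6 : ((c.gl4 : ℝ) - 6) / 10 ^ 4 ≤ g y + e * k y - 1 / 2000 := by
        have : ((c.gl4 : ℝ) - 6) / 10 ^ 4 = (c.gl4 : ℝ) / 10 ^ 4 - 6 / 10 ^ 4 := by ring
        rw [this]; norm_num at *; linarith
      have h8 : 0 < ((c.gl4 : ℝ) - 6) / 10 ^ 4 := by
        apply div_pos _ (by norm_num); linarith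
      have h9 : (c.H : ℝ) / 8 * ((c.M : ℝ) - 1) * (((c.gl4 : ℝ) - 6) / 10 ^ 4) ≤
          y * (g y + e * k y - 1 / 2000) := by
        apply mul_le_mul ha.le hg6 h8.le (by linarith)
      refine le_trans ?_ h9
      have : (c.H : ℝ) / 8 * ((c.M : ℝ) - 1) * (((c.gl4 : ℝ) - 6) / 10 ^ 4)
        = (3 * (c.H * ((c.M : ℝ) - 1)) * ((c.gl4 : ℝ) - 6)) / 240000 := by ring
      rw [this, le_div_iff₀ (by norm_num)]
      linarith

end Crest.Agent.R213.E.C
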