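import Crest.Agent.R213.E.PsiCert
import Crest.Agent.R213.E.CFamTail
import Crest.Agent.R213.E.CertOne

/-!
# Row 213, part E, E-CERT: the fields of `FamFacts` for helper472's family `GF` (helper49)
-/

set_option autoImplicit false

open Set MeasureTheory Filter Topology

noncomputable section

namespace Crest.Agent.R213.E.C

theorem tl_cont_at (S : ℕ) (A : List Int) (r : ℕ) {y : ℝ} (hy : y ≠ 0) :
    ContinuousAt (tl 128 S A r) y := (hasDerivAt_tl 128 S A r hy).continuousAt

theorem tl2_cont_at (S : ℕ) (L : List (List Int)) (x : ℝ) (r : ℕ) {y : ℝ} (hy : y ≠ 0) :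
    ContinuousAt (tl2 128 S L x r) y := (hasDerivAt_tl2 128 S L x r hy).continuousAt

/-- continuity in the parameter -/
theorem tl2_cont_x (S : ℕ) (L : List (List Int)) (r : ℕ) (y : ℝ) :
    Continuous (fun x => tl2 128 S L x r y) := by
  induction L with
  | nil => simp only [tl2]; exact continuous_const
  | cons a L ih =>
    simp only [tl2]
    exact continuous_const.add (continuous_id.mul ih)

theorem zz_cont_x (r : ℕ) (y : ℝ) : Continuous (fun x => zz x r y) := by
  rcases le_or_gt y 128 with h | h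
  · have : (fun x => zz x r y) = fun _ => 0 := by
      funext x; exact zz_cell x r h
    rw [this]; exact continuous_const
  · have : (fun x => zz x r y) = fun x => x ^ 2 * tl2 128 SE (EL 60 2 C0) x r y := by
      funext x; exact zz_tail x r h
    rw [this]
    exact (continuous_pow 2).mul (tl2_cont_x _ _ _ _)

theorem GF_cont_c (r : ℕ) (y : ℝ) : Continuous (fun c => GF r c y) := by
  unfold GF
  have h1 : Continuous (fun c : ℝ => c - (C0 : ℝ) / 2 ^ 60) := continuous_id.sub continuous_const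
  exact (continuous_const.add (h1.mul continuous_const)).add ((zz_cont_x r y).comp h1)

theorem zz_cont_y (x : ℝ) : Continuous (fun y => zz x 3 y) := by
  refine continuous_iff_continuousAt.2 fun y => ?_
  refine pw_cont [zP] (by decide) (by decide) (fun q hq => ?_) (fun q hq => ?_) y
  · simp only [List.getLast?_singleton, Option.some.injEq] at hq
    subst hq
    exact last_z x
  · simp only [List.getLast?_singleton, Option.some.injEq] at hq
    subst hq
    rw [zP_b]
    intro z hz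
    have hz0 : z ≠ 0 := by have := mem_Ici.1 hz; positivity
    exact ((tl2_cont_at SE (EL 60 2 C0) x 3 hz0).const_mul (x ^ 2)).continuousWithinAt

theorem GF3_cont (c : ℝ) : Continuous (GF 3 c) := by
  have h := ((Ps.gg_cont (r := 3) le_rfl).add ((Ps.kk_cont (r := 3) le_rfl).const_mul
    (c - (C0 : ℝ) / 2 ^ 60))).add (zz_cont_y (c - (C0 : ℝ) / 2 ^ 60))
  exact h

end Crest.Agent.R213.E.C

namespace Crest.Agent.R213.E

theorem cst_c0 : cst.c0 = (C.C0 : ℝ) / 2 ^ 60 := rfl

theorem GF_c0 {y : ℝ} (hy : y ≤ 128) (r : ℕ) : C.GF r cst.c0 y = C.gg r y := by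
  rw [C.GF_cell r _ hy, cst_c0, sub_self, zero_mul, add_zero]

/-- what remains of the certificate: the cell facts and the kernel check of the tail. -/
structure CellFacts : Prop where
  cell : ∀ y : ℝ, 0 < y → y ≤ 128 → ∃ c ∈ C.cells, C.Fact (C.gg 0) (C.kk 0) c y ∧
      (c.B3 : ℝ) / 10 ^ 3 ≤ bet0 4 y / y ^ 2 + 1 / (2 * C.gg 0 y ^ 2)
  res : ∀ c ∈ Icc (cst.c0 - cst.δ) (cst.c0 + cst.δ), ∀ y : ℝ, 0 < y → y ≤ 128 →
    |resid c y (C.gg 0 y + (c - cst.c0) * C.kk 0 y) (C.gg 1 y + (c - cst.c0) * C.kk 1 y)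
      (C.gg 2 y + (c - cst.c0) * C.kk 2 y) (C.gg 3 y + (c - cst.c0) * C.kk 3 y)| ≤ St.sd.R y

theorem famFacts (tail_ok : C.TailOK 60 2 464 C.C0 C.A0 C.A1 26 14 25) (H : CellFacts) :
    FamFacts (C.kk 0) (fun c y => C.GF 0 c y) (fun c y => C.GF 1 c y) (fun c y => C.GF 2 c y)
      (fun c y => C.GF 3 c y) := by
  have hcell : ∀ y : ℝ, 0 < y → y ≤ 128 → ∃ c ∈ C.cells,
      C.Fact (fun y => C.GF 0 cst.c0 y) (C.kk 0) c y ∧
      (c.B3 : ℝ) / 10 ^ 3 ≤ bet0 4 y / y ^ 2 + 1 / (2 * C.GF 0 cst.c0 y ^ 2) := by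
    intro y h1 h2
    obtain ⟨q, hq, hf, hb⟩ := H.cell y h1 h2
    refine ⟨q, hq, ?_, by rw [GF_c0 h2]; exact hb⟩
    obtain ⟨f1, f2, f3, f4, f5⟩ := hf
    refine ⟨f1, f2, ?_, ?_, f5⟩
    · show _ ≤ C.GF 0 cst.c0 y
      rw [GF_c0 h2]; exact f3
    · show C.GF 0 cst.c0 y ≤ _
      rw [GF_c0 h2]; exact f4
  have hlin : ∀ c ∈ Icc (cst.c0 - cst.δ) (cst.c0 + cst.δ), ∀ y : ℝ, 0 < y → y ≤ 128 →
      C.GF 0 c y = C.GF 0 cst.c0 y + (c - cst.c0) * C.kk 0 y := by
    intro c _ y _ h2
    rw [GF_c0 h2, C.GF_cell 0 c h2, cst_c0]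
  have hfar : ∀ c ∈ Icc (cst.c0 - cst.δ) (cst.c0 + cst.δ), ∀ y : ℝ, 128 < y →
      |C.GF 0 c y - cst.c0| ≤ 3 / 1000 := fun c hc y hy =>
    (C.GF_far tail_ok (c_abs hc) hy).trans (by norm_num)
  have hpos : ∀ c ∈ Icc (cst.c0 - cst.δ) (cst.c0 + cst.δ), ∀ y : ℝ, 0 < y →
      0 < C.GF 0 c y := by
    intro c hc y hy
    rcases le_or_gt y 128 with h | h
    · obtain ⟨q, hq, hf, -⟩ := hcell y hy h
      have := (C.fact_bounds hq hf (c_abs hc)).1
      rw [hlin c hc y hy h]
      linarith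
    · have := abs_le.1 (hfar c hc y h)
      have := c0_bd
      linarith
  exact
    { C3 := fun c _ =>
        ⟨fun y _ => C.GF_hasDerivAt c 0 (by norm_num) y, fun y _ => C.GF_hasDerivAt c 1 (by norm_num) y,
          fun y _ => C.GF_hasDerivAt c 2 (by norm_num) y⟩
      G3c := fun c _ => (C.GF3_cont c).continuousOn
      Gcc := fun y _ => (C.GF_cont_c 0 y).continuousOn
      Rcc := fun y hy => by
        unfold resid
        have hc0 : ∀ c ∈ Icc (cst.c0 - cst.δ) (cst.c0 + cst.δ), c ≠ 0 := fun c hc => by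
          have := hc.1; have := cst_lo; intro h; linarith
        have g0 := (C.GF_cont_c 0 y).continuousOn (s := Icc (cst.c0 - cst.δ) (cst.c0 + cst.δ))
        have g1 := (C.GF_cont_c 1 y).continuousOn (s := Icc (cst.c0 - cst.δ) (cst.c0 + cst.δ))
        have g2 := (C.GF_cont_c 2 y).continuousOn (s := Icc (cst.c0 - cst.δ) (cst.c0 + cst.δ))
        have g3 := (C.GF_cont_c 3 y).continuousOn (s := Icc (cst.c0 - cst.δ) (cst.c0 + cst.δ))
        have i1 : ContinuousOn (fun c : ℝ => 1 / c) (Icc (cst.c0 - cst.δ) (cst.c0 + cst.δ)) :=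
          continuousOn_const.div continuousOn_id hc0
        have i2 : ContinuousOn (fun c : ℝ => 1 / C.GF 0 c y)
            (Icc (cst.c0 - cst.δ) (cst.c0 + cst.δ)) :=
          continuousOn_const.div g0 (fun c hc => (hpos c hc y hy).ne')
        exact ((((continuousOn_const.mul g3).add (continuousOn_const.mul g2)).add
          (continuousOn_const.mul g1)).add (continuousOn_const.mul (continuousOn_const.sub g0))).add
          (continuousOn_const.mul (i1.sub i2))
      meas := (C.GF_continuous cst.c0).measurable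
      cell := hcell
      lin := hlin
      one := by
        show C.GF 0 cst.c0 1 ≤ _
        rw [GF_c0 (by norm_num)]
        exact C.pw_one_le _
      res := fun c hc y hy => by
        rcases le_or_gt y 128 with h | h
        · have := H.res c hc y hy h
          have e : ∀ r, C.GF r c y = C.gg r y + (c - cst.c0) * C.kk r y := fun r =>
            C.GF_cell r c h
          rw [e 0, e 1, e 2, e 3]
          exact this
        · rw [St.sd_R_tail h]
          exact C.GF_res_tail tail_ok (c_abs hc) h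
      far := hfar
      far_c := fun c hc y hy => C.GF_far_c tail_ok (c_abs hc) hy
      tail := fun c hc => C.GF_tail_all tail_ok (c_abs hc) }

/-- the certificate, from the cell facts and the tail check. -/
theorem cert_of_cells (tail_ok : C.TailOK 60 2 464 C.C0 C.A0 C.A1 26 14 25) (H : CellFacts) :
    ∃ (k : Cst) (p R : ℝ → ℝ) (G G1 G2 G3 : ℝ → ℝ → ℝ) (ψ ψ1 ψ2 ψ3 : ℝ → ℝ),
      Cert k p R G G1 G2 G3 ψ ψ1 ψ2 ψ3 := by
  have F := famFacts tail_ok H
  exact ⟨cst, St.sd.p, St.sd.R, _, _, _, _, _, _, _, _, cert_of F (C.Ps.psiFacts F.res)⟩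

end Crest.Agent.R213.E
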