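import Crest.Agent.R213.E.EDefs

/-! Row 213, PART E: frozen statements (all `sorry`; NEVER import from a proof file).  Prove each
statement under the same name in namespace `Crest.Agent.R213.E` (helper lemmas in a private
sub-namespace).

`cert_exists` (E-CERT: 49, 223, 472, 110) → `mid_of_cert` (9; uses `nl_exists`, `pairing` = 245/310,
`nlData_of_cert`, `sign_of_cert`, `pt_bound`, `qq_bound`, `upgrade`) → `zero_reg` (798), `inf_reg` (10)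
→ `soliton_exists` (9). -/

set_option autoImplicit false

open Set MeasureTheory Filter Topology

noncomputable section

namespace Crest.Agent.R213.E.IF

/-! ### E-NL (helper245), pairing (helper310) -/

theorem nl_exists {b n1 cq Cq : ℝ} {n p : ℝ → ℝ} (hW : WData b n1 cq Cq n p)
    {c1 c2 η M : ℝ} {N : ℝ → ℝ → ℝ → ℝ} {F : ℝ → ℝ} (hN : NLData b p c1 c2 η M N F) :
    ∃ (D D1 : ℝ → ℝ → ℝ) (κ : ℝ → ℝ), ContinuousOn κ (Icc c1 c2) ∧ ∀ c ∈ Icc c1 c2,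
      Rep (κ c) (fun t => N c t (D c t) - n t * D c t) (D c) (D1 c) ∧
      IntegrableOn (fun y => (p y * D c y) ^ 2) (Ioi 0) ∧
      ∫ y in Ioi (0 : ℝ), (p y * D c y) ^ 2 ≤ (M / (1 - η)) ^ 2 := by
  sorry

theorem pairing {κ Y : ℝ} {z D D1 ψ ψ1 ψ2 ψ3 : ℝ → ℝ} (hR : Rep κ z D D1) (hY : 0 < Y)
    (hψ : ∀ y ∈ Icc 0 Y, HasDerivWithinAt ψ (ψ1 y) (Icc 0 Y) y)
    (hψ1 : ∀ y ∈ Icc 0 Y, HasDerivWithinAt ψ1 (ψ2 y) (Icc 0 Y) y)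
    (hψ2c : ContinuousOn ψ2 (Icc 0 Y)) {s : Set ℝ} (hs : s.Countable)
    (hψ2 : ∀ y ∈ Ioo 0 Y \ s, HasDerivAt ψ2 (ψ3 y) y)
    (hψ3 : IntervalIntegrable ψ3 volume 0 Y)
    (h0 : ψ Y = 0) (h1 : ψ1 Y = 0) (h2 : ψ2 Y = 0)
    (hz : IntervalIntegrable z volume 0 Y) :
    10 * ψ 0 * κ = ∫ y in (0:ℝ)..Y, (ψ y * z y + (y * ψ3 y + 12 * ψ2 y) * D y) := by
  sorry

/-! ### glue blocks -/

/-- B1 (helper35), file E/Glue1.lean. -/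
theorem nlData_of_cert {k : Cst} {p R : ℝ → ℝ} {G G1 G2 G3 : ℝ → ℝ → ℝ} {ψ ψ1 ψ2 ψ3 : ℝ → ℝ}
    (hC : Cert k p R G G1 G2 G3 ψ ψ1 ψ2 ψ3) :
    NLData k.b p (k.c0 - k.δ) (k.c0 + k.δ) k.η k.M (NN (G k.c0) k.m G G1 G2 G3)
      (fun y => y ^ 8 * R y) := by
  sorry

/-- B1' (helper35), same file: pointwise bounds of `z = N - nD`. -/
theorem z_bd {k : Cst} {p R : ℝ → ℝ} {G G1 G2 G3 : ℝ → ℝ → ℝ} {ψ ψ1 ψ2 ψ3 : ℝ → ℝ}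
    (hC : Cert k p R G G1 G2 G3 ψ ψ1 ψ2 ψ3) {c : ℝ} (hc : c ∈ Icc (k.c0 - k.δ) (k.c0 + k.δ))
    (D : ℝ) :
    (∀ y, 0 < y → y ≤ 2 →
      |NN (G k.c0) k.m G G1 G2 G3 c y D - nn (G k.c0) y * D| ≤ 3 * |D| + k.ε * y ^ 10) ∧
    (∀ y, 2 ≤ y →
      |NN (G k.c0) k.m G G1 G2 G3 c y D - nn (G k.c0) y * D| ≤
        2 / 7 * y ^ 2 * |D| + k.ρ * y ^ 8) := by
  sorry

/-- B2 (helper993), file E/Sign.lean: use `pairing`, `nlData_of_cert.lip` and Cauchy–Schwarz. -/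
theorem sign_of_cert {k : Cst} {p R : ℝ → ℝ} {G G1 G2 G3 : ℝ → ℝ → ℝ} {ψ ψ1 ψ2 ψ3 : ℝ → ℝ}
    (hC : Cert k p R G G1 G2 G3 ψ ψ1 ψ2 ψ3) {c κ : ℝ} (hc : c ∈ Icc (k.c0 - k.δ) (k.c0 + k.δ))
    {D D1 : ℝ → ℝ}
    (hR : Rep κ (fun t => NN (G k.c0) k.m G G1 G2 G3 c t (D t) - nn (G k.c0) t * D t) D D1)
    (hDi : IntegrableOn (fun y => (p y * D y) ^ 2) (Ioi 0))
    (hDM : ∫ y in Ioi (0 : ℝ), (p y * D y) ^ 2 ≤ (k.M / (1 - k.η)) ^ 2) :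
    |10 * ψ 0 * κ + ∫ y in (0 : ℝ)..k.Y, ψ y * (y ^ 8 * resid c y (G c y) (G1 c y) (G2 c y) (G3 c y))|
      ≤ (k.η * k.K1 + k.K2) * (k.M / (1 - k.η)) := by
  sorry

/-- B3 (helper510), file E/PtBound.lean.  (`|D| ≤ ∫₀^y (y-t) t^9 |Q(t)| dt`, `|Q(t)| ≤ Z/2 + ∫_t^2
(L s^{-10}|D| + ε)`; first finiteness of `sup |D|/(s^11 + σ s)`, σ → 0.) -/
theorem pt_bound {z D D1 : ℝ → ℝ} (hR : Rep 0 z D D1) {L ε Z : ℝ} (hL0 : 0 ≤ L) (hL : L ≤ 3)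
    (hε : 0 ≤ ε) (hz : ∀ y, 0 < y → y ≤ 2 → |z y| ≤ L * |D y| + ε * y ^ 10)
    (hQ : ∀ y, 2 ≤ y → |QQ z y| ≤ Z / y) :
    ∀ y, 0 < y → |D y| ≤ (Z / 40 + ε / 16) * y ^ 10 := by
  sorry

/-- B4 (helper886), file E/QQBound.lean.  (Cauchy–Schwarz, `1/p ≤ Cq/χ = Cq (1+t²/b²)³ ≤ Cq t^6/27`.) -/
theorem qq_bound {b n1 cq Cq : ℝ} {n p : ℝ → ℝ} (hW : WData b n1 cq Cq n p) (hb : 12 ≤ b ^ 2)
    {z D : ℝ → ℝ} {ℓ ρ MD : ℝ} (hℓ : 0 ≤ ℓ) (hρ : 0 ≤ ρ) (hMD : 0 ≤ MD)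
    (hD : ContinuousOn D (Ioi 0))
    (hz : ∀ y, 2 ≤ y → |z y| ≤ ℓ * y ^ 2 * |D y| + ρ * y ^ 8)
    (hDi : IntegrableOn (fun y => (p y * D y) ^ 2) (Ioi 0))
    (hDM : ∫ y in Ioi (0 : ℝ), (p y * D y) ^ 2 ≤ MD ^ 2) :
    ∀ y, 2 ≤ y → |QQ z y| ≤ (ℓ * Cq * MD / 66 + ρ) / y := by
  sorry

/-- B5 (helper798), file E/Upgrade.lean. -/
theorem upgrade {k : Cst} {p R : ℝ → ℝ} {G G1 G2 G3 : ℝ → ℝ → ℝ} {ψ ψ1 ψ2 ψ3 : ℝ → ℝ}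
    (hC : Cert k p R G G1 G2 G3 ψ ψ1 ψ2 ψ3) {c : ℝ} (hc : c ∈ Icc (k.c0 - k.δ) (k.c0 + k.δ))
    {D D1 : ℝ → ℝ}
    (hR : Rep 0 (fun t => NN (G k.c0) k.m G G1 G2 G3 c t (D t) - nn (G k.c0) t * D t) D D1)
    (hD : ∀ y, 0 < y → |D y| ≤ k.m * y ^ 10) :
    ∃ g1 g2 g3 : ℝ → ℝ, C3On (Ioi 0) (fun y => G c y + D y / y ^ 10) g1 g2 g3 ∧
      OdeOn (Ioi 0) c (fun y => G c y + D y / y ^ 10) g1 g2 g3 := by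
  sorry

/-- B6 (helper426), file E/MainId.lean: for the certificate (`G c = g0 + (c-c0)·h` on `(0,Y]`):
integration by parts formula for the main term of the pairing. -/
theorem main_id {c c0 Y : ℝ} (hc : 0 < c) (hc0 : 0 < c0) (hY : 0 < Y)
    {g g1 g2 g3 h h1 h2 h3 ψ ψ1 ψ2 ψ3 : ℝ → ℝ}
    (hg : C3On (Ioi 0) g g1 g2 g3) (hh : C3On (Ioi 0) h h1 h2 h3)
    (hgc : ContinuousOn g3 (Ioi 0)) (hhc : ContinuousOn h3 (Ioi 0))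
    (hpos : ∀ y, 0 < y → y ≤ Y → 0 < g y) (hpos' : ∀ y, 0 < y → y ≤ Y → 0 < g y + (c - c0) * h y)
    {B : ℝ} (hgB : ∀ y, 0 < y → y ≤ Y → |g y| ≤ B ∧ |g1 y| ≤ B ∧ |g2 y| ≤ B ∧ |g3 y| ≤ B)
    (hhB : ∀ y, 0 < y → y ≤ Y → |h y| ≤ B ∧ |h1 y| ≤ B ∧ |h2 y| ≤ B ∧ |h3 y| ≤ B)
    {m : ℝ} (hm : 0 < m) (hgm : ∀ y, 0 < y → y ≤ Y → m ≤ g y)
    (hgm' : ∀ y, 0 < y → y ≤ Y → m ≤ g y + (c - c0) * h y)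
    (hψ : ∀ y ∈ Icc 0 Y, HasDerivWithinAt ψ (ψ1 y) (Icc 0 Y) y)
    (hψ1 : ∀ y ∈ Icc 0 Y, HasDerivWithinAt ψ1 (ψ2 y) (Icc 0 Y) y)
    (hψ2 : ∀ y ∈ Icc 0 Y, HasDerivWithinAt ψ2 (ψ3 y) (Icc 0 Y) y)
    (hψ3 : ContinuousOn ψ3 (Icc 0 Y))
    (h0 : ψ Y = 0) (hY1 : ψ1 Y = 0) (hY2 : ψ2 Y = 0) :
    -∫ y in (0:ℝ)..Y, ψ y * (y ^ 8 * resid c y (g y + (c - c0) * h y) (g1 y + (c - c0) * h1 y)
        (g2 y + (c - c0) * h2 y) (g3 y + (c - c0) * h3 y)) =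
      (c - c0) / (2 * c * c0) * (∫ y in (0:ℝ)..Y, ψ y * y ^ 10)
      - (∫ y in (0:ℝ)..Y, ψ y * (y ^ 8 * resid c0 y (g y) (g1 y) (g2 y) (g3 y)))
      + (c - c0) * (∫ y in (0:ℝ)..Y, (y * ψ3 y + 12 * ψ2 y - ψ y / (2 * g y ^ 2)) * (y ^ 10 * h y))
      + (c - c0) ^ 2 * (∫ y in (0:ℝ)..Y, ψ y * y ^ 10 * h y ^ 2 /
          (2 * g y ^ 2 * (g y + (c - c0) * h y))) := by
  sorry

/-- helper9, file E/MidOfCert.lean. -/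
theorem mid_of_cert {k : Cst} {p R : ℝ → ℝ} {G G1 G2 G3 : ℝ → ℝ → ℝ} {ψ ψ1 ψ2 ψ3 : ℝ → ℝ}
    (hC : Cert k p R G G1 G2 G3 ψ ψ1 ψ2 ψ3) : ∃ (c : ℝ) (g g1 g2 g3 : ℝ → ℝ), Mid c g g1 g2 g3 := by
  sorry

/-! ### E-CERT (helper49, 223, 472, 110), file E/CertExists.lean -/

theorem cert_exists : ∃ (k : Cst) (p R : ℝ → ℝ) (G G1 G2 G3 : ℝ → ℝ → ℝ) (ψ ψ1 ψ2 ψ3 : ℝ → ℝ),
    Cert k p R G G1 G2 G3 ψ ψ1 ψ2 ψ3 := by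
  sorry

/-! ### regularity at the two ends -/

/-- E-ZERO (helper798), file E/Zero.lean: regularity at `0` and smooth extension to all of `ℝ`. -/
theorem zero_reg {c m M : ℝ} {g g1 g2 g3 : ℝ → ℝ} (hc : 0 < c) (hm : 0 < m)
    (hC : C3On (Ioi 0) g g1 g2 g3) (hO : OdeOn (Ioi 0) c g g1 g2 g3)
    (hlo : ∀ y, 0 < y → m ≤ g y) (hhi : ∀ y, 0 < y → g y ≤ M) :
    ∃ (A : ℝ) (G : ℝ → ℝ), ContDiff ℝ (⊤ : ℕ∞) G ∧ (∀ y, 0 < y → G y = g y) ∧ G 0 = 1 ∧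
      deriv G 0 = -A ∧ VoltOn (Ioi 0) c A G := by
  sorry

/-- E-INF (helper10), file E/Infty.lean: regularity at infinity. -/
theorem inf_reg {c m M : ℝ} {g g1 g2 g3 : ℝ → ℝ} (hc : 0 < c) (hm : 0 < m)
    (hC : C3On (Ioi 0) g g1 g2 g3) (hO : OdeOn (Ioi 0) c g g1 g2 g3)
    (hlo : ∀ y, 0 < y → m ≤ g y) (hhi : ∀ y, 0 < y → g y ≤ M)
    (ht : IntegrableOn (fun y => y ^ 14 * (g y - S3 c y) ^ 2) (Ioi 1)) :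
    ∃ gh : ℝ → ℝ, ContDiffOn ℝ (⊤ : ℕ∞) gh (Ici 0) ∧ gh 0 = c ∧
      ∀ y, 0 < y → g y = gh (1 / y ^ 2) := by
  sorry

end Crest.Agent.R213.E.IF
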