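import Crest.Agent.R213.E.Sign0

/-!
# Row 213, part E: `nlData_of_cert`, `z_bd` (helper310)
-/

set_option autoImplicit false

open Set MeasureTheory Filter Topology

noncomputable section

namespace Crest.Agent.R213.E

namespace Gl

theorem clamp_abs {m : ℝ} (hm : 0 ≤ m) (x : ℝ) : |clamp m x| ≤ m := by
  unfold clamp
  rw [abs_le]
  refine ⟨le_max_left _ _, max_le (by linarith) (min_le_left _ _)⟩

theorem clamp_lip (m x x' : ℝ) : |clamp m x - clamp m x'| ≤ |x - x'| := by
  unfold clamp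
  refine le_trans (abs_max_sub_max_le_max _ _ _ _) ?_
  rw [sub_self, abs_zero]
  refine max_le (abs_nonneg _) ?_
  refine le_trans (abs_min_sub_min_le_max _ _ _ _) ?_
  rw [sub_self, abs_zero]
  exact max_le (abs_nonneg _) le_rfl

/-- `clamp m x` lies between `0` and `x`. -/
theorem clamp_between {m : ℝ} (hm : 0 ≤ m) (x : ℝ) :
    |x - clamp m x| + |clamp m x| = |x| := by
  unfold clamp
  rcases le_total 0 x with hx | hx
  · have h1 : 0 ≤ min m x := le_min hm hx
    rw [max_eq_right (by linarith : -m ≤ min m x), abs_of_nonneg h1, abs_of_nonneg hx,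
      abs_of_nonneg (by linarith [min_le_right m x])]
    ring
  · have h2 : min m x = x := min_eq_right (by linarith)
    rw [h2]
    have h3 : max (-m) x ≤ 0 := max_le (by linarith) hx
    rw [abs_of_nonpos h3, abs_of_nonpos hx, abs_of_nonpos (by linarith [le_max_right (-m) x])]
    ring

theorem inv_between {a b n E : ℝ} (ha : 0 < a) (hb : 0 < b)
    (h1 : |n - 1 / (2 * a ^ 2)| ≤ E) (h2 : |n - 1 / (2 * b ^ 2)| ≤ E) :
    |n - 1 / (2 * (a * b))| ≤ E := by
  rw [abs_le] at h1 h2 ⊢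
  rcases le_total a b with h | h
  · have e1 : 1 / (2 * (a * b)) ≤ 1 / (2 * a ^ 2) :=
      one_div_le_one_div_of_le (by positivity) (by nlinarith)
    have e2 : 1 / (2 * b ^ 2) ≤ 1 / (2 * (a * b)) :=
      one_div_le_one_div_of_le (by positivity) (by nlinarith)
    constructor <;> linarith [h1.1, h1.2, h2.1, h2.2]
  · have e1 : 1 / (2 * (a * b)) ≤ 1 / (2 * b ^ 2) :=
      one_div_le_one_div_of_le (by positivity) (by nlinarith)
    have e2 : 1 / (2 * a ^ 2) ≤ 1 / (2 * (a * b)) :=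
      one_div_le_one_div_of_le (by positivity) (by nlinarith)
    constructor <;> linarith [h1.1, h1.2, h2.1, h2.2]

theorem c3_cont {g g1 g2 g3 : ℝ → ℝ} (h : C3On (Ioi 0) g g1 g2 g3) :
    ContinuousOn g (Ioi 0) ∧ ContinuousOn g1 (Ioi 0) ∧ ContinuousOn g2 (Ioi 0) :=
  ⟨fun y hy => (h.d1 y hy).continuousAt.continuousWithinAt,
    fun y hy => (h.d2 y hy).continuousAt.continuousWithinAt,
    fun y hy => (h.d3 y hy).continuousAt.continuousWithinAt⟩

end Gl

open Gl

section

variable {k : Cst} {p R : ℝ → ℝ} {G G1 G2 G3 : ℝ → ℝ → ℝ} {ψ ψ1 ψ2 ψ3 : ℝ → ℝ}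

theorem Gl.G_pos (hC : Cert k p R G G1 G2 G3 ψ ψ1 ψ2 ψ3) {c : ℝ}
    (hc : c ∈ Icc (k.c0 - k.δ) (k.c0 + k.δ)) {y : ℝ} (hy : 0 < y) : 0 < G c y := by
  linarith [hC.G_lo c hc y hy]

theorem Gl.Gh_pos (hC : Cert k p R G G1 G2 G3 ψ ψ1 ψ2 ψ3) {c : ℝ}
    (hc : c ∈ Icc (k.c0 - k.δ) (k.c0 + k.δ)) {y : ℝ} (hy : 0 < y) {h : ℝ} (hh : |h| ≤ k.m) :
    0 < G c y + h := by
  have h1 := hC.G_lo c hc y hy
  have h2 := hC.m_le
  have h3 := (abs_le.1 hh).1
  linarith

theorem Gl.c0_mem (hC : Cert k p R G G1 G2 G3 ψ ψ1 ψ2 ψ3) :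
    k.c0 ∈ Icc (k.c0 - k.δ) (k.c0 + k.δ) := by
  have := hC.δ_pos
  constructor <;> linarith

/-- B1 -/
theorem nlData_of_cert (hC : Cert k p R G G1 G2 G3 ψ ψ1 ψ2 ψ3) :
    NLData k.b p (k.c0 - k.δ) (k.c0 + k.δ) k.η k.M (NN (G k.c0) k.m G G1 G2 G3)
      (fun y => y ^ 8 * R y) := by
  have hc0 := Gl.c0_mem hC
  have hm := hC.m_pos.le
  refine ⟨by linarith [hC.δ_pos], hC.η_nonneg, hC.η_lt, hC.M_nonneg, ?_, ?_, ?_, ?_, hC.R_int,
    hC.R_M, ?_⟩
  · -- measurability
    intro c hc D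
    obtain ⟨g0c, -, -⟩ := c3_cont (hC.G_C3 k.c0 hc0)
    obtain ⟨gc, g1c, g2c⟩ := c3_cont (hC.G_C3 c hc)
    have g3c := hC.G3_cont c hc
    have hcl : Continuous (clamp k.m) := by
      unfold clamp
      fun_prop
    have hid : ContinuousOn (fun y : ℝ => y) (Ioi 0) := continuousOn_id
    have hh : ContinuousOn (fun y : ℝ => clamp k.m (D / y ^ 10)) (Ioi 0) := by
      refine hcl.comp_continuousOn (continuousOn_const.div (hid.pow 10) ?_)
      intro y hy
      exact pow_ne_zero _ (ne_of_gt hy)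
    have hcont : ContinuousOn (fun y => nn (G k.c0) y * (y ^ 10 * clamp k.m (D / y ^ 10))
        + y ^ 10 / 2 * (1 / (G c y + clamp k.m (D / y ^ 10)) - 1 / G c y)
        - y ^ 8 * resid c y (G c y) (G1 c y) (G2 c y) (G3 c y)) (Ioi 0) := by
      have a1 : ContinuousOn (fun y => nn (G k.c0) y) (Ioi 0) := by
        unfold nn
        refine continuousOn_const.div (continuousOn_const.mul (g0c.pow 2)) ?_
        intro y hy
        have := Gl.G_pos hC hc0 hy
        positivity
      have a2 : ContinuousOn (fun y => 1 / (G c y + clamp k.m (D / y ^ 10))) (Ioi 0) := by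
        refine continuousOn_const.div (gc.add hh) ?_
        intro y hy
        exact (Gl.Gh_pos hC hc hy (clamp_abs hm _)).ne'
      have a3 : ContinuousOn (fun y => 1 / G c y) (Ioi 0) := by
        refine continuousOn_const.div gc ?_
        intro y hy
        exact (Gl.G_pos hC hc hy).ne'
      have a4 : ContinuousOn (fun y => resid c y (G c y) (G1 c y) (G2 c y) (G3 c y)) (Ioi 0) := by
        unfold resid
        exact (((((hid.pow 3).mul g3c).add ((continuousOn_const.mul (hid.pow 2)).mul g2c)).add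
          ((continuousOn_const.mul hid).mul g1c)).add
          (continuousOn_const.mul (continuousOn_const.sub gc))).add
          (((hid.pow 2).div_const 2).mul (continuousOn_const.sub a3))
      exact ((a1.mul ((hid.pow 10).mul hh)).add
        (((hid.pow 10).div_const 2).mul (a2.sub a3))).sub ((hid.pow 8).mul a4)
    have hp := hcont.measurable_piecewise (g := fun _ => (0:ℝ)) continuousOn_const
      measurableSet_Ioi
    have he : (fun y => NN (G k.c0) k.m G G1 G2 G3 c y D) =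
        (Ioi (0:ℝ)).piecewise (fun y => nn (G k.c0) y * (y ^ 10 * clamp k.m (D / y ^ 10))
        + y ^ 10 / 2 * (1 / (G c y + clamp k.m (D / y ^ 10)) - 1 / G c y)
        - y ^ 8 * resid c y (G c y) (G1 c y) (G2 c y) (G3 c y)) (fun _ => (0:ℝ)) := by
      funext y
      by_cases hy : 0 < y
      · rw [Set.piecewise_eq_of_mem _ _ _ (show y ∈ Ioi (0:ℝ) from hy)]
        unfold NN
        rw [if_pos hy]
      · rw [Set.piecewise_eq_of_notMem _ _ _ (show y ∉ Ioi (0:ℝ) from hy)]
        unfold NN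
        rw [if_neg hy]
    rw [he]
    exact hp
  · -- Lipschitz
    intro c hc y hy D D'
    set h := clamp k.m (D / y ^ 10) with hh
    set h' := clamp k.m (D' / y ^ 10) with hh'
    have ha : 0 < G c y + h := Gl.Gh_pos hC hc hy (clamp_abs hm _)
    have hb : 0 < G c y + h' := Gl.Gh_pos hC hc hy (clamp_abs hm _)
    have e : NN (G k.c0) k.m G G1 G2 G3 c y D - NN (G k.c0) k.m G G1 G2 G3 c y D' =
        (y ^ 10 * (h - h')) * (nn (G k.c0) y - 1 / (2 * ((G c y + h) * (G c y + h')))) := by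
      unfold NN
      rw [if_pos hy, if_pos hy, ← hh, ← hh']
      field_simp
      ring
    rw [e, abs_mul, abs_mul, abs_of_pos (by positivity : (0:ℝ) < y ^ 10)]
    have h1 : |nn (G k.c0) y - 1 / (2 * ((G c y + h) * (G c y + h')))| ≤
        k.η * (p y ^ 2 / chi k.b y) := by
      apply inv_between ha hb
      · exact hC.lip c hc y hy h (clamp_abs hm _)
      · exact hC.lip c hc y hy h' (clamp_abs hm _)
    have h2 : y ^ 10 * |h - h'| ≤ |D - D'| := by
      have h3 := clamp_lip k.m (D / y ^ 10) (D' / y ^ 10)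
      rw [← hh, ← hh'] at h3
      rw [← sub_div, abs_div, abs_of_pos (by positivity : (0:ℝ) < y ^ 10),
        le_div_iff₀ (by positivity)] at h3
      linarith
    calc y ^ 10 * |h - h'| * |nn (G k.c0) y - 1 / (2 * ((G c y + h) * (G c y + h')))|
        ≤ |D - D'| * (k.η * (p y ^ 2 / chi k.b y)) :=
          mul_le_mul h2 h1 (abs_nonneg _) (abs_nonneg _)
      _ = k.η * (p y ^ 2 / chi k.b y) * |D - D'| := by ring
  · have := hC.R_meas
    fun_prop
  · intro c hc y hy
    rw [Sg.NN_zero hm G G1 G2 G3 hy, abs_neg, abs_mul, abs_of_pos (by positivity : (0:ℝ) < y ^ 8)]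
    exact mul_le_mul_of_nonneg_left (hC.res c hc y hy) (by positivity)
  · intro y hy D
    have a1 := hC.G_cc y hy
    have a2 := hC.res_cc y hy
    have hcont : ContinuousOn (fun c => nn (G k.c0) y * (y ^ 10 * clamp k.m (D / y ^ 10))
        + y ^ 10 / 2 * (1 / (G c y + clamp k.m (D / y ^ 10)) - 1 / G c y)
        - y ^ 8 * resid c y (G c y) (G1 c y) (G2 c y) (G3 c y))
        (Icc (k.c0 - k.δ) (k.c0 + k.δ)) := by
      refine (continuousOn_const.add (continuousOn_const.mul (ContinuousOn.sub ?_ ?_))).sub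
        (continuousOn_const.mul a2)
      · refine continuousOn_const.div (a1.add continuousOn_const) ?_
        intro c hc
        exact (Gl.Gh_pos hC hc hy (clamp_abs hm _)).ne'
      · refine continuousOn_const.div a1 ?_
        intro c hc
        exact (Gl.G_pos hC hc hy).ne'
    refine hcont.congr ?_
    intro c _
    simp only
    unfold NN
    rw [if_pos hy]

/-- B1' -/
theorem z_bd (hC : Cert k p R G G1 G2 G3 ψ ψ1 ψ2 ψ3) {c : ℝ}
    (hc : c ∈ Icc (k.c0 - k.δ) (k.c0 + k.δ)) (D : ℝ) :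
    (∀ y, 0 < y → y ≤ 2 →
      |NN (G k.c0) k.m G G1 G2 G3 c y D - nn (G k.c0) y * D| ≤ 3 * |D| + k.ε * y ^ 10) ∧
    (∀ y, 2 ≤ y →
      |NN (G k.c0) k.m G G1 G2 G3 c y D - nn (G k.c0) y * D| ≤
        2 / 7 * y ^ 2 * |D| + k.ρ * y ^ 8) := by
  have hc0 := Gl.c0_mem hC
  have hm := hC.m_pos.le
  -- general bound
  have key : ∀ y, 0 < y → ∀ L r : ℝ, 0 ≤ L → nn (G k.c0) y ≤ L →
      (∀ h, |h| ≤ k.m → 1 / (2 * (G c y * (G c y + h))) ≤ L) → y ^ 8 * R y ≤ r →
      |NN (G k.c0) k.m G G1 G2 G3 c y D - nn (G k.c0) y * D| ≤ L * |D| + r := by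
    intro y hy L r hL hn hq hr
    set h := clamp k.m (D / y ^ 10) with hh
    have hha : |h| ≤ k.m := clamp_abs hm _
    have hG : 0 < G c y := Gl.G_pos hC hc hy
    have hGh : 0 < G c y + h := Gl.Gh_pos hC hc hy hha
    have hG0 : 0 < G k.c0 y := Gl.G_pos hC hc0 hy
    have hy10 : (0:ℝ) < y ^ 10 := by positivity
    have e : NN (G k.c0) k.m G G1 G2 G3 c y D - nn (G k.c0) y * D =
        -(nn (G k.c0) y * (D - y ^ 10 * h)) - (1 / (2 * (G c y * (G c y + h)))) * (y ^ 10 * h)
        - y ^ 8 * resid c y (G c y) (G1 c y) (G2 c y) (G3 c y) := by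
      unfold NN
      rw [if_pos hy, ← hh]
      field_simp
      ring
    have hsplit : |D - y ^ 10 * h| + |y ^ 10 * h| = |D| := by
      have h3 := clamp_between hm (D / y ^ 10)
      rw [← hh] at h3
      have e1 : D - y ^ 10 * h = y ^ 10 * (D / y ^ 10 - h) := by
        field_simp
      have e2 : D = y ^ 10 * (D / y ^ 10) := by field_simp
      rw [e1, abs_mul, abs_mul, abs_of_pos hy10, ← mul_add, h3]
      conv_rhs => rw [e2, abs_mul, abs_of_pos hy10]
    have hn0 : 0 ≤ nn (G k.c0) y := by unfold nn; positivity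
    have hq0 : 0 ≤ 1 / (2 * (G c y * (G c y + h))) := by positivity
    have hres := hC.res c hc y hy
    rw [e]
    calc |-(nn (G k.c0) y * (D - y ^ 10 * h)) - (1 / (2 * (G c y * (G c y + h)))) * (y ^ 10 * h)
        - y ^ 8 * resid c y (G c y) (G1 c y) (G2 c y) (G3 c y)|
        ≤ |nn (G k.c0) y * (D - y ^ 10 * h)| + |(1 / (2 * (G c y * (G c y + h)))) * (y ^ 10 * h)|
          + |y ^ 8 * resid c y (G c y) (G1 c y) (G2 c y) (G3 c y)| := by
          refine le_trans (abs_sub _ _) (add_le_add (le_trans (abs_sub _ _) ?_) le_rfl)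
          rw [abs_neg]
      _ = nn (G k.c0) y * |D - y ^ 10 * h| + (1 / (2 * (G c y * (G c y + h)))) * |y ^ 10 * h|
          + y ^ 8 * |resid c y (G c y) (G1 c y) (G2 c y) (G3 c y)| := by
          rw [abs_mul, abs_mul (1 / (2 * (G c y * (G c y + h)))), abs_mul (y ^ 8),
            abs_of_nonneg hn0, abs_of_nonneg hq0, abs_of_pos (by positivity : (0:ℝ) < y ^ 8)]
      _ ≤ L * |D - y ^ 10 * h| + L * |y ^ 10 * h| + y ^ 8 * R y := by
          refine add_le_add (add_le_add (mul_le_mul_of_nonneg_right hn (abs_nonneg _))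
            (mul_le_mul_of_nonneg_right (hq h hha) (abs_nonneg _))) ?_
          exact mul_le_mul_of_nonneg_left hres (by positivity)
      _ = L * |D| + y ^ 8 * R y := by rw [← mul_add, hsplit]
      _ ≤ L * |D| + r := by linarith
  refine ⟨?_, ?_⟩
  · intro y hy hy2
    have b1 := hC.G_lo1 k.c0 hc0 y hy hy2
    have b2 := hC.G_lo1 c hc y hy hy2
    have b3 := hC.m_le
    apply key y hy 3 (k.ε * y ^ 10) (by norm_num)
    · unfold nn
      rw [div_le_iff₀ (by positivity)]
      nlinarith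
    · intro h hh
      have b4 := (abs_le.1 hh).1
      have b5 : 59 / 100 ≤ G c y + h := by linarith
      rw [div_le_iff₀ (by positivity)]
      nlinarith [mul_le_mul b2 b5 (by norm_num) (by linarith : (0:ℝ) ≤ G c y)]
    · have b6 := hC.R_near y hy hy2
      calc y ^ 8 * R y ≤ y ^ 8 * (k.ε * y ^ 2) := mul_le_mul_of_nonneg_left b6 (by positivity)
        _ = k.ε * y ^ 10 := by ring
  · intro y hy
    have hy0 : 0 < y := by linarith
    have b1 := hC.G_lo2 k.c0 hc0 y hy
    have b2 := hC.G_lo2 c hc y hy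
    apply key y hy0 (2 / 7 * y ^ 2) (k.ρ * y ^ 8) (by positivity)
    · have b3 : 4 / 3 ≤ y * G k.c0 y := by nlinarith [hC.m_pos]
      have b4 : 0 < G k.c0 y := Gl.G_pos hC hc0 hy0
      unfold nn
      rw [div_le_iff₀ (by positivity)]
      have b5 : 16 / 9 ≤ (y * G k.c0 y) ^ 2 := by nlinarith
      nlinarith
    · intro h hh
      have b3 := (abs_le.1 hh).1
      have b4 : 4 / 3 ≤ y * G c y := by nlinarith [hC.m_pos]
      have b5 : 4 / 3 ≤ y * (G c y + h) := by nlinarith
      have b6 : 0 < G c y := Gl.G_pos hC hc hy0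
      have b7 : 0 < G c y + h := Gl.Gh_pos hC hc hy0 hh
      rw [div_le_iff₀ (by positivity)]
      have b8 : 16 / 9 ≤ (y * G c y) * (y * (G c y + h)) := by
        have := mul_le_mul b4 b5 (by norm_num) (by positivity : (0:ℝ) ≤ y * G c y)
        linarith
      nlinarith
    · have b9 := hC.R_far y hy
      calc y ^ 8 * R y ≤ y ^ 8 * k.ρ := mul_le_mul_of_nonneg_left b9 (by positivity)
        _ = k.ρ * y ^ 8 := by ring

end

end Crest.Agent.R213.E
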