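import Mathlib

/-!
# Row 213: integration by parts for primitives of integrable functions (helper472)
-/

set_option autoImplicit false

open Set MeasureTheory Filter Topology

noncomputable section

namespace Crest.Agent.R213.E

/-- integration by parts for primitives of integrable functions -/
theorem ibp_ac {F G f g : ℝ → ℝ} {a b : ℝ} (hab : a ≤ b)
    (hF : ∀ x ∈ Icc a b, F x = F a + ∫ t in a..x, f t) (hf : IntervalIntegrable f volume a b)
    (hG : ∀ x ∈ Icc a b, G x = G a + ∫ t in a..x, g t) (hg : IntervalIntegrable g volume a b) :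
    ∫ x in a..b, (f x * G x + F x * g x) = F b * G b - F a * G a := by
  have key : ∀ (A : ℝ) (φ : ℝ → ℝ), IntervalIntegrable φ volume a b →
      AbsolutelyContinuousOnInterval (fun x => A + ∫ t in a..x, φ t) a b := by
    intro A φ hφ
    have h1 : AbsolutelyContinuousOnInterval (fun _ : ℝ => A) a b :=
      ((LipschitzWith.const A).lipschitzOnWith (s := uIcc a b)).absolutelyContinuousOnInterval
    exact h1.add (hφ.absolutelyContinuousOnInterval_intervalIntegral left_mem_uIcc)
  have acF := key (F a) f hf
  have acG := key (G a) g hg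
  have h := acF.integral_deriv_mul_eq_sub acG
  have e1 : ∫ x in a..b, (f x * G x + F x * g x) =
      ∫ x in a..b, (deriv (fun x => F a + ∫ t in a..x, f t) x * (G a + ∫ t in a..x, g t) +
        (F a + ∫ t in a..x, f t) * deriv (fun x => G a + ∫ t in a..x, g t) x) := by
    apply intervalIntegral.integral_congr_ae
    filter_upwards [hf.ae_hasDerivAt_integral, hg.ae_hasDerivAt_integral] with x h1 h2 h3
    have h4 : x ∈ uIcc a b := uIoc_subset_uIcc h3
    have h5 : x ∈ Icc a b := by rwa [uIcc_of_le hab] at h4
    have d1 := ((h1 h4 a left_mem_uIcc).const_add (F a)).deriv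
    have d2 := ((h2 h4 a left_mem_uIcc).const_add (G a)).deriv
    rw [d1, d2, ← hF x h5, ← hG x h5]
  rw [e1, h]
  simp only [intervalIntegral.integral_same, add_zero]
  rw [← hF b (right_mem_Icc.2 hab), ← hG b (right_mem_Icc.2 hab)]

/-- primitives: `F` continuous on `[a,b]`, differentiable off a countable set -/
theorem prim_of_deriv {F f : ℝ → ℝ} {a b : ℝ} (hc : ContinuousOn F (Icc a b)) {s : Set ℝ}
    (hs : s.Countable) (hd : ∀ x ∈ Ioo a b \ s, HasDerivAt F (f x) x)
    (hf : IntervalIntegrable f volume a b) :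
    ∀ x ∈ Icc a b, F x = F a + ∫ t in a..x, f t := by
  intro x hx
  have h := MeasureTheory.integral_eq_of_hasDerivAt_off_countable_of_le F f hx.1 hs
    (hc.mono (Icc_subset_Icc_right hx.2))
    (fun y hy => hd y ⟨⟨hy.1.1, hy.1.2.trans_le hx.2⟩, hy.2⟩)
    (hf.mono_set (by
      rw [uIcc_of_le hx.1, uIcc_of_le (hx.1.trans hx.2)]
      exact Icc_subset_Icc_right hx.2))
  rw [h]; ring

end Crest.Agent.R213.E
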