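import Mathlib

/-!
# Row 213, part E: regularity of the soliton profile at infinity

Everything in the variable `t = log y`.
-/

set_option autoImplicit false

open Set Filter Topology Asymptotics

noncomputable section

namespace Crest.Agent.R213.E.Inf

/-- symbol class: `F` and its first `k` derivatives are `O(e^{-Mt})` at infinity. -/
def Oc : ℕ → ℝ → (ℝ → ℝ) → Prop
  | 0, M, F => F =O[atTop] fun t => Real.exp (-M * t)
  | k + 1, M, F => (F =O[atTop] fun t => Real.exp (-M * t)) ∧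
      ∃ F' : ℝ → ℝ, (∀ᶠ t in atTop, HasDerivAt F (F' t) t) ∧ Oc k M F'

theorem Oc.isBigO {k : ℕ} {M : ℝ} {F : ℝ → ℝ} (h : Oc k M F) :
    F =O[atTop] fun t => Real.exp (-M * t) := by
  cases k with
  | zero => exact h
  | succ k => exact h.1

theorem hasDerivAt_congr_atTop {F G F' : ℝ → ℝ} (h : ∀ᶠ t in atTop, HasDerivAt F (F' t) t)
    (hFG : F =ᶠ[atTop] G) : ∀ᶠ t in atTop, HasDerivAt G (F' t) t := by
  obtain ⟨T, hT⟩ := eventually_atTop.1 hFG
  filter_upwards [h, eventually_gt_atTop T] with t ht htT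
  refine ht.congr_of_eventuallyEq ?_
  filter_upwards [Ioi_mem_nhds htT] with s hs
  exact (hT s (le_of_lt hs)).symm

theorem Oc.congr {k : ℕ} {M : ℝ} {F G : ℝ → ℝ} (h : Oc k M F) (hFG : F =ᶠ[atTop] G) :
    Oc k M G := by
  cases k with
  | zero => exact (show F =O[atTop] _ from h).congr' hFG EventuallyEq.rfl
  | succ k =>
    obtain ⟨h1, F', h2, h3⟩ := h
    exact ⟨h1.congr' hFG EventuallyEq.rfl, F', hasDerivAt_congr_atTop h2 hFG, h3⟩

theorem Oc.of_succ {k : ℕ} {M : ℝ} {F : ℝ → ℝ} (h : Oc (k + 1) M F) : Oc k M F := by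
  induction k generalizing F with
  | zero => exact h.1
  | succ k ih =>
    obtain ⟨h1, F', h2, h3⟩ := h
    exact ⟨h1, F', h2, ih h3⟩

theorem Oc.mono_k {k l : ℕ} {M : ℝ} {F : ℝ → ℝ} (hkl : k ≤ l) (h : Oc l M F) : Oc k M F := by
  induction hkl with
  | refl => exact h
  | step _ ih => exact ih h.of_succ

theorem exp_isBigO {M M' : ℝ} (h : M' ≤ M) :
    (fun t => Real.exp (-M * t)) =O[atTop] fun t => Real.exp (-M' * t) := by
  refine IsBigO.of_bound 1 ?_
  filter_upwards [eventually_ge_atTop 0] with t ht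
  rw [one_mul, Real.norm_eq_abs, Real.norm_eq_abs, abs_of_pos (Real.exp_pos _),
    abs_of_pos (Real.exp_pos _)]
  apply Real.exp_le_exp.2
  nlinarith

theorem Oc.mono_M {k : ℕ} {M M' : ℝ} {F : ℝ → ℝ} (hM : M' ≤ M) (h : Oc k M F) : Oc k M' F := by
  induction k generalizing F with
  | zero => exact IsBigO.trans (show F =O[atTop] _ from h) (exp_isBigO hM)
  | succ k ih =>
    obtain ⟨h1, F', h2, h3⟩ := h
    exact ⟨h1.trans (exp_isBigO hM), F', h2, ih h3⟩

theorem Oc.add {k : ℕ} {M : ℝ} {F G : ℝ → ℝ} (hF : Oc k M F) (hG : Oc k M G) :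
    Oc k M (fun t => F t + G t) := by
  induction k generalizing F G with
  | zero => exact IsBigO.add (show F =O[atTop] _ from hF) (show G =O[atTop] _ from hG)
  | succ k ih =>
    obtain ⟨h1, F', h2, h3⟩ := hF
    obtain ⟨g1, G', g2, g3⟩ := hG
    refine ⟨h1.add g1, fun t => F' t + G' t, ?_, ih h3 g3⟩
    filter_upwards [h2, g2] with t a b
    exact a.add b

theorem Oc.const_mul {k : ℕ} {M : ℝ} {F : ℝ → ℝ} (r : ℝ) (hF : Oc k M F) :
    Oc k M (fun t => r * F t) := by
  induction k generalizing F with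
  | zero => exact IsBigO.const_mul_left (show F =O[atTop] _ from hF) r
  | succ k ih =>
    obtain ⟨h1, F', h2, h3⟩ := hF
    refine ⟨h1.const_mul_left r, fun t => r * F' t, ?_, ih h3⟩
    filter_upwards [h2] with t a
    exact a.const_mul r

theorem Oc.neg {k : ℕ} {M : ℝ} {F : ℝ → ℝ} (hF : Oc k M F) : Oc k M (fun t => - F t) :=
  (hF.const_mul (-1)).congr (Eventually.of_forall fun t => by simp)

theorem Oc.sub {k : ℕ} {M : ℝ} {F G : ℝ → ℝ} (hF : Oc k M F) (hG : Oc k M G) :
    Oc k M (fun t => F t - G t) :=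
  (hF.add hG.neg).congr (Eventually.of_forall fun t => by simp [sub_eq_add_neg])

theorem Oc.mul {k : ℕ} {M M' : ℝ} {F G : ℝ → ℝ} (hF : Oc k M F) (hG : Oc k M' G) :
    Oc k (M + M') (fun t => F t * G t) := by
  have hexp : (fun t => Real.exp (-M * t) * Real.exp (-M' * t)) =
      fun t => Real.exp (-(M + M') * t) := by
    funext t
    rw [← Real.exp_add]
    congr 1
    ring
  induction k generalizing F G with
  | zero =>
    have := IsBigO.mul (show F =O[atTop] _ from hF) (show G =O[atTop] _ from hG)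
    rw [hexp] at this
    exact this
  | succ k ih =>
    have hF' := hF
    have hG' := hG
    obtain ⟨h1, F', h2, h3⟩ := hF
    obtain ⟨g1, G', g2, g3⟩ := hG
    have h0 := h1.mul g1
    rw [hexp] at h0
    refine ⟨h0, fun t => F' t * G t + F t * G' t, ?_, (ih h3 hG'.of_succ).add (ih hF'.of_succ g3)⟩
    filter_upwards [h2, g2] with t a b
    exact a.mul b

theorem Oc.exp (k : ℕ) (a : ℝ) : Oc k a (fun t => Real.exp (-a * t)) := by
  induction k with
  | zero => exact isBigO_refl _ _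
  | succ k ih =>
    refine ⟨isBigO_refl _ _, fun t => (-a) * Real.exp (-a * t), ?_, ih.const_mul _⟩
    refine Eventually.of_forall fun t => ?_
    have := ((hasDerivAt_id t).const_mul (-a)).exp
    simp only [id_eq, mul_one] at this
    refine this.congr_deriv ?_
    ring

theorem Oc.of_deriv {k : ℕ} {M : ℝ} {F F' : ℝ → ℝ} (h : Oc (k + 1) M F)
    (hd : ∀ᶠ t in atTop, HasDerivAt F (F' t) t) : Oc k M F' := by
  obtain ⟨h1, F1, h2, h3⟩ := h
  refine h3.congr ?_
  filter_upwards [h2, hd] with t a b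
  exact a.unique b

theorem isBigO_exp_zero {F : ℝ → ℝ} {c : ℝ} (h : Tendsto F atTop (𝓝 c)) :
    F =O[atTop] fun t => Real.exp (-(0 : ℝ) * t) := by
  have h1 : F =O[atTop] (fun _ => (1 : ℝ)) := h.isBigO_one ℝ
  refine h1.congr (fun _ => rfl) (fun t => ?_)
  simp

theorem Oc.const (k : ℕ) (r : ℝ) : Oc k 0 (fun _ => r) := by
  refine ((Oc.exp k 0).const_mul r).congr (Eventually.of_forall fun t => ?_)
  simp

theorem Oc.inv {k : ℕ} {F : ℝ → ℝ} {c : ℝ} (h : Oc k 0 F) (hc : Tendsto F atTop (𝓝 c))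
    (h0 : c ≠ 0) : Oc k 0 (fun t => (F t)⁻¹) := by
  have hb : (fun t => (F t)⁻¹) =O[atTop] fun t => Real.exp (-(0 : ℝ) * t) :=
    isBigO_exp_zero (hc.inv₀ h0)
  induction k with
  | zero => exact hb
  | succ k ih =>
    have hi := ih h.of_succ
    obtain ⟨h1, F', h2, h3⟩ := h
    refine ⟨hb, fun t => -(F' t) / (F t) ^ 2, ?_, ?_⟩
    · filter_upwards [h2, hc.eventually_ne h0] with t a b
      exact a.inv b
    · have := (h3.neg.mul (hi.mul hi))
      simp only [add_zero] at this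
      refine this.congr (Eventually.of_forall fun t => ?_)
      simp only
      rw [div_eq_mul_inv, sq, mul_inv]

/-! ### Polynomials in `z = e^{-2t}` -/

open Polynomial

/-- `z d/dz`. -/
def thz (p : ℝ[X]) : ℝ[X] := X * derivative p

/-- `P(-2 z d/dz)`, `P(t) = t³+18t²+71t-90`. -/
def Dop (p : ℝ[X]) : ℝ[X] :=
  C (-8) * thz (thz (thz p)) + C 72 * thz (thz p) + C (-142) * thz p + C (-90) * p

theorem hasDerivAt_ez (t : ℝ) :
    HasDerivAt (fun t => Real.exp (-2 * t)) (-2 * Real.exp (-2 * t)) t := by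
  have := ((hasDerivAt_id t).const_mul (-2)).exp
  simp only [id_eq, mul_one] at this
  refine this.congr_deriv ?_
  ring

theorem hasDerivAt_poly (p : ℝ[X]) (t : ℝ) :
    HasDerivAt (fun t => p.eval (Real.exp (-2 * t)))
      (-2 * (thz p).eval (Real.exp (-2 * t))) t := by
  have := (p.hasDerivAt (Real.exp (-2 * t))).comp t (hasDerivAt_ez t)
  refine this.congr_deriv ?_
  simp only [thz, eval_mul, eval_X]
  ring

theorem tendsto_ez : Tendsto (fun t : ℝ => Real.exp (-2 * t)) atTop (𝓝 0) := by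
  apply Real.tendsto_exp_atBot.comp
  exact tendsto_id.const_mul_atTop_of_neg (by norm_num)

theorem tendsto_poly (p : ℝ[X]) :
    Tendsto (fun t : ℝ => p.eval (Real.exp (-2 * t))) atTop (𝓝 (p.eval 0)) :=
  (p.continuous.tendsto 0).comp tendsto_ez

theorem Oc.poly (k : ℕ) (p : ℝ[X]) : Oc k 0 (fun t => p.eval (Real.exp (-2 * t))) := by
  induction k generalizing p with
  | zero => exact isBigO_exp_zero (tendsto_poly p)
  | succ k ih =>
    exact ⟨isBigO_exp_zero (tendsto_poly p), _, Eventually.of_forall fun t => hasDerivAt_poly p t,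
      (ih (thz p)).const_mul (-2)⟩

theorem dvd_thz {n : ℕ} {a : ℝ[X]} (h : X ^ n ∣ a) : X ^ n ∣ thz a := by
  obtain ⟨b, rfl⟩ := h
  cases n with
  | zero => simp
  | succ n =>
    refine ⟨C ((n : ℝ) + 1) * b + X * derivative b, ?_⟩
    simp only [thz, derivative_mul, derivative_X_pow]
    push_cast
    simp only [map_add, map_natCast, map_one]
    ring

theorem thz_sub (a b : ℝ[X]) : thz (a - b) = thz a - thz b := by
  simp [thz, mul_sub]

theorem Dop_sub (a b : ℝ[X]) : Dop (a - b) = Dop a - Dop b := by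
  simp only [Dop, thz_sub]
  ring

theorem dvd_Dop {n : ℕ} {a : ℝ[X]} (h : X ^ n ∣ a) : X ^ n ∣ Dop a := by
  have h1 := dvd_thz h
  have h2 := dvd_thz h1
  have h3 := dvd_thz h2
  exact dvd_add (dvd_add (dvd_add (h3.mul_left _) (h2.mul_left _)) (h1.mul_left _)) (h.mul_left _)

/-- the formal solution at infinity, by `z`-adic iteration. -/
def pN (c : ℝ) : ℕ → ℝ[X]
  | 0 => C c
  | N + 1 => C c - C (2 * c) * X * (pN c N * (Dop (pN c N) + C 90))

theorem pN_eval (c : ℝ) (N : ℕ) : (pN c N).eval 0 = c := by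
  cases N with
  | zero => simp [pN]
  | succ N => simp [pN]

theorem pN_succ (c : ℝ) (N : ℕ) :
    pN c (N + 1) = C c - C (2 * c) * X * (pN c N * (Dop (pN c N) + C 90)) := rfl

theorem pN_dvd (c : ℝ) (N : ℕ) : X ^ (N + 1) ∣ pN c N - pN c (N + 1) := by
  induction N with
  | zero =>
    refine ⟨C (2 * c) * (C c * (Dop (C c) + C 90)), ?_⟩
    simp only [pN]
    ring
  | succ N ih =>
    have h1 : pN c (N + 1) - pN c (N + 2) = X * (C (2 * c) *
        (-(pN c N - pN c (N + 1)) * (Dop (pN c N) + C 90)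
          - pN c (N + 1) * (Dop (pN c N - pN c (N + 1))))) := by
      rw [Dop_sub]
      generalize hD1 : Dop (pN c (N + 1)) = D1
      generalize hD0 : Dop (pN c N) = D0
      rw [pN_succ c (N + 1), hD1]
      generalize hP1 : pN c (N + 1) = P1
      have : P1 = C c - C (2 * c) * X * (pN c N * (D0 + C 90)) := by
        rw [← hP1, pN_succ, hD0]
      generalize pN c N = P0 at *
      linear_combination this
    rw [h1, pow_succ']
    refine mul_dvd_mul_left _ (Dvd.dvd.mul_left (dvd_sub ?_ ?_) _)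
    · exact (ih.neg_right).mul_right _
    · exact (dvd_Dop ih).mul_left _

theorem resid {c : ℝ} (hc : c ≠ 0) (N : ℕ) : ∃ f : ℝ → ℝ,
    (∀ᶠ t in atTop, (Dop (pN c N)).eval (Real.exp (-2 * t)) + 90 + Real.exp (2 * t) / 2 *
      (1 / c - 1 / (pN c N).eval (Real.exp (-2 * t))) = f t) ∧ ∀ k, Oc k (2 * N) f := by
  obtain ⟨q, hq⟩ := pN_dvd c N
  have hne : ∀ᶠ t : ℝ in atTop, (pN c N).eval (Real.exp (-2 * t)) ≠ 0 := by
    have := (tendsto_poly (pN c N)).eventually_ne (b₂ := 0) (by rw [pN_eval]; exact hc)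
    exact this
  refine ⟨fun t => Real.exp (-(2 * (N : ℝ)) * t) * (q.eval (Real.exp (-2 * t)) *
    ((1 / (2 * c)) * ((pN c N).eval (Real.exp (-2 * t)))⁻¹)), ?_, fun k => ?_⟩
  · filter_upwards [hne] with t ht
    have hz : 0 < Real.exp (-2 * t) := Real.exp_pos _
    have h2 : Real.exp (2 * t) = (Real.exp (-2 * t))⁻¹ := by
      rw [← Real.exp_neg]
      congr 1
      ring
    have h3 : Real.exp (-(2 * (N : ℝ)) * t) = Real.exp (-2 * t) ^ N := by
      rw [← Real.exp_nat_mul]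
      congr 1
      ring
    have hQ := congrArg (fun p => p.eval (Real.exp (-2 * t))) hq
    rw [pN_succ] at hQ
    simp only [eval_sub, eval_mul, eval_add, eval_C, eval_X, eval_pow] at hQ
    rw [h2, h3]
    generalize (pN c N).eval (Real.exp (-2 * t)) = P at *
    generalize (Dop (pN c N)).eval (Real.exp (-2 * t)) = D at *
    generalize q.eval (Real.exp (-2 * t)) = Q at *
    generalize Real.exp (-2 * t) = z at *
    field_simp
    rw [pow_succ] at hQ
    linear_combination hQ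
  · have h1 := (Oc.exp k (2 * (N : ℝ))).mul ((Oc.poly k q).mul
      ((((Oc.poly k (pN c N)).inv (tendsto_poly _) (by rw [pN_eval]; exact hc))).const_mul
        (1 / (2 * c))))
    simp only [add_zero] at h1
    exact h1

/-! ### Dichotomy -/

/-- the local rate -/
def lam (κ t : ℝ) : ℝ := κ * Real.exp (2 / 3 * t)

theorem lam_pos {κ : ℝ} (hκ : 0 < κ) (t : ℝ) : 0 < lam κ t := mul_pos hκ (Real.exp_pos _)

theorem hasDerivAt_lam (κ t : ℝ) : HasDerivAt (lam κ) (2 / 3 * lam κ t) t := by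
  have := (((hasDerivAt_id t).const_mul (2 / 3 : ℝ)).exp).const_mul κ
  simp only [id_eq, mul_one] at this
  refine this.congr_deriv ?_
  simp only [lam]
  ring

theorem tendsto_lam {κ : ℝ} (hκ : 0 < κ) : Tendsto (lam κ) atTop atTop := by
  apply Tendsto.const_mul_atTop hκ
  apply Real.tendsto_exp_atTop.comp
  exact tendsto_id.const_mul_atTop (by norm_num)

theorem tendsto_growth {κ : ℝ} (hκ : 0 < κ) (q : ℝ) {a : ℝ} (ha : 0 < a) :
    Tendsto (fun t => Real.exp (q * t - a * lam κ t)) atTop (𝓝 0) := by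
  apply Real.tendsto_exp_atBot.comp
  have h1 : Tendsto (fun t : ℝ => t * (q - a * κ / 9 * t)) atTop atBot := by
    apply Tendsto.atTop_mul_atBot₀ tendsto_id
    have : Tendsto (fun t : ℝ => -(a * κ / 9) * t) atTop atBot :=
      tendsto_id.const_mul_atTop_of_neg (by have := mul_pos ha hκ; linarith)
    refine (tendsto_atBot_add_const_left _ q this).congr fun t => ?_
    ring
  refine tendsto_atBot_mono' _ ?_ h1
  filter_upwards [eventually_ge_atTop 0] with t ht
  have h2 : t / 3 + 1 ≤ Real.exp (t / 3) := Real.add_one_le_exp _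
  have h3 : Real.exp (2 / 3 * t) = Real.exp (t / 3) * Real.exp (t / 3) := by
    rw [← Real.exp_add]
    congr 1
    ring
  have h4 : t * t / 9 ≤ Real.exp (2 / 3 * t) := by
    rw [h3]
    nlinarith
  have h5 := mul_le_mul_of_nonneg_left h4 (mul_pos ha hκ).le
  simp only [lam]
  nlinarith

theorem unstable {κ q : ℝ} (hκ : 0 < κ) {W W' : ℝ → ℝ}
    (hd : ∀ᶠ t in atTop, HasDerivAt W (W' t) t)
    (hW : ∀ᶠ t in atTop, 3 / 4 * lam κ t * W t ≤ W' t)
    (hb : W =O[atTop] fun t => Real.exp (q * t)) : ∀ᶠ t in atTop, W t ≤ 0 := by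
  obtain ⟨T, hT⟩ := eventually_atTop.1 (hd.and hW)
  have hlim : Tendsto (fun t => W t * Real.exp (-(9 / 8 * lam κ t))) atTop (𝓝 0) := by
    have h1 : (fun t => W t * Real.exp (-(9 / 8 * lam κ t))) =O[atTop]
        fun t => Real.exp (q * t) * Real.exp (-(9 / 8 * lam κ t)) :=
      hb.mul (isBigO_refl _ _)
    refine h1.trans_tendsto ((tendsto_growth hκ q (a := 9 / 8) (by norm_num)).congr fun t => ?_)
    rw [← Real.exp_add]
    congr 1
  have hder : ∀ t, T ≤ t → HasDerivAt (fun t => W t * Real.exp (-(9 / 8 * lam κ t)))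
      (Real.exp (-(9 / 8 * lam κ t)) * (W' t - 3 / 4 * lam κ t * W t)) t := by
    intro t ht
    have h1 := (hT t ht).1.mul (((hasDerivAt_lam κ t).const_mul (9 / 8 : ℝ)).neg.exp)
    refine h1.congr_deriv ?_
    simp only [Pi.neg_apply]
    ring
  have hmono : MonotoneOn (fun t => W t * Real.exp (-(9 / 8 * lam κ t))) (Ici T) := by
    refine monotoneOn_of_deriv_nonneg (convex_Ici T) ?_ ?_ ?_
    · exact fun t ht => (hder t ht).continuousAt.continuousWithinAt
    · intro t ht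
      rw [interior_Ici] at ht
      exact (hder t (le_of_lt ht)).differentiableAt.differentiableWithinAt
    · intro t ht
      rw [interior_Ici] at ht
      rw [(hder t (le_of_lt ht)).deriv]
      exact mul_nonneg (Real.exp_pos _).le (sub_nonneg.2 (hT t (le_of_lt ht)).2)
  filter_upwards [eventually_ge_atTop T] with t ht
  have h1 : W t * Real.exp (-(9 / 8 * lam κ t)) ≤ 0 := by
    refine ge_of_tendsto hlim ?_
    filter_upwards [eventually_ge_atTop t] with s hs
    exact hmono ht (le_trans (show T ≤ t from ht) hs : T ≤ s) hs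
  by_contra hcon
  push Not at hcon
  have := mul_pos hcon (Real.exp_pos (-(9 / 8 * lam κ t)))
  linarith

theorem stable {κ m : ℝ} (hκ : 0 < κ) {B B' : ℝ → ℝ}
    (hd : ∀ᶠ t in atTop, HasDerivAt B (B' t) t)
    (hB : ∀ᶠ t in atTop, B' t ≤ -(7 / 4 * lam κ t) * B t) :
    ∃ C, ∀ᶠ t in atTop, B t ≤ C * Real.exp (-m * t) := by
  obtain ⟨T, hT⟩ := eventually_atTop.1 (hd.and hB)
  have hder : ∀ t, T ≤ t → HasDerivAt (fun t => B t * Real.exp (21 / 8 * lam κ t))
      (Real.exp (21 / 8 * lam κ t) * (B' t + 7 / 4 * lam κ t * B t)) t := by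
    intro t ht
    have h1 := (hT t ht).1.mul (((hasDerivAt_lam κ t).const_mul (21 / 8 : ℝ)).exp)
    refine h1.congr_deriv ?_
    ring
  have hmono : AntitoneOn (fun t => B t * Real.exp (21 / 8 * lam κ t)) (Ici T) := by
    refine antitoneOn_of_deriv_nonpos (convex_Ici T) ?_ ?_ ?_
    · exact fun t ht => (hder t ht).continuousAt.continuousWithinAt
    · intro t ht
      rw [interior_Ici] at ht
      exact (hder t (le_of_lt ht)).differentiableAt.differentiableWithinAt
    · intro t ht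
      rw [interior_Ici] at ht
      rw [(hder t (le_of_lt ht)).deriv]
      refine mul_nonpos_of_nonneg_of_nonpos (Real.exp_pos _).le ?_
      have := (hT t (le_of_lt ht)).2
      linarith
  refine ⟨|B T * Real.exp (21 / 8 * lam κ T)|, ?_⟩
  have h2 := (tendsto_growth hκ m (a := 21 / 8) (by norm_num)).eventually (gt_mem_nhds one_pos)
  filter_upwards [eventually_ge_atTop T, h2] with t ht h2
  have h1 : B t * Real.exp (21 / 8 * lam κ t) ≤ B T * Real.exp (21 / 8 * lam κ T) :=
    hmono (le_refl T : T ∈ Ici T) ht ht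
  have h3 : Real.exp (m * t - 21 / 8 * lam κ t) =
      Real.exp (m * t) * Real.exp (-(21 / 8 * lam κ t)) := by
    rw [← Real.exp_add]
    congr 1
  have h4 : Real.exp (-(21 / 8 * lam κ t)) ≤ Real.exp (-m * t) := by
    apply Real.exp_le_exp.2
    rw [← Real.exp_zero] at h2
    have := Real.exp_lt_exp.1 h2
    linarith
  calc B t = (B t * Real.exp (21 / 8 * lam κ t)) * Real.exp (-(21 / 8 * lam κ t)) := by
        rw [mul_assoc, ← Real.exp_add]
        simp
    _ ≤ |B T * Real.exp (21 / 8 * lam κ T)| * Real.exp (-(21 / 8 * lam κ t)) :=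
        mul_le_mul_of_nonneg_right (h1.trans (le_abs_self _)) (Real.exp_pos _).le
    _ ≤ _ := mul_le_mul_of_nonneg_left h4 (abs_nonneg _)

theorem hasDerivAt_em (m t : ℝ) :
    HasDerivAt (fun t => Real.exp (-m * t)) (-m * Real.exp (-m * t)) t := by
  have := ((hasDerivAt_id t).const_mul (-m)).exp
  simp only [id_eq, mul_one] at this
  refine this.congr_deriv ?_
  ring

theorem exp_isBigO' {q q' : ℝ} (h : q ≤ q') :
    (fun t => Real.exp (q * t)) =O[atTop] fun t => Real.exp (q' * t) := by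
  have := exp_isBigO (M := -q) (M' := -q') (by linarith)
  simpa using this

theorem dich_abs {κ q m K : ℝ} (hκ : 0 < κ) {U U' B B' : ℝ → ℝ}
    (hU : ∀ᶠ t in atTop, HasDerivAt U (U' t) t) (hB : ∀ᶠ t in atTop, HasDerivAt B (B' t) t)
    (hB0 : ∀ᶠ t in atTop, 0 ≤ B t)
    (hUi : ∀ᶠ t in atTop, lam κ t * U t - lam κ t / 8 * (U t + B t) - K * Real.exp (-m * t) ≤ U' t)
    (hBi : ∀ᶠ t in atTop, B' t ≤ -(2 * lam κ t) * B t + lam κ t / 8 * (U t + B t) +
      K * Real.exp (-m * t))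
    (hUq : U =O[atTop] fun t => Real.exp (q * t)) (hBq : B =O[atTop] fun t => Real.exp (q * t)) :
    ∃ C, ∀ᶠ t in atTop, U t + B t ≤ C * Real.exp (-m * t) := by
  have hlam := tendsto_lam hκ
  -- unstable part
  have h1 : ∀ᶠ t in atTop, U t - B t - Real.exp (-m * t) ≤ 0 := by
    refine unstable (q := max q (-m)) hκ (W := fun t => U t - B t - Real.exp (-m * t))
      (W' := fun t => U' t - B' t - (-m * Real.exp (-m * t))) ?_ ?_ ?_
    · filter_upwards [hU, hB] with t a b
      exact (a.sub b).sub (hasDerivAt_em m t)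
    · filter_upwards [hUi, hBi, hB0, hlam.eventually_ge_atTop (4 / 3 * (2 * K - m)),
        hlam.eventually_ge_atTop 0] with t a b b0 l l0
      have he := Real.exp_pos (-m * t)
      have h3 : 0 ≤ lam κ t * B t := mul_nonneg l0 b0
      have h4 : 4 / 3 * (2 * K - m) * Real.exp (-m * t) ≤ lam κ t * Real.exp (-m * t) :=
        mul_le_mul_of_nonneg_right l he.le
      nlinarith
    · refine ((hUq.trans (exp_isBigO' (le_max_left _ _))).sub
        (hBq.trans (exp_isBigO' (le_max_left _ _)))).sub (exp_isBigO' (le_max_right _ _))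
  -- stable part
  obtain ⟨C, hC⟩ := stable (m := m) hκ (B := fun t => B t - Real.exp (-m * t))
    (B' := fun t => B' t - (-m * Real.exp (-m * t)))
    (by filter_upwards [hB] with t b using b.sub (hasDerivAt_em m t))
    (by
      filter_upwards [h1, hBi, hB0, hlam.eventually_ge_atTop (8 / 13 * (K + m)),
        hlam.eventually_ge_atTop 0] with t a b b0 l l0
      have he := Real.exp_pos (-m * t)
      have h4 : 8 / 13 * (K + m) * Real.exp (-m * t) ≤ lam κ t * Real.exp (-m * t) :=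
        mul_le_mul_of_nonneg_right l he.le
      have h5 : lam κ t * U t ≤ lam κ t * (B t + Real.exp (-m * t)) :=
        mul_le_mul_of_nonneg_left (by linarith) l0
      nlinarith)
  refine ⟨2 * C + 3, ?_⟩
  filter_upwards [h1, hC] with t a b
  nlinarith

/-- pointwise algebra of the dichotomy. -/
theorem alg {x0 x1 x2 r l f : ℝ} (hl : 112 ≤ l)
    (hr : |r| ≤ l / 168 * (|x0| + |x1| + |x2|) + f) :
    (l * (x0 ^ 2 + x1 ^ 2 + x2 ^ 2 - (x0 - x1 + x2) ^ 2 / 3) -
      l / 8 * (x0 ^ 2 + x1 ^ 2 + x2 ^ 2) - 378 * f ^ 2 ≤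
      2 * x0 * (l * x1) + 2 * x1 * (l * x2 - 2 / 3 * x1) + 2 * x2 * (-l * x0 + r) -
        2 / 3 * (x0 - x1 + x2) * (l * x1 - (l * x2 - 2 / 3 * x1) + (-l * x0 + r))) ∧
    (2 / 3 * (x0 - x1 + x2) * (l * x1 - (l * x2 - 2 / 3 * x1) + (-l * x0 + r)) ≤
      -(2 * l) * ((x0 - x1 + x2) ^ 2 / 3) + l / 8 * (x0 ^ 2 + x1 ^ 2 + x2 ^ 2) + 378 * f ^ 2) := by
  set n := |x0| + |x1| + |x2| with hn
  have h0 := abs_nonneg x0
  have h1 := abs_nonneg x1
  have h2 := abs_nonneg x2
  have hn0 : 0 ≤ n := by positivity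
  have hn2 : n ^ 2 ≤ 3 * (x0 ^ 2 + x1 ^ 2 + x2 ^ 2) := by
    rw [← sq_abs x0, ← sq_abs x1, ← sq_abs x2, hn]
    nlinarith [sq_nonneg (|x0| - |x1|), sq_nonneg (|x0| - |x2|), sq_nonneg (|x1| - |x2|)]
  have hal : |x0 - x1 + x2| ≤ n := by
    rw [hn]
    exact (abs_add_le _ _).trans (add_le_add_left (abs_sub _ _) _)
  have hx1 : |x1| ≤ n := by rw [hn]; linarith
  have hx2 : |x2| ≤ n := by rw [hn]; linarith
  -- product bounds
  have hx2r : |x2 * r| ≤ n * (l / 168 * n + f) := by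
    rw [abs_mul]
    exact mul_le_mul hx2 hr (abs_nonneg _) hn0
  have hx11 : x1 ^ 2 ≤ n * n := by
    rw [← sq_abs x1, sq]
    exact mul_le_mul hx1 hx1 h1 hn0
  have halx1 : |(x0 - x1 + x2) * x1| ≤ n * n := by
    rw [abs_mul]
    exact mul_le_mul hal hx1 h1 hn0
  have halr : |(x0 - x1 + x2) * r| ≤ n * (l / 168 * n + f) := by
    rw [abs_mul]
    exact mul_le_mul hal hr (abs_nonneg _) hn0
  have hnn : 0 ≤ n * n := mul_nonneg hn0 hn0
  have hnf : 8 / 3 * (n * f) ≤ 5 / 504 * (l * (n * n)) + 378 * f ^ 2 := by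
    have h3 : 112 * (n * n) ≤ l * (n * n) := mul_le_mul_of_nonneg_right hl hnn
    have h4 := sq_nonneg (n - 4 / 3 * f)
    have h5 := sq_nonneg f
    linarith
  have hl1 : 112 * (n * n) ≤ l * (n * n) := mul_le_mul_of_nonneg_right hl hnn
  have a1 := abs_le.1 hx2r
  have a2 := abs_le.1 halx1
  have a3 := abs_le.1 halr
  have hln : l * n ^ 2 ≤ l * (3 * (x0 ^ 2 + x1 ^ 2 + x2 ^ 2)) :=
    mul_le_mul_of_nonneg_left hn2 (by linarith)
  obtain ⟨a11, a12⟩ := a1
  obtain ⟨a21, a22⟩ := a2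
  obtain ⟨a31, a32⟩ := a3
  have e1 : 2 * x0 * (l * x1) + 2 * x1 * (l * x2 - 2 / 3 * x1) + 2 * x2 * (-l * x0 + r) -
        2 / 3 * (x0 - x1 + x2) * (l * x1 - (l * x2 - 2 / 3 * x1) + (-l * x0 + r)) =
      l * (x0 ^ 2 + x1 ^ 2 + x2 ^ 2 - (x0 - x1 + x2) ^ 2 / 3) - 4 / 3 * x1 ^ 2 + 2 * (x2 * r) -
      4 / 9 * ((x0 - x1 + x2) * x1) - 2 / 3 * ((x0 - x1 + x2) * r) := by ring
  have e2 : 2 / 3 * (x0 - x1 + x2) * (l * x1 - (l * x2 - 2 / 3 * x1) + (-l * x0 + r)) =
      -(2 * l) * ((x0 - x1 + x2) ^ 2 / 3) + 4 / 9 * ((x0 - x1 + x2) * x1) +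
        2 / 3 * ((x0 - x1 + x2) * r) := by ring
  rw [e1, e2]
  generalize (x0 - x1 + x2) * x1 = A1 at *
  generalize (x0 - x1 + x2) * r = A2 at *
  generalize x2 * r = A3 at *
  generalize hE : x0 ^ 2 + x1 ^ 2 + x2 ^ 2 = E at *
  have hp1 : n * (l / 168 * n + f) = 1 / 168 * (l * (n * n)) + n * f := by ring
  have hp2 : l * n ^ 2 = l * (n * n) := by ring
  have hp3 : l * (3 * E) = 3 * (l * E) := by ring
  rw [hp1] at a11 a12 a31 a32
  rw [hp2, hp3] at hln
  generalize l * (n * n) = Y at *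
  generalize n * f = Z at *
  generalize n * n = N at *
  have hp4 : l / 8 * E = 1 / 8 * (l * E) := by ring
  rw [hp4]
  generalize l * E = V at *
  constructor <;> linarith

/-- **Dichotomy**: a solution of polynomial growth (in `y = e^t`) decays like the forcing. -/
theorem dichotomy {c κ p q : ℝ} (hc : 0 < c) (hκ : 0 < κ) (hκ3 : κ ^ 3 = 1 / (2 * c ^ 2))
    {v v1 v2 v3 h f : ℝ → ℝ} (h1 : ∀ᶠ t in atTop, HasDerivAt v (v1 t) t)
    (h2 : ∀ᶠ t in atTop, HasDerivAt v1 (v2 t) t) (h3 : ∀ᶠ t in atTop, HasDerivAt v2 (v3 t) t)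
    (ode : ∀ᶠ t in atTop, v3 t = -18 * v2 t - 71 * v1 t + 90 * v t
      - Real.exp (2 * t) / 2 * (h t * v t) - f t)
    (hh : Tendsto h atTop (𝓝 (1 / c ^ 2))) (hf : f =O[atTop] fun t => Real.exp (-p * t))
    (hv : v =O[atTop] fun t => Real.exp (q * t)) (hv1 : v1 =O[atTop] fun t => Real.exp (q * t))
    (hv2 : v2 =O[atTop] fun t => Real.exp (q * t)) :
    v =O[atTop] (fun t => Real.exp (-p * t)) ∧
    v1 =O[atTop] (fun t => Real.exp (-(p - 2 / 3) * t)) ∧
    v2 =O[atTop] (fun t => Real.exp (-(p - 4 / 3) * t)) := by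
  have hlam := tendsto_lam hκ
  set x1 : ℝ → ℝ := fun t => v1 t * (lam κ t)⁻¹ with hx1
  set x2 : ℝ → ℝ := fun t => v2 t * ((lam κ t)⁻¹ * (lam κ t)⁻¹) with hx2
  have hil : ∀ t, HasDerivAt (fun t => (lam κ t)⁻¹) (-(2 / 3) * (lam κ t)⁻¹) t := by
    intro t
    refine ((hasDerivAt_lam κ t).inv (lam_pos hκ t).ne').congr_deriv ?_
    have := (lam_pos hκ t).ne'
    field_simp
  obtain ⟨Kf, hKf⟩ := hf.bound
  -- the remainder
  set r : ℝ → ℝ := fun t => -(58 / 3) * x2 t - 71 * (x1 t * (lam κ t)⁻¹)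
    + 90 * (v t * ((lam κ t)⁻¹ * (lam κ t)⁻¹)) - lam κ t * ((c ^ 2 * h t - 1) * v t)
    - f t * ((lam κ t)⁻¹ * (lam κ t)⁻¹) with hr
  have dx1 : ∀ᶠ t in atTop, HasDerivAt x1 (lam κ t * x2 t - 2 / 3 * x1 t) t := by
    filter_upwards [h2] with t a
    refine (a.mul (hil t)).congr_deriv ?_
    have := (lam_pos hκ t).ne'
    simp only [hx1, hx2]
    field_simp
    ring
  have dx2 : ∀ᶠ t in atTop, HasDerivAt x2 (-lam κ t * v t + r t) t := by
    filter_upwards [h3, ode] with t a o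
    refine (a.mul ((hil t).mul (hil t))).congr_deriv ?_
    have hl := (lam_pos hκ t).ne'
    have hl3 : Real.exp (2 * t) / 2 = c ^ 2 * (lam κ t) ^ 3 := by
      simp only [lam, mul_pow, hκ3]
      rw [← Real.exp_nat_mul]
      have : ((3 : ℕ) : ℝ) * (2 / 3 * t) = 2 * t := by push_cast; ring
      rw [this]
      field_simp
    simp only [Pi.mul_apply]
    rw [o, hl3]
    simp only [hr, hx1, hx2]
    field_simp
    ring
  have dx0 : ∀ᶠ t in atTop, HasDerivAt v (lam κ t * x1 t) t := by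
    filter_upwards [h1] with t a
    refine a.congr_deriv ?_
    have := (lam_pos hκ t).ne'
    simp only [hx1]
    field_simp
  -- smallness of the remainder
  have hrb : ∀ᶠ t in atTop, |r t| ≤ lam κ t / 168 * (|v t| + |x1 t| + |x2 t|)
      + Kf * Real.exp (-p * t) := by
    have hc2 : Tendsto (fun t => c ^ 2 * h t - 1) atTop (𝓝 0) := by
      have := (hh.const_mul (c ^ 2)).sub_const 1
      have e : c ^ 2 * (1 / c ^ 2) - 1 = 0 := by field_simp; ring
      rwa [e] at this
    have hc3 : ∀ᶠ t in atTop, |c ^ 2 * h t - 1| ≤ 1 / 336 := by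
      have := hc2.abs
      rw [abs_zero] at this
      filter_upwards [this.eventually (gt_mem_nhds (show (0 : ℝ) < 1 / 336 by norm_num))] with t a
      exact a.le
    filter_upwards [hc3, hlam.eventually_ge_atTop 100000, hKf] with t a l k
    have hl : 0 < lam κ t := by linarith
    have hi1 : (lam κ t)⁻¹ ≤ 1 / 100000 := by
      rw [one_div]
      exact inv_anti₀ (by norm_num) l
    have hi0 : 0 < (lam κ t)⁻¹ := inv_pos.2 hl
    have hi2 : (lam κ t)⁻¹ * (lam κ t)⁻¹ ≤ 1 / 100000 := by nlinarith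
    rw [Real.norm_eq_abs, Real.norm_eq_abs, abs_of_pos (Real.exp_pos _)] at k
    have t1 : |-(58 / 3) * x2 t| ≤ 20 * |x2 t| := by
      rw [abs_mul]
      norm_num
      nlinarith [abs_nonneg (x2 t)]
    have t2 : |71 * (x1 t * (lam κ t)⁻¹)| ≤ 1 * |x1 t| := by
      rw [abs_mul, abs_mul, abs_of_pos hi0]
      norm_num
      nlinarith [abs_nonneg (x1 t)]
    have t3 : |90 * (v t * ((lam κ t)⁻¹ * (lam κ t)⁻¹))| ≤ 1 * |v t| := by
      rw [abs_mul, abs_mul, abs_of_pos (mul_pos hi0 hi0)]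
      norm_num
      nlinarith [abs_nonneg (v t)]
    have t4 : |lam κ t * ((c ^ 2 * h t - 1) * v t)| ≤ lam κ t * (1 / 336 * |v t|) := by
      rw [abs_mul, abs_mul, abs_of_pos hl]
      exact mul_le_mul_of_nonneg_left (mul_le_mul_of_nonneg_right a (abs_nonneg _)) hl.le
    have t5 : |f t * ((lam κ t)⁻¹ * (lam κ t)⁻¹)| ≤ Kf * Real.exp (-p * t) := by
      rw [abs_mul, abs_of_pos (mul_pos hi0 hi0)]
      have := abs_nonneg (f t)
      nlinarith
    have hsum : |r t| ≤ |-(58 / 3) * x2 t| + |71 * (x1 t * (lam κ t)⁻¹)|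
        + |90 * (v t * ((lam κ t)⁻¹ * (lam κ t)⁻¹))| + |lam κ t * ((c ^ 2 * h t - 1) * v t)|
        + |f t * ((lam κ t)⁻¹ * (lam κ t)⁻¹)| := by
      simp only [hr]
      refine (abs_sub _ _).trans (add_le_add_left ?_ _)
      refine (abs_sub _ _).trans (add_le_add_left ?_ _)
      refine (abs_add_le _ _).trans (add_le_add_left ?_ _)
      exact abs_sub _ _
    have g0 := abs_nonneg (v t)
    have g1 := abs_nonneg (x1 t)
    have g2 := abs_nonneg (x2 t)
    have m0 : 100000 * |v t| ≤ lam κ t * |v t| := mul_le_mul_of_nonneg_right l g0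
    have m1 : 100000 * |x1 t| ≤ lam κ t * |x1 t| := mul_le_mul_of_nonneg_right l g1
    have m2 : 100000 * |x2 t| ≤ lam κ t * |x2 t| := mul_le_mul_of_nonneg_right l g2
    nlinarith
  -- the two quadratic forms
  set U : ℝ → ℝ := fun t => v t ^ 2 + x1 t ^ 2 + x2 t ^ 2 - (v t - x1 t + x2 t) ^ 2 / 3 with hU
  set B : ℝ → ℝ := fun t => (v t - x1 t + x2 t) ^ 2 / 3 with hB
  have hUB : ∀ t, U t + B t = v t ^ 2 + x1 t ^ 2 + x2 t ^ 2 := by
    intro t
    simp only [hU, hB]
    ring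
  have dB : ∀ᶠ t in atTop, HasDerivAt B (2 / 3 * (v t - x1 t + x2 t) * (lam κ t * x1 t -
      (lam κ t * x2 t - 2 / 3 * x1 t) + (-lam κ t * v t + r t))) t := by
    filter_upwards [dx0, dx1, dx2] with t a0 a1 a2
    refine ((((a0.sub a1).add a2).pow 2).div_const 3).congr_deriv ?_
    simp only [Pi.sub_apply, Pi.add_apply]
    push_cast
    ring
  have dU : ∀ᶠ t in atTop, HasDerivAt U (2 * v t * (lam κ t * x1 t) +
      2 * x1 t * (lam κ t * x2 t - 2 / 3 * x1 t) + 2 * x2 t * (-lam κ t * v t + r t) -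
      2 / 3 * (v t - x1 t + x2 t) * (lam κ t * x1 t -
      (lam κ t * x2 t - 2 / 3 * x1 t) + (-lam κ t * v t + r t))) t := by
    filter_upwards [dx0, dx1, dx2, dB] with t a0 a1 a2 b
    refine ((((a0.pow 2).add (a1.pow 2)).add (a2.pow 2)).sub b).congr_deriv ?_
    push_cast
    ring
  have hB0 : ∀ᶠ t in atTop, 0 ≤ B t := Eventually.of_forall fun t => by
    simp only [hB]
    positivity
  have hexp2 : ∀ t, (Kf * Real.exp (-p * t)) ^ 2 = Kf ^ 2 * Real.exp (-(2 * p) * t) := by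
    intro t
    rw [mul_pow, ← Real.exp_nat_mul]
    congr 2
    push_cast
    ring
  -- growth bounds
  have hinv1 : ∀ᶠ t in atTop, (lam κ t)⁻¹ ≤ 1 := by
    filter_upwards [hlam.eventually_ge_atTop 1] with t l
    exact inv_le_one_of_one_le₀ l
  have hx1q : x1 =O[atTop] fun t => Real.exp (q * t) := by
    refine IsBigO.trans (IsBigO.of_bound 1 ?_) hv1
    filter_upwards [hinv1] with t l
    have := lam_pos hκ t
    rw [one_mul, Real.norm_eq_abs, Real.norm_eq_abs, hx1, abs_mul, abs_of_pos (inv_pos.2 this)]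
    nlinarith [abs_nonneg (v1 t)]
  have hx2q : x2 =O[atTop] fun t => Real.exp (q * t) := by
    refine IsBigO.trans (IsBigO.of_bound 1 ?_) hv2
    filter_upwards [hinv1] with t l
    have := inv_pos.2 (lam_pos hκ t)
    rw [one_mul, Real.norm_eq_abs, Real.norm_eq_abs, hx2, abs_mul, abs_of_pos (mul_pos this this)]
    have h3 : (lam κ t)⁻¹ * (lam κ t)⁻¹ ≤ 1 := by nlinarith
    nlinarith [abs_nonneg (v2 t)]
  have hsq : ∀ F : ℝ → ℝ, F =O[atTop] (fun t => Real.exp (q * t)) →
      (fun t => F t ^ 2) =O[atTop] fun t => Real.exp (2 * q * t) := by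
    intro F hF
    refine (hF.pow 2).congr (fun _ => rfl) fun t => ?_
    rw [← Real.exp_nat_mul]
    congr 1
    push_cast
    ring
  have hBq : B =O[atTop] fun t => Real.exp (2 * q * t) := by
    have := (hsq _ ((hv.sub hx1q).add hx2q)).const_mul_left (1 / 3)
    refine this.congr (fun t => ?_) (fun _ => rfl)
    simp only [hB]
    ring
  have hEq : (fun t => v t ^ 2 + x1 t ^ 2 + x2 t ^ 2) =O[atTop] fun t => Real.exp (2 * q * t) :=
    ((hsq _ hv).add (hsq _ hx1q)).add (hsq _ hx2q)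
  have hUq : U =O[atTop] fun t => Real.exp (2 * q * t) := by
    refine (hEq.sub hBq).congr (fun t => ?_) (fun _ => rfl)
    simp only [hU, hB]
  obtain ⟨C, hC⟩ := dich_abs (q := 2 * q) (m := 2 * p) (K := 378 * Kf ^ 2) hκ dU dB hB0
    (by
      filter_upwards [hrb, hlam.eventually_ge_atTop 112] with t hr1 l
      have := (alg l hr1).1
      rw [hexp2] at this
      rw [hUB]
      simp only [hU]
      linarith)
    (by
      filter_upwards [hrb, hlam.eventually_ge_atTop 112] with t hr1 l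
      have := (alg l hr1).2
      rw [hexp2] at this
      rw [hUB]
      simp only [hB]
      linarith) hUq hBq
  have hE : ∀ F : ℝ → ℝ, (∀ᶠ t in atTop, F t ^ 2 ≤ U t + B t) →
      F =O[atTop] fun t => Real.exp (-p * t) := by
    intro F hF
    refine IsBigO.of_bound (Real.sqrt |C|) ?_
    filter_upwards [hF, hC] with t a b
    rw [Real.norm_eq_abs, Real.norm_eq_abs, abs_of_pos (Real.exp_pos _)]
    apply abs_le_of_sq_le_sq' _ (by positivity) |> abs_le.2
    rw [mul_pow, Real.sq_sqrt (abs_nonneg _), ← Real.exp_nat_mul]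
    have h3 : ((2 : ℕ) : ℝ) * (-p * t) = -(2 * p) * t := by push_cast; ring
    rw [h3]
    calc F t ^ 2 ≤ C * Real.exp (-(2 * p) * t) := a.trans b
      _ ≤ _ := mul_le_mul_of_nonneg_right (le_abs_self _) (Real.exp_pos _).le
  have e0 := hE v (Eventually.of_forall fun t => by
    have := hUB t
    nlinarith [sq_nonneg (x1 t), sq_nonneg (x2 t)])
  have e1 := hE x1 (Eventually.of_forall fun t => by
    have := hUB t
    nlinarith [sq_nonneg (v t), sq_nonneg (x2 t)])
  have e2 := hE x2 (Eventually.of_forall fun t => by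
    have := hUB t
    nlinarith [sq_nonneg (x1 t), sq_nonneg (v t)])
  have hlamO : (lam κ) =O[atTop] fun t => Real.exp (2 / 3 * t) :=
    (isBigO_refl (fun t => Real.exp (2 / 3 * t)) atTop).const_mul_left κ
  refine ⟨e0, ?_, ?_⟩
  · have := e1.mul hlamO
    refine this.congr (fun t => ?_) (fun t => ?_)
    · simp only [hx1]
      have := (lam_pos hκ t).ne'
      field_simp
    · rw [← Real.exp_add]
      congr 1
      ring
  · have := e2.mul (hlamO.mul hlamO)
    refine this.congr (fun t => ?_) (fun t => ?_)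
    · simp only [hx2]
      have := (lam_pos hκ t).ne'
      field_simp
    · rw [← Real.exp_add, ← Real.exp_add]
      congr 1
      ring

/-! ### A-priori growth -/

theorem apriori {c : ℝ} (hc : 0 < c) {G G1 G2 G3 : ℝ → ℝ}
    (h2 : ∀ᶠ t in atTop, HasDerivAt G1 (G2 t) t)
    (h3 : ∀ᶠ t in atTop, HasDerivAt G2 (G3 t) t)
    (ode : ∀ᶠ t in atTop, G3 t + 18 * G2 t + 71 * G1 t - 90 * G t + 90 +
      Real.exp (2 * t) / 2 * (1 / c - 1 / G t) = 0) (hlim : Tendsto G atTop (𝓝 c)) :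
    (G1 =O[atTop] fun t => Real.exp (2 * t)) ∧ (G2 =O[atTop] fun t => Real.exp (2 * t)) := by
  have hone : ∀ F : ℝ → ℝ, ∀ a : ℝ, Tendsto F atTop (𝓝 a) →
      F =O[atTop] fun t => Real.exp (2 * t) := by
    intro F a hF
    refine (hF.isBigO_one ℝ).trans (IsBigO.of_bound 1 ?_)
    filter_upwards [eventually_ge_atTop 0] with t ht
    rw [norm_one, one_mul, Real.norm_eq_abs, abs_of_pos (Real.exp_pos _)]
    exact Real.one_le_exp (by linarith)
  set ρ : ℝ → ℝ := fun t => 90 * G t - 90 - Real.exp (2 * t) * (1 / 2 * (1 / c - 1 / G t)) with hρ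
  have hρO : ρ =O[atTop] fun t => Real.exp (2 * t) := by
    have t1 := hone (fun t => 90 * G t - 90) _ ((hlim.const_mul 90).sub_const 90)
    have t2 : (fun t => Real.exp (2 * t) * (1 / 2 * (1 / c - 1 / G t))) =O[atTop]
        fun t => Real.exp (2 * t) * 1 := by
      refine (isBigO_refl _ _).mul ?_
      have : Tendsto (fun t => 1 / 2 * (1 / c - 1 / G t)) atTop (𝓝 (1 / 2 * (1 / c - 1 / c))) :=
        ((tendsto_const_nhds.div hlim hc.ne').const_sub (1 / c)).const_mul (1 / 2)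
      exact this.isBigO_one ℝ
    simp only [mul_one] at t2
    exact t1.sub t2
  obtain ⟨Cr, hCr⟩ := hρO.bound
  set K : ℝ := Cr ^ 2 / 144 with hK
  have hder : ∀ᶠ t in atTop, HasDerivAt (fun t => G2 t ^ 2 + 71 * G1 t ^ 2 - K * Real.exp (4 * t))
      (2 * G2 t * (ρ t - 18 * G2 t) - 4 * K * Real.exp (4 * t)) t ∧
      2 * G2 t * (ρ t - 18 * G2 t) - 4 * K * Real.exp (4 * t) ≤ 0 := by
    filter_upwards [h2, h3, ode, hCr] with t a2 a3 o hb
    constructor
    · have he : HasDerivAt (fun t => Real.exp (4 * t)) (4 * Real.exp (4 * t)) t := by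
        have := ((hasDerivAt_id t).const_mul (4 : ℝ)).exp
        simp only [id_eq, mul_one] at this
        refine this.congr_deriv ?_
        ring
      refine (((a3.pow 2).add ((a2.pow 2).const_mul 71)).sub (he.const_mul K)).congr_deriv ?_
      have o' : G3 t = ρ t - 18 * G2 t - 71 * G1 t := by
        simp only [hρ]
        linarith
      rw [o']
      push_cast
      ring
    · rw [Real.norm_eq_abs, Real.norm_eq_abs, abs_of_pos (Real.exp_pos _)] at hb
      have h4 : Real.exp (4 * t) = Real.exp (2 * t) ^ 2 := by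
        rw [← Real.exp_nat_mul]
        congr 1
        push_cast
        ring
      have h5 : ρ t ^ 2 ≤ Cr ^ 2 * Real.exp (4 * t) := by
        rw [h4, ← mul_pow, ← sq_abs (ρ t)]
        exact pow_le_pow_left₀ (abs_nonneg _) hb 2
      have h6 := sq_nonneg (6 * G2 t - ρ t / 6)
      have h7 : 4 * K * Real.exp (4 * t) = (Cr ^ 2 * Real.exp (4 * t)) / 36 := by
        rw [hK]
        ring
      rw [h7]
      nlinarith
  obtain ⟨T, hT⟩ := eventually_atTop.1 hder
  have hanti : AntitoneOn (fun t => G2 t ^ 2 + 71 * G1 t ^ 2 - K * Real.exp (4 * t)) (Ici T) := by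
    refine antitoneOn_of_deriv_nonpos (convex_Ici T) ?_ ?_ ?_
    · exact fun t ht => (hT t ht).1.continuousAt.continuousWithinAt
    · intro t ht
      rw [interior_Ici] at ht
      exact (hT t (le_of_lt ht)).1.differentiableAt.differentiableWithinAt
    · intro t ht
      rw [interior_Ici] at ht
      rw [(hT t (le_of_lt ht)).1.deriv]
      exact (hT t (le_of_lt ht)).2
  set Q0 : ℝ := G2 T ^ 2 + 71 * G1 T ^ 2 - K * Real.exp (4 * T) with hQ0
  have hfin : ∀ᶠ t in atTop, G2 t ^ 2 + 71 * G1 t ^ 2 ≤ (K + |Q0|) * Real.exp (2 * t) ^ 2 := by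
    filter_upwards [eventually_ge_atTop T, eventually_ge_atTop 0] with t ht h0
    have h8 : G2 t ^ 2 + 71 * G1 t ^ 2 - K * Real.exp (4 * t) ≤ Q0 :=
      hanti (le_refl T : T ∈ Ici T) ht ht
    have h4 : Real.exp (4 * t) = Real.exp (2 * t) ^ 2 := by
      rw [← Real.exp_nat_mul]
      congr 1
      push_cast
      ring
    have h9 : 1 ≤ Real.exp (4 * t) := Real.one_le_exp (by linarith)
    rw [← h4]
    nlinarith [le_abs_self Q0, abs_nonneg Q0]
  constructor
  · refine IsBigO.of_bound (Real.sqrt (K + |Q0|)) ?_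
    filter_upwards [hfin] with t a
    rw [Real.norm_eq_abs, Real.norm_eq_abs, abs_of_pos (Real.exp_pos _)]
    apply abs_le_of_sq_le_sq' _ (by positivity) |> abs_le.2
    rw [mul_pow, Real.sq_sqrt (by positivity)]
    nlinarith [sq_nonneg (G2 t), sq_nonneg (G1 t)]
  · refine IsBigO.of_bound (Real.sqrt (K + |Q0|)) ?_
    filter_upwards [hfin] with t a
    rw [Real.norm_eq_abs, Real.norm_eq_abs, abs_of_pos (Real.exp_pos _)]
    apply abs_le_of_sq_le_sq' _ (by positivity) |> abs_le.2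
    rw [mul_pow, Real.sq_sqrt (by positivity)]
    nlinarith [sq_nonneg (G2 t), sq_nonneg (G1 t)]

theorem thz_C_mul (a : ℝ) (p : ℝ[X]) : thz (C a * p) = C a * thz p := by
  simp only [thz, derivative_C_mul]
  ring

theorem hasDerivAt_poly' (p : ℝ[X]) (t : ℝ) :
    HasDerivAt (fun t => p.eval (Real.exp (-2 * t)))
      ((C (-2) * thz p).eval (Real.exp (-2 * t))) t := by
  refine (hasDerivAt_poly p t).congr_deriv ?_
  simp

/-- `G` minus the truncated formal series decays with two derivatives. -/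
theorem decay2 {c : ℝ} (hc : 0 < c) {G G1 G2 G3 : ℝ → ℝ}
    (h1 : ∀ᶠ t in atTop, HasDerivAt G (G1 t) t) (h2 : ∀ᶠ t in atTop, HasDerivAt G1 (G2 t) t)
    (h3 : ∀ᶠ t in atTop, HasDerivAt G2 (G3 t) t)
    (ode : ∀ᶠ t in atTop, G3 t + 18 * G2 t + 71 * G1 t - 90 * G t + 90 +
      Real.exp (2 * t) / 2 * (1 / c - 1 / G t) = 0) (hlim : Tendsto G atTop (𝓝 c)) (N i : ℕ)
    (hi : i + 1 ≤ N) :
    Oc (2 + i) (2 * N - 2 - 2 * i) (fun t => G t - (pN c N).eval (Real.exp (-2 * t))) := by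
  obtain ⟨f, hf, hfO⟩ := resid hc.ne' N
  obtain ⟨g1, g2⟩ := apriori hc h2 h3 ode hlim
  set p0 := pN c N with hp0
  set p1 := C (-2) * thz p0 with hp1
  set p2 := C (-2) * thz p1 with hp2
  set p3 := C (-2) * thz p2 with hp3
  have hD : Dop p0 = p3 + C 18 * p2 + C 71 * p1 - C 90 * p0 := by
    rw [hp3, hp2, hp1]
    simp only [thz_C_mul, Dop]
    simp only [map_neg, map_ofNat]
    ring
  set v : ℝ → ℝ := fun t => G t - p0.eval (Real.exp (-2 * t)) with hv
  set v1 : ℝ → ℝ := fun t => G1 t - p1.eval (Real.exp (-2 * t)) with hv1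
  set v2 : ℝ → ℝ := fun t => G2 t - p2.eval (Real.exp (-2 * t)) with hv2
  set v3 : ℝ → ℝ := fun t => G3 t - p3.eval (Real.exp (-2 * t)) with hv3
  have d1 : ∀ᶠ t in atTop, HasDerivAt v (v1 t) t := by
    filter_upwards [h1] with t a using a.sub (hasDerivAt_poly' p0 t)
  have d2 : ∀ᶠ t in atTop, HasDerivAt v1 (v2 t) t := by
    filter_upwards [h2] with t a using a.sub (hasDerivAt_poly' p1 t)
  have d3 : ∀ᶠ t in atTop, HasDerivAt v2 (v3 t) t := by
    filter_upwards [h3] with t a using a.sub (hasDerivAt_poly' p2 t)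
  have hpl : Tendsto (fun t => p0.eval (Real.exp (-2 * t))) atTop (𝓝 c) := by
    have := tendsto_poly p0
    rwa [hp0, pN_eval] at this
  set h : ℝ → ℝ := fun t => (G t)⁻¹ * (p0.eval (Real.exp (-2 * t)))⁻¹ with hh
  have hode : ∀ᶠ t in atTop, v3 t = -18 * v2 t - 71 * v1 t + 90 * v t
      - Real.exp (2 * t) / 2 * (h t * v t) - f t := by
    filter_upwards [ode, hf, hlim.eventually_ne hc.ne', hpl.eventually_ne hc.ne'] with t o r n1 n2
    rw [hD] at r
    simp only [eval_sub, eval_add, eval_mul, eval_C] at r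
    simp only [hv, hv1, hv2, hv3, hh]
    have e : (G t)⁻¹ * (p0.eval (Real.exp (-2 * t)))⁻¹ * (G t - p0.eval (Real.exp (-2 * t))) =
        1 / p0.eval (Real.exp (-2 * t)) - 1 / G t := by
      generalize p0.eval (Real.exp (-2 * t)) = P at *
      field_simp
    rw [e]
    linear_combination o - r
  have hhl : Tendsto h atTop (𝓝 (1 / c ^ 2)) := by
    have := (hlim.inv₀ hc.ne').mul (hpl.inv₀ hc.ne')
    have e : c⁻¹ * c⁻¹ = 1 / c ^ 2 := by field_simp
    rwa [e] at this
  have hone : ∀ F : ℝ → ℝ, ∀ a : ℝ, Tendsto F atTop (𝓝 a) →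
      F =O[atTop] fun t => Real.exp (2 * t) := by
    intro F a hF
    refine (hF.isBigO_one ℝ).trans (IsBigO.of_bound 1 ?_)
    filter_upwards [eventually_ge_atTop 0] with t ht
    rw [norm_one, one_mul, Real.norm_eq_abs, abs_of_pos (Real.exp_pos _)]
    exact Real.one_le_exp (by linarith)
  have hκ : 0 < (1 / (2 * c ^ 2)) ^ (1 / 3 : ℝ) := by positivity
  have hκ3 : ((1 / (2 * c ^ 2)) ^ (1 / 3 : ℝ)) ^ 3 = 1 / (2 * c ^ 2) := by
    rw [← Real.rpow_natCast, ← Real.rpow_mul (by positivity)]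
    norm_num
  obtain ⟨e0, e1, e2⟩ := dichotomy (q := 2) (p := 2 * (N : ℝ)) hc hκ hκ3 d1 d2 d3 hode hhl
    (hfO 0).isBigO (hone _ _ (hlim.sub hpl)) (g1.sub (hone _ _ (tendsto_poly p1)))
    (g2.sub (hone _ _ (tendsto_poly p2)))
  have base : Oc 2 (2 * N - 2) v := by
    refine ⟨e0.trans (exp_isBigO (by linarith)), v1, d1, ?_⟩
    refine ⟨e1.trans (exp_isBigO (by linarith)), v2, d2, ?_⟩
    exact e2.trans (exp_isBigO (by linarith))
  induction i with
  | zero =>
    simpa using base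
  | succ i ih =>
    have ih' := ih (by omega)
    set M : ℝ := 2 * N - 2 - 2 * i with hM
    have hM0 : 0 ≤ M := by
      have : ((i : ℝ) + 1 + 1) ≤ N := by exact_mod_cast hi
      rw [hM]
      linarith
    have hv0 : Oc (2 + i) 0 v := ih'.mono_M hM0
    have hG0 : Oc (2 + i) 0 G := (hv0.add (Oc.poly (2 + i) p0)).congr
      (Eventually.of_forall fun t => by simp only [hv]; ring)
    have hh0 : Oc (2 + i) 0 h := by
      have := (hG0.inv hlim hc.ne').mul ((Oc.poly (2 + i) p0).inv hpl hc.ne')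
      simpa only [add_zero] using this
    have hterm : Oc (2 + i) (M - 2) (fun t => Real.exp (2 * t) / 2 * (h t * v t)) := by
      have := (Oc.exp (2 + i) (-2)).mul ((hh0.mul ih').const_mul (1 / 2))
      have e : (-2 : ℝ) + (0 + M) = M - 2 := by ring
      rw [e] at this
      refine this.congr (Eventually.of_forall fun t => ?_)
      simp only [neg_neg]
      ring
    have e21 : 2 + i = (i + 1) + 1 := by ring
    rw [e21] at ih' hterm
    have o1 : Oc (i + 1) M v1 := ih'.of_deriv d1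
    have o2 : Oc i M v2 := o1.of_deriv d2
    have hM2 : M - 2 ≤ M := by linarith
    have o3 : Oc i (M - 2) v3 := by
      have a2 := (o2.mono_M hM2).const_mul (-18)
      have a1 := (o1.of_succ.mono_M hM2).const_mul 71
      have a0 := (ih'.of_succ.of_succ.mono_M hM2).const_mul 90
      have af : Oc i (M - 2) f := (hfO i).mono_M (by rw [hM]; linarith)
      refine ((((a2.sub a1).add a0).sub hterm.of_succ.of_succ).sub af).congr ?_
      filter_upwards [hode] with t o
      exact o.symm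
    have n2 : Oc (i + 1) (M - 2) v2 := ⟨(o2.mono_M hM2).isBigO, v3, d3, o3⟩
    have n1 : Oc (i + 1 + 1) (M - 2) v1 := ⟨(o1.mono_M hM2).isBigO, v2, d2, n2⟩
    have n0 : Oc (i + 1 + 1 + 1) (M - 2) v := ⟨(ih'.mono_M hM2).isBigO, v1, d1, n1⟩
    have e3 : 2 + (i + 1) = i + 1 + 1 + 1 := by ring
    have e4 : (2 * N - 2 - 2 * ((i + 1 : ℕ) : ℝ)) = M - 2 := by
      rw [hM]
      push_cast
      ring
    rw [e3, e4]
    exact n0

theorem decay_all {c : ℝ} (hc : 0 < c) {G G1 G2 G3 : ℝ → ℝ}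
    (h1 : ∀ᶠ t in atTop, HasDerivAt G (G1 t) t) (h2 : ∀ᶠ t in atTop, HasDerivAt G1 (G2 t) t)
    (h3 : ∀ᶠ t in atTop, HasDerivAt G2 (G3 t) t)
    (ode : ∀ᶠ t in atTop, G3 t + 18 * G2 t + 71 * G1 t - 90 * G t + 90 +
      Real.exp (2 * t) / 2 * (1 / c - 1 / G t) = 0) (hlim : Tendsto G atTop (𝓝 c)) (k : ℕ) (M : ℝ) :
    ∃ p : ℝ[X], Oc k M (fun t => G t - p.eval (Real.exp (-2 * t))) := by
  obtain ⟨m, hm⟩ := exists_nat_ge M
  refine ⟨pN c (m + k + 1), ?_⟩
  have := decay2 hc h1 h2 h3 ode hlim (m + k + 1) k (by omega)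
  refine (this.mono_k (by omega : k ≤ 2 + k)).mono_M ?_
  push_cast
  have : (0 : ℝ) ≤ m := Nat.cast_nonneg m
  linarith

/-! ### The derivatives in `z = e^{-2t}` -/

/-- `d/dz` in the variable `t`. -/
def Dz (F : ℝ → ℝ) : ℝ → ℝ := fun t => -(1 / 2) * Real.exp (2 * t) * deriv F t

theorem Dz_step {k : ℕ} {M : ℝ} {F : ℝ → ℝ} {p : ℝ[X]}
    (h : Oc (k + 1) M (fun t => F t - p.eval (Real.exp (-2 * t)))) :
    Oc k (M - 2) (fun t => Dz F t - (derivative p).eval (Real.exp (-2 * t))) := by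
  obtain ⟨h1, w', h2, h3⟩ := h
  have h4 : Oc k (M - 2) (fun t => -(1 / 2) * (Real.exp (-(-2) * t) * w' t)) := by
    have := ((Oc.exp k (-2)).mul h3).const_mul (-(1 / 2))
    have e : (-2 : ℝ) + M = M - 2 := by ring
    rwa [e] at this
  refine h4.congr ?_
  filter_upwards [h2] with t a
  have hF : HasDerivAt F (w' t + -2 * (thz p).eval (Real.exp (-2 * t))) t := by
    refine (a.add (hasDerivAt_poly p t)).congr_of_eventuallyEq ?_
    refine Eventually.of_forall fun s => ?_
    simp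
  simp only [Dz, hF.deriv, thz, eval_mul, eval_X, neg_neg]
  have e1 : Real.exp (2 * t) * Real.exp (-2 * t) = 1 := by
    rw [← Real.exp_add]
    simp
  generalize (derivative p).eval (Real.exp (-2 * t)) = P at *
  linear_combination (-P) * e1

theorem Dz_iter {M : ℝ} {F : ℝ → ℝ} {p : ℝ[X]} (j k : ℕ)
    (h : Oc (k + j) M (fun t => F t - p.eval (Real.exp (-2 * t)))) :
    Oc k (M - 2 * j) (fun t => (Dz^[j] F) t - (derivative^[j] p).eval (Real.exp (-2 * t))) := by
  induction j generalizing M F p with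
  | zero => simpa using h
  | succ j ih =>
    have h' : Oc (k + j + 1) M (fun t => F t - p.eval (Real.exp (-2 * t))) := h
    have := ih (Dz_step h')
    have e : M - 2 - 2 * j = M - 2 * ((j + 1 : ℕ) : ℝ) := by push_cast; ring
    rw [e] at this
    simpa only [Function.iterate_succ_apply] using this

theorem contDiff_Dz {F : ℝ → ℝ} (hF : ContDiff ℝ (⊤ : ℕ∞) F) : ContDiff ℝ (⊤ : ℕ∞) (Dz F) := by
  have h1 : ContDiff ℝ (⊤ : ℕ∞) (deriv F) := (contDiff_infty_iff_deriv.1 hF).2
  unfold Dz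
  fun_prop

theorem contDiff_Dz_iter {F : ℝ → ℝ} (hF : ContDiff ℝ (⊤ : ℕ∞) F) (j : ℕ) :
    ContDiff ℝ (⊤ : ℕ∞) (Dz^[j] F) := by
  induction j generalizing F with
  | zero => exact hF
  | succ j ih => exact ih (contDiff_Dz hF)

theorem contDiffOn_of_seq {S : ℕ → ℝ → ℝ}
    (h : ∀ k, ∀ z ∈ Ici (0 : ℝ), HasDerivWithinAt (S k) (S (k + 1) z) (Ici 0) z) (k : ℕ) :
    ContDiffOn ℝ (⊤ : ℕ∞) (S k) (Ici 0) := by
  rw [contDiffOn_infty]
  intro n
  induction n generalizing k with
  | zero =>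
    exact contDiffOn_zero.2 fun z hz => (h k z hz).continuousWithinAt
  | succ n ih =>
    push_cast
    rw [contDiffOn_succ_iff_derivWithin (uniqueDiffOn_Ici 0)]
    refine ⟨fun z hz => (h k z hz).differentiableWithinAt, by simp, ?_⟩
    refine (ih (k + 1)).congr fun z hz => ?_
    exact (h k z hz).derivWithin (uniqueDiffOn_Ici 0 z hz)

theorem exists_gh_t {c : ℝ} (hc : 0 < c) {G : ℝ → ℝ} (hG : ContDiff ℝ (⊤ : ℕ∞) G)
    (ode : ∀ᶠ t in atTop, deriv (deriv (deriv G)) t + 18 * deriv (deriv G) t + 71 * deriv G t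
      - 90 * G t + 90 + Real.exp (2 * t) / 2 * (1 / c - 1 / G t) = 0)
    (hlim : Tendsto G atTop (𝓝 c)) :
    ∃ gh : ℝ → ℝ, ContDiffOn ℝ (⊤ : ℕ∞) gh (Ici 0) ∧ gh 0 = c ∧
      ∀ z, 0 < z → gh z = G (-(1 / 2) * Real.log z) := by
  have c1 := (contDiff_infty_iff_deriv.1 hG).2
  have c2 := (contDiff_infty_iff_deriv.1 c1).2
  have hd0 : ∀ t, HasDerivAt G (deriv G t) t := fun t =>
    ((contDiff_infty_iff_deriv.1 hG).1 t).hasDerivAt
  have hd1 : ∀ t, HasDerivAt (deriv G) (deriv (deriv G) t) t := fun t =>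
    ((contDiff_infty_iff_deriv.1 c1).1 t).hasDerivAt
  have hd2 : ∀ t, HasDerivAt (deriv (deriv G)) (deriv (deriv (deriv G)) t) t := fun t =>
    ((contDiff_infty_iff_deriv.1 c2).1 t).hasDerivAt
  have hall := decay_all hc (Eventually.of_forall hd0) (Eventually.of_forall hd1)
    (Eventually.of_forall hd2) ode hlim
  have hlimD : ∀ k, ∃ d, Tendsto (Dz^[k] G) atTop (𝓝 d) := by
    intro k
    obtain ⟨p, hp⟩ := hall k (2 * k + 1)
    have hp' : Oc (0 + k) (2 * k + 1) (fun t => G t - p.eval (Real.exp (-2 * t))) := by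
      rwa [zero_add]
    have h1 := (Dz_iter k 0 hp').isBigO
    have h2 : Tendsto (fun t => Real.exp (-(2 * (k : ℝ) + 1 - 2 * k) * t)) atTop (𝓝 0) := by
      apply Real.tendsto_exp_atBot.comp
      refine tendsto_id.const_mul_atTop_of_neg ?_
      linarith
    have h3 := h1.trans_tendsto h2
    refine ⟨(derivative^[k] p).eval 0, ?_⟩
    have h4 := h3.add (tendsto_poly (derivative^[k] p))
    simpa using h4
  choose d hd using hlimD
  set S : ℕ → ℝ → ℝ := fun k z => if 0 < z then (Dz^[k] G) (-(1 / 2) * Real.log z) else d k with hS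
  have htau : Tendsto (fun z : ℝ => -(1 / 2) * Real.log z) (𝓝[>] 0) atTop := by
    exact Real.tendsto_log_nhdsGT_zero.const_mul_atBot_of_neg (by norm_num)
  have hSlim : ∀ k, Tendsto (S k) (𝓝[>] 0) (𝓝 (d k)) := by
    intro k
    refine ((hd k).comp htau).congr' ?_
    filter_upwards [self_mem_nhdsWithin] with z hz
    have hz' : 0 < z := hz
    simp only [hS, if_pos hz', Function.comp]
  have hpos : ∀ k, ∀ z, 0 < z → HasDerivAt (S k) (S (k + 1) z) z := by
    intro k z hz
    have hcd := contDiff_Dz_iter hG k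
    have hD : HasDerivAt (Dz^[k] G) (deriv (Dz^[k] G) (-(1 / 2) * Real.log z))
        (-(1 / 2) * Real.log z) := ((contDiff_infty_iff_deriv.1 hcd).1 _).hasDerivAt
    have h1 := hD.comp z ((Real.hasDerivAt_log hz.ne').const_mul (-(1 / 2)))
    have h2 : HasDerivAt (S k) (deriv (Dz^[k] G) (-(1 / 2) * Real.log z) *
        (-(1 / 2) * z⁻¹)) z := by
      refine h1.congr_of_eventuallyEq ?_
      filter_upwards [Ioi_mem_nhds hz] with y hy
      have hy' : 0 < y := hy
      simp only [hS, if_pos hy', Function.comp]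
    refine h2.congr_deriv ?_
    simp only [hS, if_pos hz, Function.iterate_succ_apply', Dz]
    have e : Real.exp (2 * (-(1 / 2) * Real.log z)) = z⁻¹ := by
      have : 2 * (-(1 / 2) * Real.log z) = -Real.log z := by ring
      rw [this, Real.exp_neg, Real.exp_log hz]
    rw [e]
    ring
  have hS0 : ∀ k, S k 0 = d k := fun k => by simp [hS]
  have hseq : ∀ k, ∀ z ∈ Ici (0 : ℝ), HasDerivWithinAt (S k) (S (k + 1) z) (Ici 0) z := by
    intro k z hz
    rcases (show (0 : ℝ) ≤ z from hz).eq_or_lt with h0 | h0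
    · subst h0
      rw [hS0]
      refine hasDerivWithinAt_Ici_of_tendsto_deriv (s := Ioi 0) ?_ ?_ self_mem_nhdsWithin ?_
      · exact fun y hy => (hpos k y hy).differentiableAt.differentiableWithinAt
      · rw [ContinuousWithinAt, hS0]
        exact hSlim k
      · refine (hSlim (k + 1)).congr' ?_
        filter_upwards [self_mem_nhdsWithin] with y hy
        exact (hpos k y hy).deriv.symm
    · exact (hpos k z h0).hasDerivWithinAt
  refine ⟨S 0, contDiffOn_of_seq hseq 0, ?_, fun z hz => ?_⟩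
  · rw [hS0]
    exact tendsto_nhds_unique (hd 0) hlim
  · simp only [hS, if_pos hz, Function.iterate_zero, id_eq]

/-- **E-INF**: a positive solution of the soliton equation which tends to `c` at infinity is a
smooth function of `1/y²` up to `y = ∞`. -/
theorem exists_gh {c Y : ℝ} {g g1 g2 g3 : ℝ → ℝ} (hc : 0 < c)
    (hsm : ContDiffOn ℝ (⊤ : ℕ∞) g (Ioi 0))
    (hd1 : ∀ y, 0 < y → HasDerivAt g (g1 y) y) (hd2 : ∀ y, 0 < y → HasDerivAt g1 (g2 y) y)
    (hd3 : ∀ y, 0 < y → HasDerivAt g2 (g3 y) y)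
    (ode : ∀ y > Y, y ^ 3 * g3 y + 21 * y ^ 2 * g2 y + 90 * y * g1 y + 90 * (1 - g y)
      + y ^ 2 / 2 * (1 / c - 1 / g y) = 0) (hlim : Tendsto g atTop (𝓝 c)) :
    ∃ gh : ℝ → ℝ, ContDiffOn ℝ (⊤ : ℕ∞) gh (Ici 0) ∧ gh 0 = c ∧
      ∀ y, 0 < y → g y = gh (1 / y ^ 2) := by
  set G : ℝ → ℝ := fun t => g (Real.exp t) with hG
  have hGs : ContDiff ℝ (⊤ : ℕ∞) G := by
    have h1 : ContDiffOn ℝ (⊤ : ℕ∞) G univ :=
      hsm.comp Real.contDiff_exp.contDiffOn fun t _ => Real.exp_pos t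
    exact contDiffOn_univ.1 h1
  have D1 : ∀ t, HasDerivAt G (Real.exp t * g1 (Real.exp t)) t := by
    intro t
    refine ((hd1 _ (Real.exp_pos t)).comp t (Real.hasDerivAt_exp t)).congr_deriv ?_
    ring
  have D2 : ∀ t, HasDerivAt (fun t => Real.exp t * g1 (Real.exp t))
      (Real.exp t ^ 2 * g2 (Real.exp t) + Real.exp t * g1 (Real.exp t)) t := by
    intro t
    refine ((Real.hasDerivAt_exp t).mul
      ((hd2 _ (Real.exp_pos t)).comp t (Real.hasDerivAt_exp t))).congr_deriv ?_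
    simp only [Function.comp]
    ring
  have D3 : ∀ t, HasDerivAt (fun t => Real.exp t ^ 2 * g2 (Real.exp t) +
      Real.exp t * g1 (Real.exp t)) (Real.exp t ^ 3 * g3 (Real.exp t) +
      3 * Real.exp t ^ 2 * g2 (Real.exp t) + Real.exp t * g1 (Real.exp t)) t := by
    intro t
    refine ((((Real.hasDerivAt_exp t).pow 2).mul
      ((hd3 _ (Real.exp_pos t)).comp t (Real.hasDerivAt_exp t))).add (D2 t)).congr_deriv ?_
    simp only [Function.comp, Pi.pow_apply]
    push_cast
    ring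
  have E1 : deriv G = fun t => Real.exp t * g1 (Real.exp t) := funext fun t => (D1 t).deriv
  have E2 : deriv (deriv G) = fun t => Real.exp t ^ 2 * g2 (Real.exp t) +
      Real.exp t * g1 (Real.exp t) := by
    rw [E1]
    exact funext fun t => (D2 t).deriv
  have E3 : deriv (deriv (deriv G)) = fun t => Real.exp t ^ 3 * g3 (Real.exp t) +
      3 * Real.exp t ^ 2 * g2 (Real.exp t) + Real.exp t * g1 (Real.exp t) := by
    rw [E2]
    exact funext fun t => (D3 t).deriv
  obtain ⟨gh, h1, h2, h3⟩ := exists_gh_t hc hGs (by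
    rw [E3, E2, E1]
    filter_upwards [Real.tendsto_exp_atTop.eventually_gt_atTop Y] with t ht
    have o := ode _ ht
    have e : Real.exp (2 * t) = Real.exp t ^ 2 := by
      rw [← Real.exp_nat_mul]
      push_cast
      ring_nf
    rw [e]
    simp only [hG]
    linear_combination o) (hlim.comp Real.tendsto_exp_atTop)
  refine ⟨gh, h1, h2, fun y hy => ?_⟩
  rw [h3 (1 / y ^ 2) (by positivity)]
  simp only [hG]
  have e : Real.log (1 / y ^ 2) = -(2 * Real.log y) := by
    rw [one_div, Real.log_inv, Real.log_pow]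
    push_cast
    ring
  have e2 : -(1 / 2) * -(2 * Real.log y) = Real.log y := by ring
  rw [e, e2, Real.exp_log hy]

end Crest.Agent.R213.E.Inf
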