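import Crest.Agent.R213.E.EDefs

/-! Row 213, PART E: `h = D/y^10 → 0` at infinity (helper798). -/

set_option autoImplicit false

open Set MeasureTheory Filter Topology

noncomputable section

namespace Crest.Agent.R213.E

namespace LimH

/-- linear growth bound from a derivative bound. -/
theorem growth {f f' : ℝ → ℝ} {K a : ℝ} {n : ℕ} (ha : 1 ≤ a) (hK : 0 ≤ K)
    (hf : ∀ y, a ≤ y → HasDerivAt f (f' y) y) (hb : ∀ y, a ≤ y → |f' y| ≤ K * y ^ n)
    (y : ℝ) (hy : a ≤ y) : |f y| ≤ (|f a| + K) * y ^ (n + 1) := by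
  have hy1 : 1 ≤ y := ha.trans hy
  have h1 : ‖f y - f a‖ ≤ K * y ^ n * (y - a) := by
    refine norm_image_sub_le_of_norm_deriv_le_segment' (f' := f')
      (fun x hx => (hf x hx.1).hasDerivWithinAt) (fun x hx => ?_) y ⟨hy, le_rfl⟩
    have hx0 : 0 ≤ x := zero_le_one.trans (ha.trans hx.1)
    refine (hb x hx.1).trans (mul_le_mul_of_nonneg_left ?_ hK)
    exact pow_le_pow_left₀ hx0 hx.2.le n
  rw [Real.norm_eq_abs] at h1
  have h2 : |f y| ≤ |f a| + |f y - f a| := by
    have := abs_add_le (f a) (f y - f a)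
    rwa [add_sub_cancel] at this
  have h3 : K * y ^ n * (y - a) ≤ K * y ^ (n + 1) := by
    rw [pow_succ, ← mul_assoc]
    refine mul_le_mul_of_nonneg_left (by linarith) (by positivity)
  have h4 : |f a| ≤ |f a| * y ^ (n + 1) :=
    le_mul_of_one_le_right (abs_nonneg _) (one_le_pow₀ hy1)
  rw [add_mul]
  linarith

end LimH

/-- `h = D/y^10 → 0` at infinity. -/
theorem lim_h {κ Z : ℝ} {z D D1 : ℝ → ℝ} (hR : Rep κ z D D1)
    (hQ : ∀ y, 2 ≤ y → |QQ z y| ≤ Z / y)
    (hi : IntegrableOn (fun y => y ^ 14 * (D y / y ^ 10) ^ 2) (Ioi 1)) :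
    Tendsto (fun y => D y / y ^ 10) atTop (𝓝 0) := by
  have hZ : 0 ≤ Z := by
    have h1 := (abs_nonneg _).trans (hQ 2 le_rfl)
    rwa [le_div_iff₀ (by norm_num), zero_mul] at h1
  -- growth of D1 and D
  have hD1 := LimH.growth (f := D1) (n := 8) (K := Z) (a := 2) (by norm_num) hZ
    (fun y hy => hR.hD1 y (by linarith)) (fun y hy => by
      have hy0 : 0 < y := by linarith
      rw [abs_neg, abs_mul, abs_of_pos (by positivity : (0 : ℝ) < y ^ 9)]
      calc y ^ 9 * |QQ z y| ≤ y ^ 9 * (Z / y) :=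
            mul_le_mul_of_nonneg_left (hQ y hy) (by positivity)
        _ = Z * y ^ 8 := by field_simp)
  set K := |D1 2| + Z with hK
  have hK0 : 0 ≤ K := by positivity
  have hD := LimH.growth (f := D) (n := 9) (K := K) (a := 2) (by norm_num) hK0
    (fun y hy => hR.hD y (by linarith)) (fun y hy => by simpa using hD1 y hy)
  set L := |D 2| + K with hL
  have hL0 : 0 ≤ L := by positivity
  -- `h` and its derivative
  set h : ℝ → ℝ := fun y => D y / y ^ 10 with hh
  set h' : ℝ → ℝ := fun y => D1 y / y ^ 10 - 10 * D y / y ^ 11 with hh'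
  have hder : ∀ y, 0 < y → HasDerivAt h (h' y) y := by
    intro y hy
    have := (hR.hD y hy).div (hasDerivAt_pow 10 y) (by positivity)
    refine this.congr_deriv ?_
    simp only [hh']
    push_cast
    field_simp
  have hbd : ∀ y, 2 ≤ y → |h y| ≤ L := by
    intro y hy
    have hy0 : 0 < y := by linarith
    rw [hh]
    simp only
    rw [abs_div, abs_of_pos (by positivity : (0 : ℝ) < y ^ 10), div_le_iff₀ (by positivity)]
    simpa using hD y hy
  have hbd' : ∀ y, 2 ≤ y → |h' y| ≤ K + 10 * L := by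
    intro y hy
    have hy0 : 0 < y := by linarith
    have e1 : |D1 y / y ^ 10| ≤ K := by
      rw [abs_div, abs_of_pos (by positivity : (0 : ℝ) < y ^ 10), div_le_iff₀ (by positivity)]
      have := hD1 y hy
      calc |D1 y| ≤ K * y ^ 9 := by simpa using this
        _ ≤ K * y ^ 10 := mul_le_mul_of_nonneg_left
            (pow_le_pow_right₀ (by linarith) (by norm_num)) hK0
    have e2 : |10 * D y / y ^ 11| ≤ 10 * L := by
      rw [abs_div, abs_mul, abs_of_pos (by positivity : (0 : ℝ) < y ^ 11),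
        div_le_iff₀ (by positivity), abs_of_pos (by norm_num : (0 : ℝ) < 10)]
      have := hD y hy
      calc 10 * |D y| ≤ 10 * (L * y ^ 10) := by
            have : |D y| ≤ L * y ^ 10 := by simpa using this
            linarith
        _ ≤ 10 * (L * y ^ 11) := by
            have : L * y ^ 10 ≤ L * y ^ 11 := mul_le_mul_of_nonneg_left
              (pow_le_pow_right₀ (by linarith) (by norm_num)) hL0
            linarith
        _ = 10 * L * y ^ 11 := by ring
    calc |h' y| ≤ |D1 y / y ^ 10| + |10 * D y / y ^ 11| := by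
          rw [hh']; exact abs_sub _ _
      _ ≤ K + 10 * L := add_le_add e1 e2
  -- continuity / measurability on `Ioi 2`
  have hcont : ContinuousOn h (Ioi 2) := fun y hy =>
    (hder y (lt_trans two_pos hy)).continuousAt.continuousWithinAt
  have hcD : ContinuousOn D (Ioi 2) := fun y hy =>
    (hR.hD y (lt_trans two_pos hy)).continuousAt.continuousWithinAt
  have hcD1 : ContinuousOn D1 (Ioi 2) := fun y hy =>
    (hR.hD1 y (lt_trans two_pos hy)).continuousAt.continuousWithinAt
  have hne : ∀ y ∈ Ioi (2 : ℝ), y ≠ 0 := fun y hy => (lt_trans two_pos hy).ne'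
  have hcont' : ContinuousOn h' (Ioi 2) :=
    (hcD1.div (continuousOn_id.pow 10) fun y hy => pow_ne_zero 10 (hne y hy)).sub
      ((continuousOn_const.mul hcD).div (continuousOn_id.pow 11)
        fun y hy => pow_ne_zero 11 (hne y hy))
  -- `h²` integrable
  have hi2 : IntegrableOn (fun y => h y ^ 2) (Ioi 2) := by
    refine Integrable.mono' (hi.mono_set (Ioi_subset_Ioi one_le_two))
      ((hcont.pow 2).aestronglyMeasurable measurableSet_Ioi) ?_
    refine (ae_restrict_mem measurableSet_Ioi).mono fun y hy => ?_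
    have hy2 : (2 : ℝ) < y := hy
    rw [Real.norm_eq_abs, abs_of_nonneg (sq_nonneg _)]
    exact le_mul_of_one_le_left (sq_nonneg _) (one_le_pow₀ (by linarith))
  have hi3 : IntegrableOn (fun y => h y ^ 3) (Ioi 2) := by
    refine Integrable.mono' (hi2.const_mul L)
      ((hcont.pow 3).aestronglyMeasurable measurableSet_Ioi) ?_
    refine (ae_restrict_mem measurableSet_Ioi).mono fun y hy => ?_
    have hy2 : (2 : ℝ) < y := hy
    rw [Real.norm_eq_abs, abs_pow]
    have : |h y| ^ 3 = |h y| * h y ^ 2 := by rw [← sq_abs (h y)]; ring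
    rw [this]
    exact mul_le_mul_of_nonneg_right (hbd y hy2.le) (sq_nonneg _)
  have hi3' : IntegrableOn (fun y => 3 * h y ^ 2 * h' y) (Ioi 2) := by
    refine Integrable.mono' (hi2.const_mul (3 * (K + 10 * L)))
      (((continuousOn_const.mul (hcont.pow 2)).mul hcont').aestronglyMeasurable
        measurableSet_Ioi) ?_
    refine (ae_restrict_mem measurableSet_Ioi).mono fun y hy => ?_
    have hy2 : (2 : ℝ) < y := hy
    rw [Real.norm_eq_abs, abs_mul, abs_mul, abs_of_nonneg (sq_nonneg (h y)),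
      abs_of_pos (by norm_num : (0 : ℝ) < 3)]
    have := mul_le_mul_of_nonneg_left (hbd' y hy2.le) (by positivity : 0 ≤ 3 * h y ^ 2)
    calc 3 * h y ^ 2 * |h' y| ≤ 3 * h y ^ 2 * (K + 10 * L) := this
      _ = 3 * (K + 10 * L) * h y ^ 2 := by ring
  have hd3 : ∀ y ∈ Ioi (2 : ℝ), HasDerivAt (fun y => h y ^ 3) (3 * h y ^ 2 * h' y) y := by
    intro y hy
    have := (hder y (lt_trans two_pos hy)).pow 3
    refine this.congr_deriv ?_
    norm_num
  have hlim : Tendsto (fun y => h y ^ 3) atTop (𝓝 0) :=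
    tendsto_zero_of_hasDerivAt_of_integrableOn_Ioi hd3 hi3' hi3
  -- cube root
  have habs : Tendsto (fun y => |h y| ^ 3) atTop (𝓝 0) := by
    have := hlim.abs
    simpa [abs_pow] using this
  have h4 : Tendsto (fun y => |h y|) atTop (𝓝 0) := by
    rw [Metric.tendsto_nhds] at habs ⊢
    intro ε hε
    filter_upwards [habs (ε ^ 3) (by positivity)] with y hy
    rw [Real.dist_eq, sub_zero, abs_of_nonneg (by positivity)] at hy
    rw [Real.dist_eq, sub_zero, abs_abs]
    exact lt_of_pow_lt_pow_left₀ 3 hε.le hy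
  exact (tendsto_zero_iff_abs_tendsto_zero _).2 h4

/-- `S3 c y → c` at infinity. -/
theorem tendsto_S3 (c : ℝ) : Tendsto (fun y => S3 c y) atTop (𝓝 c) := by
  have e : ∀ (b : ℝ) (n : ℕ), n ≠ 0 → Tendsto (fun y : ℝ => b / y ^ n) atTop (𝓝 0) := fun b n hn =>
    (tendsto_const_nhds (x := b)).div_atTop (tendsto_pow_atTop hn)
  have := (((tendsto_const_nhds (x := c) (f := atTop (α := ℝ))).add (e (b1 c) 2 two_ne_zero)).add
    (e (b2 c) 4 (by norm_num))).add (e (b3 c) 6 (by norm_num))
  simpa only [S3, add_zero] using this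

/-- `g → c` at infinity from the certificate and the bounds of the fixed point. -/
theorem lim_g {k : Cst} {p R : ℝ → ℝ} {G G1 G2 G3 : ℝ → ℝ → ℝ} {ψ ψ1 ψ2 ψ3 : ℝ → ℝ}
    (hC : Cert k p R G G1 G2 G3 ψ ψ1 ψ2 ψ3) {c : ℝ} (hc : c ∈ Icc (k.c0 - k.δ) (k.c0 + k.δ))
    {D : ℝ → ℝ} (hD : Tendsto (fun y => D y / y ^ 10) atTop (𝓝 0)) :
    Tendsto (fun y => G c y + D y / y ^ 10) atTop (𝓝 c) := by
  obtain ⟨C, ht⟩ := hC.tail c hc
  have h1 : Tendsto (fun y => G c y - S3 c y) atTop (𝓝 0) := by
    refine squeeze_zero_norm' (a := fun y => C / y ^ 8) ?_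
      ((tendsto_const_nhds (x := C)).div_atTop (tendsto_pow_atTop (by norm_num)))
    filter_upwards [eventually_ge_atTop 1] with y hy
    exact ht y hy
  have h2 := (h1.add (tendsto_S3 c)).add hD
  simpa using h2

end Crest.Agent.R213.E
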