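import Crest.Agent.R213.E.LinEnergy

/-!
# Row 213, part E: density (a positive Volterra kernel)
-/

set_option autoImplicit false

open Set MeasureTheory Filter Topology

noncomputable section

namespace Crest.Agent.R213.E

/-- kernel: `D z y = - ∫_{t>y} gk y t z t` -/
def gk (y t : ℝ) : ℝ := t / 11 - y / 10 + y ^ 11 / 110 * (t ^ 10)⁻¹

theorem gk_nonneg {y t : ℝ} (hy : 0 ≤ y) (ht : 0 < t) : 0 ≤ gk y t := by
  have h1 : 1 + (11:ℕ) * (y / t - 1) ≤ (1 + (y / t - 1)) ^ 11 :=
    one_add_mul_le_pow (by have : 0 ≤ y / t := by positivity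
                           linarith) 11
  have h2 : gk y t = t / 110 * ((1 + (y / t - 1)) ^ 11 - (1 + (11:ℕ) * (y / t - 1))) := by
    unfold gk
    have : t ≠ 0 := ht.ne'
    push_cast
    field_simp
    ring
  rw [h2]
  have : 0 ≤ (1 + (y / t - 1)) ^ 11 - (1 + (11:ℕ) * (y / t - 1)) := by linarith
  positivity

theorem gk_le {y t : ℝ} (hy : 0 ≤ y) (hyt : y ≤ t) (ht : 0 < t) : gk y t ≤ t / 11 := by
  unfold gk
  have h1 : y ^ 10 * (t ^ 10)⁻¹ ≤ 1 := by
    rw [← div_eq_mul_inv, div_le_one (by positivity)]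
    exact pow_le_pow_left₀ hy hyt 10
  have h2 : y ^ 11 / 110 * (t ^ 10)⁻¹ = y / 110 * (y ^ 10 * (t ^ 10)⁻¹) := by ring
  rw [h2]
  have : y / 110 * (y ^ 10 * (t ^ 10)⁻¹) ≤ y / 110 * 1 := by gcongr
  linarith

theorem gk_meas : Measurable (fun p : ℝ × ℝ => gk p.1 p.2) := by
  unfold gk
  fun_prop

variable {z : ℝ → ℝ}

theorem DD_eq_gk (hz : Adm z) (y : ℝ) : DD z y = - ∫ t in Ioi y, gk y t * z t := by
  have e : ∀ t, gk y t * z t = (1/11) * (t * z t) - (y / 10) * z t + (y ^ 11 / 110) * Adm.zm z t := by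
    intro t; simp only [gk, Adm.zm]; ring
  have i1 : IntegrableOn (fun t => (1/11) * (t * z t)) (Ioi y) := (hz.tz_int.const_mul _).integrableOn
  have i2 : IntegrableOn (fun t => (y / 10) * z t) (Ioi y) := (hz.z_int.const_mul _).integrableOn
  have i3 : IntegrableOn (fun t => (y ^ 11 / 110) * Adm.zm z t) (Ioi y) :=
    (hz.zm_int.const_mul _).integrableOn
  have i12 : IntegrableOn (fun t => (1/11) * (t * z t) - (y / 10) * z t) (Ioi y) := i1.sub i2
  simp only [e]
  rw [integral_add i12 i3, integral_sub i1 i2, integral_const_mul, integral_const_mul,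
    integral_const_mul]
  simp only [DD]
  ring

/-- Grönwall for an integral inequality. -/
theorem vol_gronwall {w : ℝ → ℝ} {C T : ℝ} (hw : Integrable w)
    (hw0 : ∀ y, 0 ≤ w y) (h : ∀ᵐ t, t ∈ Ioc 0 T → w t ≤ C * ∫ s in (0:ℝ)..t, w s) :
    ∀ᵐ t, t ∈ Ioc 0 T → w t = 0 := by
  rcases le_or_gt T 0 with hT | hT
  · exact Eventually.of_forall fun t ht => absurd (ht.1.trans_le ht.2) (not_lt.2 hT)
  set W : ℝ → ℝ := fun t => ∫ s in (0:ℝ)..t, w s with hW
  have hWc : Continuous W := intervalIntegral.continuous_primitive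
    (fun a b => hw.intervalIntegrable) 0
  set F : ℝ → ℝ := fun t => ∫ s in (0:ℝ)..t, W s with hF
  have hF' : ∀ t, HasDerivAt F (W t) t := fun t =>
    intervalIntegral.integral_hasDerivAt_right (hWc.intervalIntegrable _ _)
      hWc.aestronglyMeasurable.stronglyMeasurableAtFilter hWc.continuousAt
  have hW0 : ∀ t, 0 ≤ t → 0 ≤ W t := fun t ht =>
    intervalIntegral.integral_nonneg ht fun s _ => hw0 s
  have hF0 : ∀ t, 0 ≤ t → 0 ≤ F t := fun t ht =>
    intervalIntegral.integral_nonneg ht fun s hs => hW0 s hs.1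
  have hWF : ∀ t ∈ Icc 0 T, W t ≤ C * F t := by
    intro t ht
    simp only [hF]
    rw [← intervalIntegral.integral_const_mul]
    refine intervalIntegral.integral_mono_ae_restrict ht.1 hw.intervalIntegrable
      ((hWc.const_mul C).intervalIntegrable _ _) ?_
    refine (ae_restrict_iff' measurableSet_Icc).2 ?_
    have h0 : ∀ᵐ s : ℝ, s ≠ 0 := by
      have : ({0}ᶜ : Set ℝ) ∈ ae volume := by simp [mem_ae_iff]
      exact this
    filter_upwards [h, h0] with s hs hs0 hs'
    exact hs ⟨lt_of_le_of_ne hs'.1 (Ne.symm hs0), hs'.2.trans ht.2⟩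
  have hFz : ∀ t ∈ Icc 0 T, ‖F t‖ ≤ gronwallBound 0 C 0 (t - 0) := by
    refine norm_le_gronwallBound_of_norm_deriv_right_le (f' := W) ?_ ?_ ?_ ?_
    · exact fun t _ => (hF' t).continuousAt.continuousWithinAt
    · exact fun t _ => (hF' t).hasDerivWithinAt
    · simp [hF]
    · intro t ht
      rw [Real.norm_of_nonneg (hW0 t ht.1), Real.norm_of_nonneg (hF0 t ht.1), add_zero]
      exact hWF t ⟨ht.1, ht.2.le⟩
  filter_upwards [h] with t ht ht'
  have h1 := hFz t ⟨ht'.1.le, ht'.2⟩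
  rw [gronwallBound_ε0_δ0] at h1
  have h2 : F t = 0 := norm_le_zero_iff.1 h1
  have h3 := hWF t ⟨ht'.1.le, ht'.2⟩
  rw [h2, mul_zero] at h3
  have h4 : W t = 0 := le_antisymm h3 (hW0 t ht'.1.le)
  have h5 := ht ht'
  have h6 : C * ∫ s in (0:ℝ)..t, w s = 0 := by
    have : ∫ s in (0:ℝ)..t, w s = 0 := h4
    rw [this, mul_zero]
  rw [h6] at h5
  exact le_antisymm h5 (hw0 t)

/-- the Volterra operator -/
def VG (n U : ℝ → ℝ) (t : ℝ) : ℝ := ∫ y in Ioc 0 t, gk y t * (n y * U y)

theorem VG_int {n U : ℝ → ℝ} {n1 : ℝ} (hn : Measurable n) (hn0 : ∀ y, 0 < y → 0 ≤ n y)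
    (hn1 : ∀ y, 0 < y → n y ≤ n1) (hU : ∀ T, IntegrableOn U (Ioc 0 T)) {t : ℝ} (ht : 0 < t) :
    IntegrableOn (fun y => gk y t * (n y * U y)) (Ioc 0 t) := by
  have h1 : Integrable (fun y => (t / 11 * n1) * ‖U y‖) (volume.restrict (Ioc 0 t)) :=
    (hU t).norm.const_mul _
  refine h1.mono' ?_ ?_
  · refine AEStronglyMeasurable.mul ?_ (hn.aestronglyMeasurable.mul (hU t).aestronglyMeasurable)
    exact (gk_meas.comp (measurable_id.prodMk measurable_const)).aestronglyMeasurable
  · refine (ae_restrict_iff' measurableSet_Ioc).2 (Eventually.of_forall fun y hy => ?_)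
    rw [norm_mul, norm_mul, ← mul_assoc, Real.norm_of_nonneg (gk_nonneg hy.1.le ht),
      Real.norm_of_nonneg (hn0 y hy.1)]
    refine mul_le_mul_of_nonneg_right ?_ (norm_nonneg _)
    exact mul_le_mul (gk_le hy.1.le hy.2 ht) (hn1 y hy.1) (hn0 y hy.1) (by positivity)

theorem vol_nonneg {n U : ℝ → ℝ} {n1 : ℝ} (hn : Measurable n) (hn0 : ∀ y, 0 < y → 0 ≤ n y)
    (hn1 : ∀ y, 0 < y → n y ≤ n1) (hU : ∀ T, IntegrableOn U (Ioc 0 T))
    (h : ∀ᵐ t, 0 < t → VG n U t ≤ U t) : ∀ᵐ t, 0 < t → 0 ≤ U t := by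
  have hn1' : 0 ≤ n1 := (hn0 1 one_pos).trans (hn1 1 one_pos)
  suffices H : ∀ N : ℕ, ∀ᵐ t, t ∈ Ioc 0 (N : ℝ) → 0 ≤ U t by
    have := ae_all_iff.2 H
    filter_upwards [this] with t ht ht0
    obtain ⟨N, hN⟩ := exists_nat_ge t
    exact ht N ⟨ht0, hN⟩
  intro N
  set T : ℝ := (N : ℝ) with hTN
  set w : ℝ → ℝ := (Ioc 0 T).indicator (fun y => max (-U y) 0) with hw
  have hwint : Integrable w := by
    rw [hw, integrable_indicator_iff measurableSet_Ioc]
    exact ((hU T).neg).pos_part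
  have hw0 : ∀ y, 0 ≤ w y := fun y => indicator_nonneg (fun _ _ => le_max_right _ _) y
  have key := vol_gronwall (w := w) (C := T / 11 * n1) (T := T) hwint hw0 ?_
  · filter_upwards [key] with t ht ht'
    have := ht ht'
    rw [hw, indicator_of_mem ht'] at this
    have h2 := le_max_left (-U t) 0
    linarith
  · filter_upwards [h] with t ht ht'
    have ht0 := ht'.1
    have h1 := ht ht0
    rcases le_or_gt 0 (U t) with hU0 | hU0
    · have : w t = 0 := by
        rw [hw, indicator_of_mem ht', max_eq_right (by linarith)]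
      rw [this]
      have : 0 ≤ ∫ s in (0:ℝ)..t, w s := intervalIntegral.integral_nonneg ht0.le fun s _ => hw0 s
      positivity
    · have e1 : w t = -U t := by
        rw [hw, indicator_of_mem ht', max_eq_left (by linarith)]
      rw [e1]
      have e2 : -VG n U t ≤ T / 11 * n1 * ∫ s in (0:ℝ)..t, w s := by
        rw [intervalIntegral.integral_of_le ht0.le, VG, ← integral_neg, ← integral_const_mul]
        refine integral_mono_ae (VG_int hn hn0 hn1 hU ht0).neg (hwint.integrableOn.const_mul _) ?_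
        refine (ae_restrict_iff' measurableSet_Ioc).2 (Eventually.of_forall fun y hy => ?_)
        have hyT : y ∈ Ioc 0 T := ⟨hy.1, hy.2.trans ht'.2⟩
        show -(gk y t * (n y * U y)) ≤ T / 11 * n1 * w y
        rw [hw, indicator_of_mem hyT]
        have g0 := gk_nonneg hy.1.le ht0
        have g1 : gk y t ≤ T / 11 := (gk_le hy.1.le hy.2 ht0).trans (by have := ht'.2; linarith)
        have m0 : 0 ≤ max (-U y) 0 := le_max_right _ _
        have m1 : -U y ≤ max (-U y) 0 := le_max_left _ _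
        calc -(gk y t * (n y * U y)) = gk y t * n y * (-U y) := by ring
          _ ≤ gk y t * n y * max (-U y) 0 :=
              mul_le_mul_of_nonneg_left m1 (mul_nonneg g0 (hn0 y hy.1))
          _ ≤ T / 11 * n1 * max (-U y) 0 := by
              refine mul_le_mul_of_nonneg_right ?_ m0
              exact mul_le_mul g1 (hn1 y hy.1) (hn0 y hy.1) (by positivity)
      linarith


section fubini

variable {n U : ℝ → ℝ} {n1 : ℝ}

theorem VG_meas (hn : Measurable n) (hUm : Measurable U) : Measurable (VG n U) := by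
  have e : VG n U = fun t => ∫ y in Ioi (0:ℝ),
      {p : ℝ × ℝ | p.2 ≤ p.1}.indicator (fun p => gk p.2 p.1 * (n p.2 * U p.2)) (t, y) := by
    funext t
    have : (fun y => {p : ℝ × ℝ | p.2 ≤ p.1}.indicator (fun p => gk p.2 p.1 * (n p.2 * U p.2)) (t, y))
        = (Iic t).indicator (fun y => gk y t * (n y * U y)) := by
      funext y
      by_cases h : y ≤ t
      · rw [indicator_of_mem (show (t, y) ∈ {p : ℝ × ℝ | p.2 ≤ p.1} from h),
          indicator_of_mem (show y ∈ Iic t from h)]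
      · rw [indicator_of_notMem (show (t, y) ∉ {p : ℝ × ℝ | p.2 ≤ p.1} from h),
          indicator_of_notMem (show y ∉ Iic t from h)]
    rw [this, setIntegral_indicator measurableSet_Iic, VG, Ioi_inter_Iic]
  rw [e]
  refine StronglyMeasurable.measurable (StronglyMeasurable.integral_prod_right
    (f := fun t y => {p : ℝ × ℝ | p.2 ≤ p.1}.indicator (fun p => gk p.2 p.1 * (n p.2 * U p.2)) (t, y))
    (Measurable.stronglyMeasurable ?_))
  refine Measurable.indicator ?_ (measurableSet_le measurable_snd measurable_fst)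
  exact (gk_meas.comp measurable_swap).mul ((hn.comp measurable_snd).mul (hUm.comp measurable_snd))

theorem VG_bound (hn0 : ∀ y, 0 < y → 0 ≤ n y)
    (hn1 : ∀ y, 0 < y → n y ≤ n1) (hU : ∀ T, IntegrableOn U (Ioc 0 T)) {t T : ℝ} (ht : 0 < t)
    (htT : t ≤ T) : |VG n U t| ≤ T / 11 * n1 * ∫ y in Ioc 0 T, |U y| := by
  have hn1' : 0 ≤ n1 := (hn0 1 one_pos).trans (hn1 1 one_pos)
  have h1 : ‖VG n U t‖ ≤ ∫ y in Ioc 0 t, (T / 11 * n1) * |U y| := by
    refine norm_integral_le_of_norm_le ((hU t).norm.const_mul _) ?_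
    refine (ae_restrict_iff' measurableSet_Ioc).2 (Eventually.of_forall fun y hy => ?_)
    rw [norm_mul, norm_mul, ← mul_assoc, Real.norm_of_nonneg (gk_nonneg hy.1.le ht),
      Real.norm_of_nonneg (hn0 y hy.1), Real.norm_eq_abs]
    refine mul_le_mul_of_nonneg_right ?_ (abs_nonneg _)
    have g1 : gk y t ≤ T / 11 := (gk_le hy.1.le hy.2 ht).trans (by linarith)
    exact mul_le_mul g1 (hn1 y hy.1) (hn0 y hy.1) (by linarith [ht.trans_le htT])
  rw [Real.norm_eq_abs] at h1
  refine h1.trans ?_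
  rw [integral_const_mul]
  have hT : 0 < T := ht.trans_le htT
  refine mul_le_mul_of_nonneg_left ?_ (by positivity)
  exact setIntegral_mono_set (hU T).norm (Eventually.of_forall fun y => abs_nonneg _)
    (Ioc_subset_Ioc_right htT).eventuallyLE

theorem fub_int (hn : Measurable n) (hn0 : ∀ y, 0 < y → 0 ≤ n y)
    (hn1 : ∀ y, 0 < y → n y ≤ n1) (hUm : Measurable U) (hU : ∀ T, IntegrableOn U (Ioc 0 T))
    (hz : Adm z) : Integrable ({p : ℝ × ℝ | p.1 ≤ p.2}.indicator
      (fun p => gk p.1 p.2 * (n p.1 * U p.1) * z p.2))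
      ((volume.restrict (Ioi (0:ℝ))).prod (volume.restrict (Ioi (0:ℝ)))) := by
  have hn1' : 0 ≤ n1 := (hn0 1 one_pos).trans (hn1 1 one_pos)
  obtain ⟨r, R, hr, hrR, h0⟩ := hz.bounds
  have hR0 : 0 < R := hr.trans hrR
  set w : ℝ → ℝ := (Ioc 0 R).indicator U with hw
  have hwi : Integrable w (volume.restrict (Ioi (0:ℝ))) := by
    refine Integrable.restrict ?_
    rw [hw, integrable_indicator_iff measurableSet_Ioc]; exact hU R
  have hzi : Integrable z (volume.restrict (Ioi (0:ℝ))) := hz.z_int.restrict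
  have hdom : Integrable (fun p : ℝ × ℝ => (R / 11 * n1) * (‖w p.1‖ * ‖z p.2‖))
      ((volume.restrict (Ioi (0:ℝ))).prod (volume.restrict (Ioi (0:ℝ)))) :=
    (hwi.norm.mul_prod hzi.norm).const_mul _
  refine hdom.mono' ?_ ?_
  · refine (Measurable.indicator ?_ (measurableSet_le measurable_fst measurable_snd)).aestronglyMeasurable
    exact (gk_meas.mul ((hn.comp measurable_fst).mul (hUm.comp measurable_fst))).mul
      (hz.cont.measurable.comp measurable_snd)
  · rw [Measure.prod_restrict]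
    refine (ae_restrict_iff' (measurableSet_Ioi.prod measurableSet_Ioi)).2
      (Eventually.of_forall fun p hp => ?_)
    have hp1 : 0 < p.1 := hp.1
    have hp2 : 0 < p.2 := hp.2
    have hnn : 0 ≤ (R / 11 * n1) * (‖w p.1‖ * ‖z p.2‖) := by positivity
    by_cases hle : p.1 ≤ p.2
    · rw [indicator_of_mem (show p ∈ {p : ℝ × ℝ | p.1 ≤ p.2} from hle)]
      by_cases hzt : z p.2 = 0
      · have e0 : gk p.1 p.2 * (n p.1 * U p.1) * z p.2 = 0 := by rw [hzt, mul_zero]
        rw [e0, norm_zero]; exact hnn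
      · have hmem : p.2 ∈ Icc r R := by
          by_contra hc; exact hzt (h0 _ hc)
        have h1R : p.1 ∈ Ioc 0 R := ⟨hp1, hle.trans hmem.2⟩
        rw [hw, indicator_of_mem h1R, norm_mul, norm_mul, norm_mul,
          Real.norm_of_nonneg (gk_nonneg hp1.le hp2), Real.norm_of_nonneg (hn0 _ hp1)]
        have g1 : gk p.1 p.2 ≤ R / 11 := (gk_le hp1.le hle hp2).trans (by have := hmem.2; linarith)
        calc gk p.1 p.2 * (n p.1 * ‖U p.1‖) * ‖z p.2‖ = (gk p.1 p.2 * n p.1) * (‖U p.1‖ * ‖z p.2‖) := by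
              ring
          _ ≤ (R / 11 * n1) * (‖U p.1‖ * ‖z p.2‖) := by
              refine mul_le_mul_of_nonneg_right ?_ (by positivity)
              exact mul_le_mul g1 (hn1 _ hp1) (hn0 _ hp1) (by positivity)
    · rw [indicator_of_notMem (show p ∉ {p : ℝ × ℝ | p.1 ≤ p.2} from hle), norm_zero]
      exact hnn

theorem fub (hn : Measurable n) (hn0 : ∀ y, 0 < y → 0 ≤ n y)
    (hn1 : ∀ y, 0 < y → n y ≤ n1) (hUm : Measurable U) (hU : ∀ T, IntegrableOn U (Ioc 0 T))
    (hz : Adm z) : IntegrableOn (fun t => VG n U t * z t) (Ioi 0) ∧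
      IntegrableOn (fun y => U y * (n y * DD z y)) (Ioi 0) ∧
      ∫ y in Ioi (0:ℝ), U y * (n y * DD z y) = - ∫ t in Ioi (0:ℝ), VG n U t * z t := by
  have hF := fub_int hn hn0 hn1 hUm hU hz
  set F : ℝ × ℝ → ℝ := {p : ℝ × ℝ | p.1 ≤ p.2}.indicator
      (fun p => gk p.1 p.2 * (n p.1 * U p.1) * z p.2) with hFd
  have e1 : ∀ t, ∫ y in Ioi (0:ℝ), F (y, t) = VG n U t * z t := by
    intro t
    have : (fun y => F (y, t)) = (Iic t).indicator (fun y => gk y t * (n y * U y) * z t) := by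
      funext y
      by_cases h : y ≤ t
      · rw [hFd, indicator_of_mem (show (y, t) ∈ {p : ℝ × ℝ | p.1 ≤ p.2} from h),
          indicator_of_mem (show y ∈ Iic t from h)]
      · rw [hFd, indicator_of_notMem (show (y, t) ∉ {p : ℝ × ℝ | p.1 ≤ p.2} from h),
          indicator_of_notMem (show y ∉ Iic t from h)]
    rw [this, setIntegral_indicator measurableSet_Iic, Ioi_inter_Iic, integral_mul_const, VG]
  have e2 : ∀ y, 0 < y → ∫ t in Ioi (0:ℝ), F (y, t) = -(U y * (n y * DD z y)) := by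
    intro y hy
    have : (fun t => F (y, t)) = (Ici y).indicator (fun t => (n y * U y) * (gk y t * z t)) := by
      funext t
      by_cases h : y ≤ t
      · rw [hFd, indicator_of_mem (show (y, t) ∈ {p : ℝ × ℝ | p.1 ≤ p.2} from h),
          indicator_of_mem (show t ∈ Ici y from h)]
        ring
      · rw [hFd, indicator_of_notMem (show (y, t) ∉ {p : ℝ × ℝ | p.1 ≤ p.2} from h),
          indicator_of_notMem (show t ∉ Ici y from h)]
    rw [this, setIntegral_indicator measurableSet_Ici]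
    have hset : Ioi (0:ℝ) ∩ Ici y = Ici y := by
      ext t; simp only [mem_inter_iff, mem_Ioi, mem_Ici]
      exact ⟨fun h => h.2, fun h => ⟨hy.trans_le h, h⟩⟩
    rw [hset, integral_Ici_eq_integral_Ioi, integral_const_mul, DD_eq_gk hz]
    ring
  have hswap := integral_integral_swap (f := fun y t => F (y, t)) (μ := volume.restrict (Ioi (0:ℝ)))
    (ν := volume.restrict (Ioi (0:ℝ))) hF
  have hA : Integrable (fun t => ∫ y in Ioi (0:ℝ), F (y, t)) (volume.restrict (Ioi (0:ℝ))) :=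
    hF.integral_prod_right
  have hB : Integrable (fun y => ∫ t in Ioi (0:ℝ), F (y, t)) (volume.restrict (Ioi (0:ℝ))) :=
    hF.integral_prod_left
  simp only [e1] at hA
  have hB' : IntegrableOn (fun y => -(U y * (n y * DD z y))) (Ioi 0) :=
    IntegrableOn.congr_fun hB (fun y hy => e2 y hy) measurableSet_Ioi
  refine ⟨hA, by simpa using hB'.neg, ?_⟩
  have h1 : ∫ y in Ioi (0:ℝ), ∫ t in Ioi (0:ℝ), F (y, t) = ∫ y in Ioi (0:ℝ), -(U y * (n y * DD z y)) :=
    setIntegral_congr_fun measurableSet_Ioi (fun y hy => e2 y hy)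
  have h2 : ∫ t in Ioi (0:ℝ), ∫ y in Ioi (0:ℝ), F (y, t) = ∫ t in Ioi (0:ℝ), VG n U t * z t := by
    simp only [e1]
  rw [h1, h2, integral_neg] at hswap
  linarith

end fubini

end Crest.Agent.R213.E
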