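import Crest.Agent.R213.E.LinTest

/-!
# Row 213, part E: energy inequality for test pairs
-/

set_option autoImplicit false

open Set MeasureTheory Filter Topology

noncomputable section

namespace Crest.Agent.R213.E

theorem uu_pos (b y : ℝ) : 0 < uu b y := by unfold uu; positivity

theorem uu_le_one (b y : ℝ) : uu b y ≤ 1 := by
  unfold uu
  exact inv_le_one_of_one_le₀ (by have : 0 ≤ y ^ 2 / b ^ 2 := by positivity
                                  linarith)

theorem uu_hasDeriv {b : ℝ} (hb : 0 < b) {y : ℝ} (hy : 0 < y) :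
    HasDerivAt (uu b) (-(2 / y) * (uu b y * (1 - uu b y))) y := by
  have h1 : HasDerivAt (fun y : ℝ => 1 + y ^ 2 / b ^ 2) (2 * y / b ^ 2) y := by
    have := ((hasDerivAt_pow 2 y).div_const (b ^ 2)).const_add 1
    simpa using this
  have hne : 1 + y ^ 2 / b ^ 2 ≠ 0 := by positivity
  have h2 := h1.inv hne
  refine h2.congr_deriv ?_
  simp only [uu]
  have hb' : b ≠ 0 := hb.ne'
  have hy' : y ≠ 0 := hy.ne'
  have hbb : b ^ 2 + y ^ 2 ≠ 0 := by positivity
  field_simp
  ring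

theorem uu_cont {b : ℝ} : Continuous (uu b) := by
  unfold uu
  refine Continuous.inv₀ (by fun_prop) (fun y => ?_)
  positivity

/-- boundary term of the energy identity -/
def Bf (b : ℝ) (D D1 D2 : ℝ → ℝ) (y : ℝ) : ℝ :=
  uu b y ^ 3 * y * (D y * D2 y) - 1 / 2 * (uu b y ^ 3 * y) * (D1 y) ^ 2
    - (4 * uu b y ^ 3 + 6 * uu b y ^ 4) * (D y * D1 y)
    + (-(27/4) * uu b y ^ 3 + 15 * uu b y ^ 4 - 3 * uu b y ^ 5) / y * (D y) ^ 2

theorem Bf_hasDeriv {b : ℝ} (hb : 0 < b) {D D1 D2 D3 : ℝ → ℝ} {y : ℝ} (hy : 0 < y)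
    (h0 : HasDerivAt D (D1 y) y) (h1 : HasDerivAt D1 (D2 y) y) (h2 : HasDerivAt D2 (D3 y) y) :
    HasDerivAt (Bf b D D1 D2)
      (chi b y * (D y * (y * D3 y - 9 * D2 y)) - (3/2 * uu b y ^ 3 + 9 * uu b y ^ 4) *
        (D1 y - (7/2 - 3 * uu b y) / y * D y) ^ 2 - chi b y * (bet0 b y / y ^ 2) * (D y) ^ 2) y := by
  have hu := uu_hasDeriv hb hy
  have hy' : y ≠ 0 := hy.ne'
  have e1 := (((hu.pow 3).mul (hasDerivAt_id y)).mul (h0.mul h2))
  have e2 := ((((hu.pow 3).mul (hasDerivAt_id y)).const_mul (1/2)).mul (h1.pow 2))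
  have e3 := ((((hu.pow 3).const_mul 4).add ((hu.pow 4).const_mul 6)).mul (h0.mul h1))
  have e4 := ((((((hu.pow 3).const_mul (-(27/4))).add ((hu.pow 4).const_mul 15)).sub
    ((hu.pow 5).const_mul 3)).div (hasDerivAt_id y) hy').mul (h0.pow 2))
  have e5 := ((e1.sub e2).sub e3).add e4
  refine (e5.congr_of_eventuallyEq (Eventually.of_forall fun x => ?_)).congr_deriv ?_
  · simp only [Bf, Pi.mul_apply, Pi.add_apply, Pi.sub_apply, Pi.pow_apply, Pi.div_apply, id]
  · simp only [chi, bet0, Pi.mul_apply, Pi.add_apply, Pi.sub_apply, Pi.pow_apply, Pi.div_apply, id]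
    generalize uu b y = u
    field_simp
    norm_num
    ring


theorem chi_pos (b y : ℝ) : 0 < chi b y := by unfold chi; have := uu_pos b y; positivity

theorem chi_le_one (b y : ℝ) : chi b y ≤ 1 := by
  unfold chi; exact pow_le_one₀ (uu_pos b y).le (uu_le_one b y)

theorem chi_cont {b : ℝ} : Continuous (chi b) := uu_cont.pow 3

theorem bet0_cont {b : ℝ} : Continuous (bet0 b) := by
  have := uu_cont (b := b)
  unfold bet0
  fun_prop

theorem abs_bet0_le (b y : ℝ) : |bet0 b y| ≤ 240 := by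
  have h0 := (uu_pos b y).le
  have h1 := uu_le_one b y
  unfold bet0
  have h2 : uu b y ^ 2 ≤ 1 := pow_le_one₀ h0 h1
  have h3 : uu b y ^ 3 ≤ 1 := pow_le_one₀ h0 h1
  have h2' : 0 ≤ uu b y ^ 2 := by positivity
  have h3' : 0 ≤ uu b y ^ 3 := by positivity
  rw [abs_le]
  constructor <;> linarith

variable {z : ℝ → ℝ}

/-- `|D| ≤ K y` globally on `y ≥ 0`, and `D = 0` for large `y`. -/
theorem DD_lin_bound (hz : Adm z) : ∃ K : ℝ, 0 ≤ K ∧ ∀ y, 0 ≤ y → |DD z y| ≤ K * y := by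
  obtain ⟨C, r, hC, hr, hr1, h⟩ := DD_near_zero hz
  obtain ⟨R, hR, hR0⟩ := DD_zero_right hz
  obtain ⟨M, hM⟩ := (isCompact_Icc (a := (0:ℝ)) (b := R)).exists_bound_of_continuousOn
    (DD_cont hz).continuousOn
  have hM0 : 0 ≤ M := (norm_nonneg _).trans (hM 0 ⟨le_rfl, hR.le⟩)
  refine ⟨C + M / r, by positivity, fun y hy => ?_⟩
  rcases le_total y r with h1 | h1
  · refine (h y hy h1).1.trans ?_
    have : 0 ≤ M / r * y := by positivity
    linarith
  · rcases le_total y R with h2 | h2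
    · have h3 := hM y ⟨hy, h2⟩
      rw [Real.norm_eq_abs] at h3
      refine h3.trans ?_
      have : M ≤ M / r * y := by
        rw [div_mul_eq_mul_div, le_div_iff₀ hr]
        exact mul_le_mul_of_nonneg_left h1 hM0
      have : 0 ≤ C * y := by positivity
      linarith
    · rw [(hR0 y h2).1, abs_zero]
      positivity

theorem z_bound (hz : Adm z) : ∃ Z : ℝ, 0 ≤ Z ∧ ∀ y, |z y| ≤ Z := by
  obtain ⟨Z, hZ⟩ := hz.cont.bounded_above_of_compact_support hz.supp
  exact ⟨Z, (norm_nonneg _).trans (hZ 0), fun y => by simpa using hZ y⟩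

theorem f1_bound {b : ℝ} (hz : Adm z) : ∃ K : ℝ, 0 ≤ K ∧ ∀ y, 0 < y →
    |chi b y * (bet0 b y / y ^ 2) * (DD z y) ^ 2| ≤ K := by
  obtain ⟨K, hK, h⟩ := DD_lin_bound hz
  refine ⟨240 * K ^ 2, by positivity, fun y hy => ?_⟩
  have h1 := h y hy.le
  have h2 : (DD z y) ^ 2 ≤ (K * y) ^ 2 := by
    rw [← sq_abs]; exact pow_le_pow_left₀ (abs_nonneg _) h1 2
  have h3 : |chi b y * (bet0 b y / y ^ 2) * (DD z y) ^ 2| =
      chi b y * (|bet0 b y| / y ^ 2) * (DD z y) ^ 2 := by
    rw [abs_mul, abs_mul, abs_div, abs_of_pos (chi_pos b y), abs_of_nonneg (sq_nonneg (DD z y)),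
      abs_of_pos (by positivity : 0 < y ^ 2)]
  rw [h3]
  calc chi b y * (|bet0 b y| / y ^ 2) * (DD z y) ^ 2
      ≤ 1 * (240 / y ^ 2) * (K * y) ^ 2 := by
        have hc0 := (chi_pos b y).le
        have hc1 := chi_le_one b y
        have hb0 := abs_bet0_le b y
        gcongr
    _ = 240 * K ^ 2 := by field_simp

theorem f1_int {b : ℝ} (hz : Adm z) :
    IntegrableOn (fun y => chi b y * (bet0 b y / y ^ 2) * (DD z y) ^ 2) (Ioi 0) := by
  obtain ⟨R, hR, hR0⟩ := DD_zero_right hz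
  obtain ⟨K, hK, h⟩ := f1_bound (b := b) hz
  have hmeas : Measurable (fun y => chi b y * (bet0 b y / y ^ 2) * (DD z y) ^ 2) := by
    have h1 := (chi_cont (b := b)).measurable
    have h2 := (bet0_cont (b := b)).measurable
    have h3 := (DD_cont hz).measurable
    fun_prop
  have h1 : IntegrableOn (fun y => chi b y * (bet0 b y / y ^ 2) * (DD z y) ^ 2) (Ioc 0 R) := by
    refine Measure.integrableOn_of_bounded (M := K) (by simp) hmeas.aestronglyMeasurable ?_
    refine (ae_restrict_iff' measurableSet_Ioc).2 (Eventually.of_forall fun y hy => ?_)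
    rw [Real.norm_eq_abs]
    exact h y hy.1
  have h2 : IntegrableOn (fun y => chi b y * (bet0 b y / y ^ 2) * (DD z y) ^ 2) (Ioi R) := by
    refine (integrableOn_zero).congr_fun (fun y hy => ?_) measurableSet_Ioi
    rw [(hR0 y (le_of_lt hy)).1]; simp
  have := h1.union h2
  rwa [Ioc_union_Ioi_eq_Ioi hR.le] at this

theorem f2_int {b : ℝ} (hz : Adm z) : IntegrableOn (fun y => chi b y * (DD z y * z y)) (Ioi 0) := by
  refine Integrable.integrableOn ?_
  refine (chi_cont.mul ((DD_cont hz).mul hz.cont)).integrable_of_hasCompactSupport ?_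
  exact (hz.supp.mul_left).mul_left

theorem energy {b : ℝ} (hb : 0 < b) (hz : Adm z) :
    ∫ y in Ioi (0:ℝ), chi b y * (bet0 b y / y ^ 2) * (DD z y) ^ 2 ≤
      ∫ y in Ioi (0:ℝ), chi b y * (DD z y * z y) := by
  obtain ⟨C, r, hC, hr, hr1, h⟩ := DD_near_zero hz
  obtain ⟨R, hR, hR0⟩ := DD_zero_right hz
  obtain ⟨K, hK, hf1⟩ := f1_bound (b := b) hz
  obtain ⟨Z, hZ, hz1⟩ := z_bound hz
  set f1 : ℝ → ℝ := fun y => chi b y * (bet0 b y / y ^ 2) * (DD z y) ^ 2 with hf1d
  set f2 : ℝ → ℝ := fun y => chi b y * (DD z y * z y) with hf2d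
  have i1 : IntegrableOn f1 (Ioi 0) := f1_int hz
  have i2 : IntegrableOn f2 (Ioi 0) := f2_int hz
  -- main estimate
  have key : ∀ δ, 0 < δ → δ ≤ r → δ < R →
      ∫ y in Ioi δ, f1 y ≤ (∫ y in Ioi δ, f2 y) + 120 * C ^ 2 * δ := by
    intro δ hδ hδr hδR
    set g : ℝ → ℝ := fun y => (3/2 * uu b y ^ 3 + 9 * uu b y ^ 4) *
        (DD1 z y - (7/2 - 3 * uu b y) / y * DD z y) ^ 2 with hg
    have hcont : ContinuousOn (fun y => f2 y - g y - f1 y) (Icc δ R) := by
      have hu := (uu_cont (b := b)).continuousOn (s := Icc δ R)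
      have hc := (chi_cont (b := b)).continuousOn (s := Icc δ R)
      have hb' := (bet0_cont (b := b)).continuousOn (s := Icc δ R)
      have hD := (DD_cont hz).continuousOn (s := Icc δ R)
      have hD1 := (DD1_cont hz).continuousOn (s := Icc δ R)
      have hz' := hz.cont.continuousOn (s := Icc δ R)
      have hne : ∀ y ∈ Icc δ R, y ≠ 0 := fun y hy => (lt_of_lt_of_le hδ hy.1).ne'
      have hid : ContinuousOn (fun y : ℝ => y) (Icc δ R) := continuousOn_id
      refine ContinuousOn.sub (ContinuousOn.sub (hc.mul (hD.mul hz')) ?_) ?_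
      · exact (((hu.pow 3).const_mul _ |>.add ((hu.pow 4).const_mul _))).mul
          ((hD1.sub (((continuousOn_const.sub (hu.const_mul _)).div hid hne).mul hD)).pow 2)
      · exact (hc.mul (hb'.div (hid.pow 2) (fun y hy => pow_ne_zero 2 (hne y hy)))).mul (hD.pow 2)
    have hder : ∀ y ∈ uIcc δ R, HasDerivAt (Bf b (DD z) (DD1 z) (DD2 z)) (f2 y - g y - f1 y) y := by
      intro y hy
      rw [uIcc_of_le hδR.le] at hy
      have hy0 : 0 < y := lt_of_lt_of_le hδ hy.1
      have := Bf_hasDeriv hb hy0 (DD_hasDeriv hz hy0) (DD1_hasDeriv hz hy0) (DD2_hasDeriv hz hy0)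
      rw [DD_eq hy0] at this
      exact this
    have hint : IntervalIntegrable (fun y => f2 y - g y - f1 y) volume δ R :=
      (hcont.mono (by rw [uIcc_of_le hδR.le])).intervalIntegrable
    have hFTC := intervalIntegral.integral_eq_sub_of_hasDerivAt hder hint
    have hBR : Bf b (DD z) (DD1 z) (DD2 z) R = 0 := by
      obtain ⟨a1, a2, a3, _⟩ := hR0 R le_rfl
      simp [Bf, a1, a2]
    rw [hBR, zero_sub] at hFTC
    have hgnn : ∀ y, 0 ≤ g y := by
      intro y
      have := (uu_pos b y).le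
      simp only [hg]; positivity
    have j1 : IntervalIntegrable f1 volume δ R := by
      rw [intervalIntegrable_iff_integrableOn_Ioc_of_le hδR.le]
      exact i1.mono_set (Ioc_subset_Ioi_self.trans (Ioi_subset_Ioi hδ.le))
    have j2 : IntervalIntegrable f2 volume δ R := by
      rw [intervalIntegrable_iff_integrableOn_Ioc_of_le hδR.le]
      exact i2.mono_set (Ioc_subset_Ioi_self.trans (Ioi_subset_Ioi hδ.le))
    have hle : ∫ y in δ..R, (f2 y - g y - f1 y) ≤ ∫ y in δ..R, (f2 y - f1 y) := by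
      refine intervalIntegral.integral_mono_on hδR.le hint ?_ (fun y _ => by
        have := hgnn y; linarith)
      exact j2.sub j1
    have hB : Bf b (DD z) (DD1 z) (DD2 z) δ ≤ 120 * C ^ 2 * δ := by
      obtain ⟨b0, b1, b2, _⟩ := h δ hδ.le hδr
      have hu0 := (uu_pos b δ).le
      have hu1 := uu_le_one b δ
      have hδ1 : δ ≤ 1 := hδr.trans hr1
      have hu3 : uu b δ ^ 3 ≤ 1 := pow_le_one₀ hu0 hu1
      have hu4 : uu b δ ^ 4 ≤ 1 := pow_le_one₀ hu0 hu1
      have hu5 : uu b δ ^ 5 ≤ 1 := pow_le_one₀ hu0 hu1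
      have hu3' : 0 ≤ uu b δ ^ 3 := by positivity
      have hu4' : 0 ≤ uu b δ ^ 4 := by positivity
      have hu5' : 0 ≤ uu b δ ^ 5 := by positivity
      have t1 : uu b δ ^ 3 * δ * (DD z δ * DD2 z δ) ≤ C ^ 2 * δ := by
        have : |uu b δ ^ 3 * δ * (DD z δ * DD2 z δ)| ≤ 1 * 1 * (C * δ * C) := by
          rw [abs_mul, abs_mul, abs_mul, abs_of_nonneg hu3', abs_of_nonneg hδ.le]
          gcongr
        have := (le_abs_self _).trans this
        nlinarith
      have t2 : 0 ≤ 1 / 2 * (uu b δ ^ 3 * δ) * (DD1 z δ) ^ 2 := by positivity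
      have t3 : -((4 * uu b δ ^ 3 + 6 * uu b δ ^ 4) * (DD z δ * DD1 z δ)) ≤ 10 * C ^ 2 * δ := by
        have h10 : |4 * uu b δ ^ 3 + 6 * uu b δ ^ 4| ≤ 10 := by
          rw [abs_of_nonneg (by positivity)]; linarith
        have : |-((4 * uu b δ ^ 3 + 6 * uu b δ ^ 4) * (DD z δ * DD1 z δ))| ≤ 10 * (C * δ * C) := by
          rw [abs_neg, abs_mul, abs_mul]
          gcongr
        have := (le_abs_self _).trans this
        nlinarith
      have t4 : (-(27/4) * uu b δ ^ 3 + 15 * uu b δ ^ 4 - 3 * uu b δ ^ 5) / δ * (DD z δ) ^ 2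
          ≤ 25 * C ^ 2 * δ := by
        have h25 : |-(27/4) * uu b δ ^ 3 + 15 * uu b δ ^ 4 - 3 * uu b δ ^ 5| ≤ 25 := by
          rw [abs_le]; constructor <;> linarith
        have hsq : (DD z δ) ^ 2 ≤ (C * δ) ^ 2 := by
          rw [← sq_abs]; exact pow_le_pow_left₀ (abs_nonneg _) b0 2
        have : |(-(27/4) * uu b δ ^ 3 + 15 * uu b δ ^ 4 - 3 * uu b δ ^ 5) / δ * (DD z δ) ^ 2| ≤
            25 / δ * (C * δ) ^ 2 := by
          rw [abs_mul, abs_div, abs_of_pos hδ, abs_of_nonneg (sq_nonneg (DD z δ))]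
          gcongr
        have h' : 25 / δ * (C * δ) ^ 2 = 25 * C ^ 2 * δ := by field_simp
        rw [h'] at this
        exact (le_abs_self _).trans this
      have hC2 : 0 ≤ C ^ 2 * δ := by positivity
      have : Bf b (DD z) (DD1 z) (DD2 z) δ = uu b δ ^ 3 * δ * (DD z δ * DD2 z δ)
          - 1 / 2 * (uu b δ ^ 3 * δ) * (DD1 z δ) ^ 2
          - (4 * uu b δ ^ 3 + 6 * uu b δ ^ 4) * (DD z δ * DD1 z δ)
          + (-(27/4) * uu b δ ^ 3 + 15 * uu b δ ^ 4 - 3 * uu b δ ^ 5) / δ * (DD z δ) ^ 2 := rfl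
      rw [this]
      linarith
    have etail : ∀ f : ℝ → ℝ, IntegrableOn f (Ioi 0) → (∀ y, R ≤ y → f y = 0) →
        ∫ y in Ioi δ, f y = ∫ y in δ..R, f y := by
      intro f hf hf0
      have := intervalIntegral.integral_Ioi_sub_Ioi (μ := volume) (f := f) (a := δ) (b := R)
        (hf.mono_set (Ioi_subset_Ioi hδ.le)) hδR.le
      rw [tail_zero (fun t ht => hf0 t (le_of_lt ht)) le_rfl, sub_zero] at this
      exact this
    have e1 : ∫ y in Ioi δ, f1 y = ∫ y in δ..R, f1 y :=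
      etail f1 i1 (fun y hy => by simp [hf1d, (hR0 y hy).1])
    have e2 : ∫ y in Ioi δ, f2 y = ∫ y in δ..R, f2 y :=
      etail f2 i2 (fun y hy => by simp [hf2d, (hR0 y hy).1])
    rw [intervalIntegral.integral_sub j2 j1] at hle
    rw [e1, e2]
    linarith
  -- conclude
  refine le_of_forall_pos_lt_add fun ε hε => ?_
  set KK := 120 * C ^ 2 + K + C * Z + 1 with hKK
  have hKKpos : 0 < KK := by positivity
  set δ := min (min r (R / 2)) (ε / (2 * KK)) with hδd
  have hδ : 0 < δ := by positivity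
  have hδr : δ ≤ r := (min_le_left _ _).trans (min_le_left _ _)
  have hδR : δ < R := by
    have : δ ≤ R / 2 := (min_le_left _ _).trans (min_le_right _ _)
    linarith
  have hδε : δ ≤ ε / (2 * KK) := min_le_right _ _
  have k := key δ hδ hδr hδR
  have s1 := intervalIntegral.integral_Ioi_sub_Ioi (μ := volume) (f := f1) (a := 0) (b := δ) i1 hδ.le
  have s2 := intervalIntegral.integral_Ioi_sub_Ioi (μ := volume) (f := f2) (a := 0) (b := δ) i2 hδ.le
  have n1 : ‖∫ y in (0:ℝ)..δ, f1 y‖ ≤ K * |δ - 0| := by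
    refine intervalIntegral.norm_integral_le_of_norm_le_const fun y hy => ?_
    rw [uIoc_of_le hδ.le] at hy
    exact hf1 y hy.1
  have n2 : ‖∫ y in (0:ℝ)..δ, f2 y‖ ≤ (C * Z) * |δ - 0| := by
    refine intervalIntegral.norm_integral_le_of_norm_le_const fun y hy => ?_
    rw [uIoc_of_le hδ.le] at hy
    have hy1 : y ≤ 1 := hy.2.trans (hδr.trans hr1)
    have b0 := (h y hy.1.le (hy.2.trans hδr)).1
    have b0' : |DD z y| ≤ C := b0.trans (by nlinarith)
    rw [Real.norm_eq_abs, abs_mul, abs_mul, abs_of_pos (chi_pos b y)]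
    have hc := chi_le_one b y
    have hc0 := (chi_pos b y).le
    calc chi b y * (|DD z y| * |z y|) ≤ 1 * (C * Z) := by
          have := hz1 y
          gcongr
      _ = C * Z := one_mul _
  rw [sub_zero, abs_of_pos hδ, Real.norm_eq_abs] at n1 n2
  have m1 := (abs_le.1 n1).2
  have m2 := (abs_le.1 n2).1
  have hfin : KK * δ ≤ ε / 2 := by
    calc KK * δ ≤ KK * (ε / (2 * KK)) := by gcongr
      _ = ε / 2 := by field_simp
  have : 120 * C ^ 2 * δ + K * δ + C * Z * δ ≤ KK * δ := by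
    rw [hKK]; nlinarith
  linarith

end Crest.Agent.R213.E
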