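import Crest.Agent.R213.E.LinDense

/-!
# Row 213, part E: the orthogonal complement of the range is zero
-/

set_option autoImplicit false

open Set MeasureTheory Filter Topology

noncomputable section

namespace Crest.Agent.R213.E

variable {n U : ℝ → ℝ} {n1 : ℝ}

/-- a fixed bump with nonzero first moment -/
theorem exists_bump : ∃ z0 : ℝ → ℝ, Continuous z0 ∧ HasCompactSupport z0 ∧ tsupport z0 ⊆ Ioi 0 ∧
    ∫ t in Ioi (0:ℝ), t * z0 t = 1 := by
  let B : ContDiffBump (2:ℝ) := ⟨1/2, 1, by norm_num, by norm_num⟩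
  have hts : tsupport B ⊆ Ioi 0 := by
    rw [B.tsupport_eq]
    intro x hx
    rw [Metric.mem_closedBall, Real.dist_eq, abs_le] at hx
    have : B.rOut = 1 := rfl
    rw [this] at hx
    simp only [mem_Ioi]; linarith [hx.1]
  have hcs : HasCompactSupport B := B.hasCompactSupport
  have hcont : Continuous B := B.continuous
  have hint : Integrable (fun t => t * B t) :=
    (continuous_id.mul hcont).integrable_of_hasCompactSupport hcs.mul_left
  set m := ∫ t in Ioi (0:ℝ), t * B t with hm
  have hmpos : 0 < m := by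
    have h1 : ∫ t in Icc (3/2:ℝ) (5/2), (3/2 : ℝ) ≤ ∫ t in Icc (3/2:ℝ) (5/2), t * B t := by
      refine setIntegral_mono_on (by simp) hint.integrableOn measurableSet_Icc fun t ht => ?_
      have : B t = 1 := B.one_of_mem_closedBall (by
        rw [Metric.mem_closedBall, Real.dist_eq, abs_le]
        have : B.rIn = 1/2 := rfl
        rw [this]
        constructor <;> linarith [ht.1, ht.2])
      rw [this, mul_one]; exact ht.1
    have h2 : ∫ t in Icc (3/2:ℝ) (5/2), t * B t ≤ m := by
      refine setIntegral_mono_set hint.integrableOn ?_ ?_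
      · refine (ae_restrict_iff' measurableSet_Ioi).2 (Eventually.of_forall fun t ht => ?_)
        exact mul_nonneg (le_of_lt ht) B.nonneg
      · exact LE.le.eventuallyLE (fun t ht => by
          simp only [mem_Ioi]; linarith [ht.1])
    have h3 : ∫ t in Icc (3/2:ℝ) (5/2), (3/2 : ℝ) = 3/2 := by
      simp; norm_num
    linarith
  refine ⟨fun t => m⁻¹ * B t, continuous_const.mul hcont, hcs.mul_left, ?_, ?_⟩
  · refine (closure_mono ?_).trans hts
    intro t ht
    simp only [Function.mem_support] at ht ⊢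
    exact right_ne_zero_of_mul ht
  · have : ∀ t : ℝ, t * (m⁻¹ * B t) = m⁻¹ * (t * B t) := fun t => by ring
    simp only [this]
    rw [integral_const_mul, ← hm, inv_mul_cancel₀ hmpos.ne']

theorem orth_zero (hn : Measurable n) (hn0 : ∀ y, 0 < y → 0 ≤ n y)
    (hn1 : ∀ y, 0 < y → n y ≤ n1) (hUm : Measurable U) (hU : ∀ T, IntegrableOn U (Ioc 0 T))
    (horth : ∀ z, Adm z → ∫ y in Ioi (0:ℝ), U y * (z y + n y * DD z y) = 0)
    (hgrow : ∀ A : ℝ, 0 < A → ¬ ∀ᵐ t, 0 < t → A * t ≤ |U t|) : ∀ᵐ t, 0 < t → U t = 0 := by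
  have hn1' : 0 ≤ n1 := (hn0 1 one_pos).trans (hn1 1 one_pos)
  set φ : ℝ → ℝ := fun t => U t - VG n U t with hφ
  -- integrability of φ
  have hφi : ∀ T, IntegrableOn φ (Ioc 0 T) := by
    intro T
    refine (hU T).sub ?_
    refine Measure.integrableOn_of_bounded (M := T / 11 * n1 * ∫ y in Ioc 0 T, |U y|) (by simp)
      (VG_meas hn hUm).aestronglyMeasurable ?_
    refine (ae_restrict_iff' measurableSet_Ioc).2 (Eventually.of_forall fun t ht => ?_)
    rw [Real.norm_eq_abs]
    exact VG_bound hn0 hn1 hU ht.1 ht.2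
  have hmulint : ∀ f : ℝ → ℝ, (∀ T, IntegrableOn f (Ioc 0 T)) → ∀ z : ℝ → ℝ, Continuous z →
      HasCompactSupport z → IntegrableOn (fun t => z t * f t) (Ioi 0) := by
    intro f hf z hzc hzs
    obtain ⟨Z, hZ⟩ := hzc.bounded_above_of_compact_support hzs
    obtain ⟨R, hR⟩ := hzs.isCompact.bddAbove
    have hz0 : ∀ t, R < t → z t = 0 := fun t ht => image_eq_zero_of_notMem_tsupport fun h =>
      absurd (hR h) (not_le.2 ht)
    have h1 : IntegrableOn (fun t => z t * f t) (Ioc 0 (max R 1)) :=
      (hf _).bdd_mul hzc.aestronglyMeasurable (Eventually.of_forall hZ)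
    have h2 : IntegrableOn (fun t => z t * f t) (Ioi (max R 1)) := by
      refine (integrableOn_zero).congr_fun (fun y hy => ?_) measurableSet_Ioi
      have : R < y := lt_of_le_of_lt (le_max_left _ _) hy
      rw [hz0 y this, zero_mul]
    have := h1.union h2
    rwa [Ioc_union_Ioi_eq_Ioi (by positivity)] at this
  -- orthogonality
  have h1 : ∀ z, Adm z → ∫ t in Ioi (0:ℝ), z t * φ t = 0 := by
    intro z hz
    obtain ⟨f1, f2, f3⟩ := fub hn hn0 hn1 hUm hU hz
    have hUz : IntegrableOn (fun t => z t * U t) (Ioi 0) := hmulint U hU z hz.cont hz.supp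
    have h := horth z hz
    have e : ∀ y, U y * (z y + n y * DD z y) = z y * U y + U y * (n y * DD z y) := fun y => by ring
    simp only [e] at h
    rw [integral_add hUz f2, f3] at h
    have e2 : ∀ t, z t * φ t = z t * U t - VG n U t * z t := fun t => by simp only [hφ]; ring
    simp only [e2]
    rw [integral_sub hUz f1]
    linarith
  obtain ⟨z0, hz0c, hz0s, hz0p, hz0m⟩ := exists_bump
  set A := ∫ t in Ioi (0:ℝ), z0 t * φ t with hA
  have htint : ∀ T : ℝ, IntegrableOn (fun t : ℝ => t) (Ioc 0 T) := fun T =>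
    (continuous_id.integrableOn_Icc (a := 0) (b := T)).mono_set Ioc_subset_Icc_self
  have h2 : ∀ ζ : ℝ → ℝ, Continuous ζ → HasCompactSupport ζ → tsupport ζ ⊆ Ioi 0 →
      ∫ t in Ioi (0:ℝ), ζ t * (φ t - A * t) = 0 := by
    intro ζ hζc hζs hζp
    set m := ∫ t in Ioi (0:ℝ), t * ζ t with hm
    have ih : IntegrableOn (fun t => t * ζ t) (Ioi 0) := by
      have := hmulint (fun t => t) htint ζ hζc hζs
      exact this.congr_fun (fun t _ => by ring) measurableSet_Ioi
    have ih0 : IntegrableOn (fun t => t * z0 t) (Ioi 0) := by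
      have := hmulint (fun t => t) htint z0 hz0c hz0s
      exact this.congr_fun (fun t _ => by ring) measurableSet_Ioi
    have hadm : Adm (fun t => ζ t - m * z0 t) := by
      refine ⟨hζc.sub (continuous_const.mul hz0c), hζs.sub hz0s.mul_left, ?_, ?_⟩
      · refine (tsupport_sub _ _).trans (union_subset hζp ?_)
        refine (closure_mono ?_).trans hz0p
        intro t ht
        simp only [Function.mem_support] at ht ⊢
        exact right_ne_zero_of_mul ht
      · have e : ∀ t, t * (ζ t - m * z0 t) = t * ζ t - m * (t * z0 t) := fun t => by ring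
        simp only [e]
        rw [integral_sub ih (ih0.const_mul m), integral_const_mul, hz0m, ← hm]; ring
    have h := h1 _ hadm
    have i1 : IntegrableOn (fun t => ζ t * φ t) (Ioi 0) := hmulint φ hφi ζ hζc hζs
    have i2 : IntegrableOn (fun t => z0 t * φ t) (Ioi 0) := hmulint φ hφi z0 hz0c hz0s
    have e : ∀ t, (ζ t - m * z0 t) * φ t = ζ t * φ t - m * (z0 t * φ t) := fun t => by ring
    simp only [e] at h
    rw [integral_sub i1 (i2.const_mul m), integral_const_mul, ← hA] at h
    have e' : ∀ t, ζ t * (φ t - A * t) = ζ t * φ t - A * (t * ζ t) := fun t => by ring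
    simp only [e']
    rw [integral_sub i1 (ih.const_mul A), integral_const_mul, ← hm]
    linarith
  have hloc : LocallyIntegrableOn (fun t => φ t - A * t) (Ioi 0) := by
    rw [locallyIntegrableOn_iff isOpen_Ioi.isLocallyClosed]
    intro k hk hkc
    obtain ⟨R, hR⟩ := hkc.bddAbove
    refine IntegrableOn.mono_set ((hφi R).sub ((htint R).const_mul A)) ?_
    exact fun t ht => ⟨hk ht, hR ht⟩
  have h3 : ∀ᵐ t, t ∈ Ioi (0:ℝ) → φ t - A * t = 0 := by
    refine isOpen_Ioi.ae_eq_zero_of_integral_contDiff_smul_eq_zero hloc ?_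
    intro g hg hgs hgp
    have := h2 g hg.continuous hgs hgp
    rw [← this]
    symm
    refine setIntegral_eq_integral_of_forall_compl_eq_zero fun t ht => ?_
    rw [image_eq_zero_of_notMem_tsupport (fun h => ht (hgp h)), zero_mul]
  have hVG : ∀ᵐ t, 0 < t → U t = A * t + VG n U t := by
    filter_upwards [h3] with t ht ht0
    have := ht ht0
    simp only [hφ] at this
    linarith
  -- sign argument
  have hsign : ∀ s : ℝ, s = 1 ∨ s = -1 → 0 ≤ s * A → (∀ᵐ t, 0 < t → 0 ≤ s * U t) ∧
      ∀ᵐ t, 0 < t → (s * A) * t ≤ s * U t := by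
    intro s hs hsA
    have hUs : ∀ T, IntegrableOn (fun t => s * U t) (Ioc 0 T) := fun T => (hU T).const_mul s
    have hV : ∀ t, VG n (fun t => s * U t) t = s * VG n U t := by
      intro t
      simp only [VG]
      rw [← integral_const_mul]
      congr 1
      funext y; ring
    have hpos : ∀ᵐ t, 0 < t → 0 ≤ s * U t := by
      refine vol_nonneg hn hn0 hn1 hUs ?_
      filter_upwards [hVG] with t ht ht0
      rw [hV, ht ht0]
      have : 0 ≤ s * A * t := by positivity
      nlinarith
    refine ⟨hpos, ?_⟩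
    filter_upwards [hVG] with t ht ht0
    have hnn : 0 ≤ s * VG n U t := by
      rw [← hV]
      refine integral_nonneg_of_ae ?_
      rw [EventuallyLE, ae_restrict_iff' measurableSet_Ioc]
      filter_upwards [hpos] with y hy hy'
      exact mul_nonneg (gk_nonneg hy'.1.le ht0) (mul_nonneg (hn0 y hy'.1) (hy hy'.1))
    rw [ht ht0]
    nlinarith
  have hA0 : A = 0 := by
    by_contra hne
    rcases lt_or_gt_of_ne hne with h | h
    · have := (hsign (-1) (Or.inr rfl) (by linarith)).2
      refine hgrow (-A) (by linarith) ?_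
      filter_upwards [this] with t ht ht0
      have h1 := ht ht0
      have h2 := neg_le_abs (U t)
      linarith
    · have := (hsign 1 (Or.inl rfl) (by linarith)).2
      refine hgrow A h ?_
      filter_upwards [this] with t ht ht0
      have h1 := ht ht0
      have h2 := le_abs_self (U t)
      linarith
  have p1 := (hsign 1 (Or.inl rfl) (by rw [hA0]; simp)).1
  have p2 := (hsign (-1) (Or.inr rfl) (by rw [hA0]; simp)).1
  filter_upwards [p1, p2] with t h1 h2 ht0
  have := h1 ht0
  have := h2 ht0
  linarith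

end Crest.Agent.R213.E
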