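import Crest.Agent.R213.E.LinSolve

/-!
# Row 213, part E: representation of solutions `D = κ y - ∫_0^y (y-s) s^9 Q(s) ds`
-/

set_option autoImplicit false

open Set MeasureTheory Filter Topology

noncomputable section

namespace Crest.Agent.R213.E

/-- weight -/
def wk (s : ℝ) : ℝ := (1 + s) ^ 6 * (√s)⁻¹

theorem wk_nonneg {s : ℝ} (hs : 0 ≤ s) : 0 ≤ wk s := by unfold wk; positivity

theorem wk_int {T : ℝ} (hT : 0 ≤ T) : IntervalIntegrable wk volume 0 T := by
  have h : IntervalIntegrable (fun x : ℝ => x ^ (-(1/2) : ℝ)) volume 0 T :=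
    intervalIntegral.intervalIntegrable_rpow' (by norm_num)
  have h2 : IntervalIntegrable (fun x : ℝ => (1 + x) ^ 6 * x ^ (-(1/2) : ℝ)) volume 0 T :=
    h.continuousOn_mul (by fun_prop)
  refine IntervalIntegrable.congr (fun s hs => ?_) h2
  rw [uIoc_of_le hT] at hs
  simp only [wk]
  rw [Real.rpow_neg hs.1.le, ← Real.sqrt_eq_rpow]

/-- `s^9 Q(s)` -/
def GG (z : ℝ → ℝ) (s : ℝ) : ℝ := s ^ 9 * QQ z s

def WW (y : ℝ) : ℝ := ∫ s in (0:ℝ)..y, wk s

def KK (z : ℝ → ℝ) (y : ℝ) : ℝ := y * (∫ s in (0:ℝ)..y, GG z s) - ∫ s in (0:ℝ)..y, s * GG z s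

/-- tail bound -/
structure TB (C : ℝ) (z : ℝ → ℝ) : Prop where
  int : ∀ y, 0 < y → IntegrableOn (fun t => (t ^ 10)⁻¹ * z t) (Ioi y)
  bd : ∀ y, 0 < y → |GG z y| ≤ C * wk y

theorem WW_nonneg {y : ℝ} (hy : 0 ≤ y) : 0 ≤ WW y :=
  intervalIntegral.integral_nonneg hy fun _ hs => wk_nonneg hs.1

theorem WW_mono {x y : ℝ} (hx : 0 ≤ x) (hxy : x ≤ y) : WW x ≤ WW y := by
  have h1 := wk_int hx
  have h3 := wk_int (hx.trans hxy)
  have h2 : IntervalIntegrable wk volume x y := h1.symm.trans h3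
  have := intervalIntegral.integral_add_adjacent_intervals h1 h2
  have h4 : 0 ≤ ∫ s in x..y, wk s := intervalIntegral.integral_nonneg hxy fun _ hs =>
    wk_nonneg (hx.trans hs.1)
  simp only [WW]
  linarith

namespace TB

variable {C C' : ℝ} {z w : ℝ → ℝ}

theorem congr (h : TB C z) (hzw : z =ᵐ[mu0] w) : TB C w := by
  have hae : ∀ y, 0 < y → z =ᵐ[volume.restrict (Ioi y)] w := fun y hy =>
    hzw.filter_mono (ae_mono (Measure.restrict_mono (Ioi_subset_Ioi hy.le) le_rfl))
  have hQ : ∀ y, 0 < y → QQ z y = QQ w y := fun y hy => by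
    refine integral_congr_ae ?_
    filter_upwards [hae y hy] with t ht
    rw [ht]
  refine ⟨fun y hy => ?_, fun y hy => ?_⟩
  · refine (h.int y hy).congr ?_
    filter_upwards [hae y hy] with t ht
    rw [ht]
  · have := h.bd y hy
    rwa [GG, hQ y hy] at this

theorem cont (h : TB C z) {y : ℝ} (hy : 0 < y) : ContinuousAt (QQ z) y := by
  have ha : 0 < y / 2 := by positivity
  have h1 : ∀ x, 0 < x → QQ z x = QQ z (y / 2) - ∫ t in (y/2)..x, (t ^ 10)⁻¹ * z t := by
    intro x hx
    have := intervalIntegral.integral_Ioi_sub_Ioi' (h.int _ ha) (h.int x hx)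
    simp only [QQ]
    linarith
  have hI : IntervalIntegrable (fun t => (t ^ 10)⁻¹ * z t) volume (y/2) (y+1) := by
    rw [intervalIntegrable_iff_integrableOn_Ioc_of_le (by linarith)]
    exact (h.int _ ha).mono_set Ioc_subset_Ioi_self
  have h2 : ContinuousOn (fun x => ∫ t in (y/2)..x, (t ^ 10)⁻¹ * z t) (uIcc (y/2) (y+1)) :=
    intervalIntegral.continuousOn_primitive_interval' hI left_mem_uIcc
  have h3 : ContinuousAt (fun x => ∫ t in (y/2)..x, (t ^ 10)⁻¹ * z t) y := by
    refine h2.continuousAt ?_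
    rw [uIcc_of_le (by linarith)]
    exact Icc_mem_nhds (by linarith) (by linarith)
  have h4 : ContinuousAt (fun x => QQ z (y / 2) - ∫ t in (y/2)..x, (t ^ 10)⁻¹ * z t) y :=
    continuousAt_const.sub h3
  refine h4.congr ?_
  filter_upwards [Ioi_mem_nhds hy] with x hx
  exact (h1 x hx).symm

theorem GG_cont (h : TB C z) : ContinuousOn (GG z) (Ioi 0) := fun y hy =>
  ((continuousAt_id.pow 9).mul (h.cont hy)).continuousWithinAt

theorem GG_int (h : TB C z) {y : ℝ} (hy : 0 ≤ y) : IntervalIntegrable (GG z) volume 0 y := by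
  have h1 := (wk_int hy).const_mul C
  rw [intervalIntegrable_iff_integrableOn_Ioc_of_le hy] at h1 ⊢
  refine Integrable.mono' h1 ?_ ?_
  · exact (h.GG_cont.mono fun s hs => hs.1).aestronglyMeasurable measurableSet_Ioc
  · refine (ae_restrict_iff' measurableSet_Ioc).2 (Eventually.of_forall fun s hs => ?_)
    exact h.bd s hs.1

theorem sGG_int (h : TB C z) {y : ℝ} (hy : 0 ≤ y) :
    IntervalIntegrable (fun s => s * GG z s) volume 0 y :=
  (h.GG_int hy).continuousOn_mul (by fun_prop)

theorem KK_bd (h : TB C z) {y : ℝ} (hy : 0 ≤ y) : |KK z y| ≤ C * (y * WW y) := by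
  have e : KK z y = ∫ s in (0:ℝ)..y, (y - s) * GG z s := by
    rw [KK, ← intervalIntegral.integral_const_mul,
      ← intervalIntegral.integral_sub ((h.GG_int hy).const_mul y) (h.sGG_int hy)]
    congr 1; funext s; ring
  have e2 : C * (y * WW y) = ∫ s in (0:ℝ)..y, (C * y) * wk s := by
    rw [intervalIntegral.integral_const_mul, WW]; ring
  rw [e, e2, ← Real.norm_eq_abs]
  refine intervalIntegral.norm_integral_le_of_norm_le hy ?_ ((wk_int hy).const_mul _)
  refine Eventually.of_forall fun s hs => ?_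
  rw [Real.norm_eq_abs, abs_mul, abs_of_nonneg (by linarith [hs.2] : 0 ≤ y - s)]
  have h1 := h.bd s hs.1
  have h2 : 0 ≤ C * wk s := (abs_nonneg _).trans h1
  calc (y - s) * |GG z s| ≤ y * (C * wk s) := by
        refine mul_le_mul (by linarith [hs.1]) h1 (abs_nonneg _) hy
    _ = C * y * wk s := by ring

theorem QQ_sub (hz : TB C z) (hw : TB C' w) {y : ℝ} (hy : 0 < y) :
    QQ (fun t => z t - w t) y = QQ z y - QQ w y := by
  simp only [QQ]
  rw [← integral_sub (hz.int y hy) (hw.int y hy)]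
  congr 1; funext t; ring

theorem GG_sub (hz : TB C z) (hw : TB C' w) {y : ℝ} (hy : 0 < y) :
    GG (fun t => z t - w t) y = GG z y - GG w y := by
  simp only [GG]; rw [QQ_sub hz hw hy]; ring

theorem KK_sub (hz : TB C z) (hw : TB C' w) {y : ℝ} (hy : 0 ≤ y) :
    KK (fun t => z t - w t) y = KK z y - KK w y := by
  have e1 : ∫ s in (0:ℝ)..y, GG (fun t => z t - w t) s =
      (∫ s in (0:ℝ)..y, GG z s) - ∫ s in (0:ℝ)..y, GG w s := by
    rw [← intervalIntegral.integral_sub (hz.GG_int hy) (hw.GG_int hy)]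
    refine intervalIntegral.integral_congr_ae (Eventually.of_forall fun s hs => ?_)
    rw [uIoc_of_le hy] at hs
    exact GG_sub hz hw hs.1
  have e2 : ∫ s in (0:ℝ)..y, s * GG (fun t => z t - w t) s =
      (∫ s in (0:ℝ)..y, s * GG z s) - ∫ s in (0:ℝ)..y, s * GG w s := by
    rw [← intervalIntegral.integral_sub (hz.sGG_int hy) (hw.sGG_int hy)]
    refine intervalIntegral.integral_congr_ae (Eventually.of_forall fun s hs => ?_)
    rw [uIoc_of_le hy] at hs
    show s * GG (fun t => z t - w t) s = s * GG z s - s * GG w s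
    rw [GG_sub hz hw hs.1]; ring
  simp only [KK]
  rw [e1, e2]; ring

end TB

theorem QQ_congr {z w : ℝ → ℝ} (hzw : z =ᵐ[mu0] w) {y : ℝ} (hy : 0 < y) : QQ z y = QQ w y := by
  refine integral_congr_ae ?_
  have hae : z =ᵐ[volume.restrict (Ioi y)] w :=
    hzw.filter_mono (ae_mono (Measure.restrict_mono (Ioi_subset_Ioi hy.le) le_rfl))
  filter_upwards [hae] with t ht
  rw [ht]

theorem KK_congr {z w : ℝ → ℝ} (hzw : z =ᵐ[mu0] w) {y : ℝ} (hy : 0 ≤ y) : KK z y = KK w y := by
  have e1 : ∫ s in (0:ℝ)..y, GG z s = ∫ s in (0:ℝ)..y, GG w s := by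
    refine intervalIntegral.integral_congr_ae (Eventually.of_forall fun s hs => ?_)
    rw [uIoc_of_le hy] at hs
    simp only [GG]; rw [QQ_congr hzw hs.1]
  have e2 : ∫ s in (0:ℝ)..y, s * GG z s = ∫ s in (0:ℝ)..y, s * GG w s := by
    refine intervalIntegral.integral_congr_ae (Eventually.of_forall fun s hs => ?_)
    rw [uIoc_of_le hy] at hs
    simp only [GG]; rw [QQ_congr hzw hs.1]
  simp only [KK]
  rw [e1, e2]

/-- representation from the bound -/
theorem rep_of_TB {C κ : ℝ} {z : ℝ → ℝ} (h : TB C z) :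
    Rep κ z (fun y => κ * y - KK z y) (fun y => κ - ∫ s in (0:ℝ)..y, GG z s) where
  int := h.int
  hD := by
    intro y hy
    have h1 : HasDerivAt (fun u => ∫ s in (0:ℝ)..u, GG z s) (GG z y) y :=
      intervalIntegral.integral_hasDerivAt_right (h.GG_int hy.le)
        (h.GG_cont.stronglyMeasurableAtFilter isOpen_Ioi y hy)
        (h.GG_cont.continuousAt (Ioi_mem_nhds hy))
    have h2c : ContinuousOn (fun s => s * GG z s) (Ioi 0) := continuousOn_id.mul h.GG_cont
    have h2 : HasDerivAt (fun u => ∫ s in (0:ℝ)..u, s * GG z s) (y * GG z y) y :=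
      intervalIntegral.integral_hasDerivAt_right (h.sGG_int hy.le)
        (h2c.stronglyMeasurableAtFilter isOpen_Ioi y hy)
        (h2c.continuousAt (Ioi_mem_nhds hy))
    have h3 := ((hasDerivAt_id y).const_mul κ).sub (((hasDerivAt_id y).mul h1).sub h2)
    refine (h3.congr_deriv ?_)
    simp only [id]; ring
  hD1 := by
    intro y hy
    have h1 : HasDerivAt (fun u => ∫ s in (0:ℝ)..u, GG z s) (GG z y) y :=
      intervalIntegral.integral_hasDerivAt_right (h.GG_int hy.le)
        (h.GG_cont.stronglyMeasurableAtFilter isOpen_Ioi y hy)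
        (h.GG_cont.continuousAt (Ioi_mem_nhds hy))
    exact h1.const_sub κ
  lim0 := by
    have c1 : ContinuousOn (fun u => ∫ s in (0:ℝ)..u, GG z s) (uIcc 0 1) :=
      intervalIntegral.continuousOn_primitive_interval' (h.GG_int zero_le_one) left_mem_uIcc
    have c2 : ContinuousOn (fun u => ∫ s in (0:ℝ)..u, s * GG z s) (uIcc 0 1) :=
      intervalIntegral.continuousOn_primitive_interval' (h.sGG_int zero_le_one) left_mem_uIcc
    have c3 : ContinuousOn (fun y => κ * y - KK z y) (uIcc 0 1) := by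
      unfold KK
      fun_prop
    have := c3 0 left_mem_uIcc
    rw [uIcc_of_le zero_le_one] at this
    have h2 : Tendsto (fun y => κ * y - KK z y) (𝓝[>] 0) (𝓝 (κ * 0 - KK z 0)) := by
      refine (this.tendsto).mono_left ?_
      have : Icc (0:ℝ) 1 ∈ 𝓝[>] (0:ℝ) := by
        filter_upwards [Ioo_mem_nhdsGT (zero_lt_one : (0:ℝ) < 1)] with t ht
        exact ⟨ht.1.le, ht.2.le⟩
      exact nhdsWithin_le_iff.2 this
    simpa [KK] using h2
  lim1 := by
    have c1 : ContinuousOn (fun u => ∫ s in (0:ℝ)..u, GG z s) (uIcc 0 1) :=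
      intervalIntegral.continuousOn_primitive_interval' (h.GG_int zero_le_one) left_mem_uIcc
    have c3 : ContinuousOn (fun y => κ - ∫ s in (0:ℝ)..y, GG z s) (uIcc 0 1) := by
      fun_prop
    have := c3 0 left_mem_uIcc
    rw [uIcc_of_le zero_le_one] at this
    have h2 : Tendsto (fun y => κ - ∫ s in (0:ℝ)..y, GG z s) (𝓝[>] 0)
        (𝓝 (κ - ∫ s in (0:ℝ)..0, GG z s)) := by
      refine (this.tendsto).mono_left ?_
      have : Icc (0:ℝ) 1 ∈ 𝓝[>] (0:ℝ) := by
        filter_upwards [Ioo_mem_nhdsGT (zero_lt_one : (0:ℝ) < 1)] with t ht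
        exact ⟨ht.1.le, ht.2.le⟩
      exact nhdsWithin_le_iff.2 this
    simpa using h2

/-- representation of test functions -/
theorem DD_rep {z : ℝ → ℝ} (hz : Adm z) {y : ℝ} (hy : 0 ≤ y) :
    DD z y = ((1 / 10) * ∫ t in Ioi (0:ℝ), z t) * y - KK z y := by
  set κ := (1 / 10) * ∫ t in Ioi (0:ℝ), z t with hκ
  have hG : ∀ s, DD2 z s = -GG z s := fun s => rfl
  have hGc : Continuous (GG z) := by
    have : GG z = fun s => -DD2 z s := by funext s; rw [hG]; ring
    rw [this]; exact (DD2_cont hz).neg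
  have h1 : ∀ x, 0 ≤ x → DD1 z x = κ - ∫ s in (0:ℝ)..x, GG z s := by
    intro x hx
    have := intervalIntegral.integral_eq_sub_of_hasDeriv_right_of_le hx (DD1_cont hz).continuousOn
      (fun s hs => (DD1_hasDeriv hz hs.1).hasDerivWithinAt) ((DD2_cont hz).intervalIntegrable 0 x)
    have e0 : DD1 z 0 = κ := by simp [DD1, hκ]
    have e1 : ∫ s in (0:ℝ)..x, DD2 z s = - ∫ s in (0:ℝ)..x, GG z s := by
      rw [← intervalIntegral.integral_neg]; rfl
    linarith
  have hI : Continuous (fun u => ∫ s in (0:ℝ)..u, GG z s) :=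
    continuous_iff_continuousAt.2 fun u =>
      (intervalIntegral.integral_hasDerivAt_right (hGc.intervalIntegrable 0 u)
        hGc.aestronglyMeasurable.stronglyMeasurableAtFilter hGc.continuousAt).continuousAt
  have hI1 : ∀ u, HasDerivAt (fun u => ∫ s in (0:ℝ)..u, GG z s) (GG z u) u := fun u =>
      (intervalIntegral.integral_hasDerivAt_right (hGc.intervalIntegrable 0 u)
        hGc.aestronglyMeasurable.stronglyMeasurableAtFilter hGc.continuousAt)
  have hsG : Continuous (fun s => s * GG z s) := continuous_id.mul hGc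
  have hI2 : ∀ u, HasDerivAt (fun u => ∫ s in (0:ℝ)..u, s * GG z s) (u * GG z u) u := fun u =>
      (intervalIntegral.integral_hasDerivAt_right (hsG.intervalIntegrable 0 u)
        hsG.aestronglyMeasurable.stronglyMeasurableAtFilter hsG.continuousAt)
  have hd : ∀ u, 0 < u → HasDerivAt (fun y => DD z y - (κ * y - KK z y)) 0 u := by
    intro u hu
    have h3 := (DD_hasDeriv hz hu).sub
      (((hasDerivAt_id u).const_mul κ).sub (((hasDerivAt_id u).mul (hI1 u)).sub (hI2 u)))
    refine (h3.congr_deriv ?_)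
    rw [h1 u hu.le]
    simp only [id]; ring
  have hc : Continuous (fun y => DD z y - (κ * y - KK z y)) := by
    have c1 := DD_cont hz
    have c2 : Continuous (fun u => ∫ s in (0:ℝ)..u, s * GG z s) :=
      continuous_iff_continuousAt.2 fun u => (hI2 u).continuousAt
    unfold KK
    fun_prop
  have := intervalIntegral.integral_eq_sub_of_hasDeriv_right_of_le hy hc.continuousOn
      (fun s hs => (hd s hs.1).hasDerivWithinAt) (by simp)
  have e0 : DD z 0 = 0 := by
    obtain ⟨K, hK, h⟩ := DD_lin_bound hz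
    have := h 0 le_rfl
    rw [mul_zero] at this
    exact abs_eq_zero.1 (le_antisymm this (abs_nonneg _))
  simp only [intervalIntegral.integral_zero, e0, KK, intervalIntegral.integral_same] at this
  simp only [KK]
  linarith

end Crest.Agent.R213.E
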