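import Crest.Agent.R213.E.LinRep

/-!
# Row 213, part E: representation of the limits of test pairs
-/

set_option autoImplicit false

open Set MeasureTheory Filter Topology

noncomputable section

namespace Crest.Agent.R213.E

theorem HH_norm_sq (f : HH) : ‖f‖ ^ 2 = ∫ y, (f y) ^ 2 ∂mu0 := by
  rw [← real_inner_self_eq_norm_sq, L2.inner_def]
  refine integral_congr_ae (Eventually.of_forall fun y => ?_)
  simp only [RCLike.inner_apply, conj_trivial]
  ring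

theorem toLp_norm_sq {g : ℝ → ℝ} (hg : MemLp g 2 mu0) : ‖(hg.toLp g : HH)‖ ^ 2 = ∫ y, (g y) ^ 2 ∂mu0 := by
  rw [HH_norm_sq]
  refine integral_congr_ae ?_
  filter_upwards [hg.coeFn_toLp] with y hy
  rw [hy]

/-- Cauchy–Schwarz -/
theorem HH_cs {k : ℝ → ℝ} (hk : MemLp k 2 mu0) {A : ℝ} (hA : 0 ≤ A) (hkA : ∫ y, (k y) ^ 2 ∂mu0 ≤ A ^ 2)
    (g : HH) : Integrable (fun t => |k t| * |g t|) mu0 ∧ ∫ t, |k t| * |g t| ∂mu0 ≤ A * ‖g‖ := by
  set K : HH := |(hk.toLp k : HH)| with hK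
  set G : HH := |g| with hG
  have hKn : ‖K‖ ≤ A := by
    rw [hK, norm_abs_eq_norm]
    have := toLp_norm_sq hk
    exact abs_le_of_sq_le_sq' (by rw [this]; exact hkA) hA |>.2
  have hGn : ‖G‖ = ‖g‖ := by rw [hG, norm_abs_eq_norm]
  have hKc : (K : ℝ → ℝ) =ᵐ[mu0] fun t => |k t| := by
    filter_upwards [Lp.coeFn_abs (hk.toLp k : HH), hk.coeFn_toLp] with t h1 h2
    rw [hK, h1, h2]
  have hGc : (G : ℝ → ℝ) =ᵐ[mu0] fun t => |g t| := by
    filter_upwards [Lp.coeFn_abs g] with t h1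
    rw [hG, h1]
  have hI := L2.integrable_inner (𝕜 := ℝ) K G
  have hae : (fun t => inner ℝ (K t) (G t)) =ᵐ[mu0] fun t => |k t| * |g t| := by
    filter_upwards [hKc, hGc] with t h1 h2
    rw [h1, h2]
    simp only [RCLike.inner_apply, conj_trivial]
    ring
  refine ⟨hI.congr hae, ?_⟩
  rw [← integral_congr_ae hae, ← L2.inner_def]
  refine (real_inner_le_norm K G).trans ?_
  rw [hGn]
  exact mul_le_mul_of_nonneg_right hKn (norm_nonneg _)

theorem tail8 {y : ℝ} (hy : 0 < y) : IntegrableOn (fun t : ℝ => (t ^ 8)⁻¹) (Ioi y) ∧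
    ∫ t in Ioi y, (t ^ 8)⁻¹ = (y ^ 7)⁻¹ / 7 := by
  have h1 := integrableOn_Ioi_rpow_of_lt (a := -8) (c := y) (by norm_num) hy
  have h2 := integral_Ioi_rpow_of_lt (a := -8) (by norm_num) hy
  have e : ∀ t ∈ Ioi y, t ^ (-8 : ℝ) = (t ^ 8)⁻¹ := by
    intro t ht
    have ht0 : 0 ≤ t := hy.le.trans (le_of_lt ht)
    rw [show (-8 : ℝ) = -((8 : ℕ) : ℝ) by norm_num, Real.rpow_neg ht0, Real.rpow_natCast]
  refine ⟨h1.congr_fun e measurableSet_Ioi, ?_⟩
  rw [← setIntegral_congr_fun measurableSet_Ioi e, h2]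
  rw [show ((-8 : ℝ) + 1) = -((7 : ℕ) : ℝ) by norm_num, Real.rpow_neg hy.le, Real.rpow_natCast]
  norm_num

theorem k_bound {y : ℝ} (hy : 0 < y) :
    IntegrableOn (fun t => ((t ^ 10)⁻¹ * (1 + t) ^ 6) ^ 2) (Ioi y) ∧
    ∫ t in Ioi y, ((t ^ 10)⁻¹ * (1 + t) ^ 6) ^ 2 ≤ ((1 + y) ^ 6 * (y ^ 9 * √y)⁻¹) ^ 2 := by
  obtain ⟨h1, h2⟩ := tail8 hy
  have hb : ∀ t ∈ Ioi y, ((t ^ 10)⁻¹ * (1 + t) ^ 6) ^ 2 ≤ ((1 + y) / y) ^ 12 * (t ^ 8)⁻¹ := by
    intro t ht
    have ht' : y < t := ht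
    have ht0 : 0 < t := hy.trans ht
    have e : ((t ^ 10)⁻¹ * (1 + t) ^ 6) ^ 2 = ((1 + t) / t) ^ 12 * (t ^ 8)⁻¹ := by
      field_simp
    rw [e]
    have : (1 + t) / t ≤ (1 + y) / y := by
      rw [div_le_div_iff₀ ht0 hy]; nlinarith
    gcongr
  have hi : IntegrableOn (fun t => ((t ^ 10)⁻¹ * (1 + t) ^ 6) ^ 2) (Ioi y) := by
    refine Integrable.mono' (h1.const_mul (((1 + y) / y) ^ 12)) ?_ ?_
    · exact Measurable.aestronglyMeasurable (by fun_prop)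
    · refine (ae_restrict_iff' measurableSet_Ioi).2 (Eventually.of_forall fun t ht => ?_)
      rw [Real.norm_of_nonneg (sq_nonneg _)]
      exact hb t ht
  refine ⟨hi, ?_⟩
  calc ∫ t in Ioi y, ((t ^ 10)⁻¹ * (1 + t) ^ 6) ^ 2
      ≤ ∫ t in Ioi y, ((1 + y) / y) ^ 12 * (t ^ 8)⁻¹ :=
        setIntegral_mono_on hi (h1.const_mul _) measurableSet_Ioi hb
    _ = ((1 + y) / y) ^ 12 * ((y ^ 7)⁻¹ / 7) := by rw [integral_const_mul, h2]
    _ ≤ ((1 + y) / y) ^ 12 * ((y ^ 7)⁻¹) := by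
        gcongr
        have : 0 < (y ^ 7)⁻¹ := by positivity
        linarith
    _ = ((1 + y) ^ 6 * (y ^ 9 * √y)⁻¹) ^ 2 := by
        have hs : √y ^ 2 = y := Real.sq_sqrt hy.le
        have hs0 : 0 < √y := Real.sqrt_pos.2 hy
        field_simp
        rw [hs]

/-- the right-hand side `z = f̂/q - n û/p` -/
def ZZ (b : ℝ) (n p u w : ℝ → ℝ) (t : ℝ) : ℝ := w t / (chi b t / p t) - n t * (u t / p t)

variable {b n1 cq Cq : ℝ} {n p : ℝ → ℝ}

def C1 (b n1 cq Cq : ℝ) : ℝ := 1 / cq + n1 * (Cq * (1 + 1 / b ^ 2) ^ 3)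

theorem WData.inv_p_le (hW : WData b n1 cq Cq n p) {y : ℝ} (hy : 0 < y) :
    1 / p y ≤ Cq * (1 + 1 / b ^ 2) ^ 3 * (1 + y) ^ 6 := by
  have hc := chi_pos b y
  have hp := hW.p_pos y hy
  have h := hW.q_up y hy
  have hb := hW.b_pos
  have hCq := hW.Cq_pos
  have e : 1 / p y = (chi b y / p y) * (1 / chi b y) := by field_simp
  have e2 : 1 / chi b y = (1 + y ^ 2 / b ^ 2) ^ 3 := by
    simp only [chi, uu]
    rw [inv_pow, one_div, inv_inv]
  have e3 : 1 + y ^ 2 / b ^ 2 ≤ (1 + 1 / b ^ 2) * (1 + y) ^ 2 := by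
    have h1 : 0 < 1 / b ^ 2 := by positivity
    have : y ^ 2 / b ^ 2 = y ^ 2 * (1 / b ^ 2) := by ring
    rw [this]
    nlinarith [mul_pos h1 hy, sq_nonneg y]
  rw [e, e2]
  calc chi b y / p y * (1 + y ^ 2 / b ^ 2) ^ 3 ≤ Cq * ((1 + 1 / b ^ 2) * (1 + y) ^ 2) ^ 3 := by
        have h0 : 0 ≤ chi b y / p y := (div_pos hc hp).le
        gcongr
    _ = Cq * (1 + 1 / b ^ 2) ^ 3 * (1 + y) ^ 6 := by ring

theorem WData.C1_nonneg (hW : WData b n1 cq Cq n p) : 0 ≤ C1 b n1 cq Cq := by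
  have := hW.cq_pos
  have := hW.Cq_pos
  have := hW.n1_nonneg
  unfold C1; positivity

theorem ZZ_bound (hW : WData b n1 cq Cq n p) (u w : ℝ → ℝ) {t : ℝ} (ht : 0 < t) :
    |ZZ b n p u w t| ≤ C1 b n1 cq Cq * ((1 + t) ^ 6 * |u t| + (1 + t) ^ 6 * |w t|) := by
  have hq := hW.q_pos ht
  have hp := hW.p_pos t ht
  have h1 : |w t / (chi b t / p t)| ≤ (1 / cq) * ((1 + t) ^ 6 * |w t|) := by
    rw [abs_div, abs_of_pos hq, div_eq_mul_inv, inv_div]
    have h2 := hW.inv_q_le ht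
    have hcq := hW.cq_pos
    calc |w t| * (p t / chi b t) ≤ |w t| * ((1 + t) ^ 3 / cq) := by gcongr
      _ ≤ |w t| * ((1 + t) ^ 6 / cq) := by
        gcongr
        · linarith
        · norm_num
      _ = (1 / cq) * ((1 + t) ^ 6 * |w t|) := by ring
  have h2 : |n t * (u t / p t)| ≤ n1 * (Cq * (1 + 1 / b ^ 2) ^ 3) * ((1 + t) ^ 6 * |u t|) := by
    rw [abs_mul, abs_of_nonneg (hW.n_nonneg t ht), abs_div, abs_of_pos hp]
    have h3 := hW.inv_p_le ht
    have h4 := hW.n_le t ht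
    have h5 := hW.n_nonneg t ht
    have h6 := hW.n1_nonneg
    calc n t * (|u t| / p t) = n t * (|u t| * (1 / p t)) := by ring
      _ ≤ n1 * (|u t| * (Cq * (1 + 1 / b ^ 2) ^ 3 * (1 + t) ^ 6)) := by gcongr
      _ = _ := by ring
  have hCq := hW.Cq_pos
  have hcq := hW.cq_pos
  have h6 := hW.n1_nonneg
  have a1 : 0 ≤ (1 / cq) * ((1 + t) ^ 6 * |u t|) := by positivity
  have a2 : 0 ≤ n1 * (Cq * (1 + 1 / b ^ 2) ^ 3) * ((1 + t) ^ 6 * |w t|) := by positivity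
  refine (abs_sub' _ _).trans ?_
  unfold C1
  nlinarith

theorem ZZ_meas (hW : WData b n1 cq Cq n p) {u w : ℝ → ℝ} (hu : Measurable u) (hw : Measurable w) :
    Measurable (ZZ b n p u w) := by
  unfold ZZ
  exact (hw.div hW.q_meas).sub (hW.n_meas.mul (hu.div hW.p_meas))

theorem HH_meas (f : HH) : Measurable (f : ℝ → ℝ) := (Lp.stronglyMeasurable f).measurable

theorem TB_ZZ (hW : WData b n1 cq Cq n p) (v : HH × HH) :
    TB (C1 b n1 cq Cq * (‖v.1‖ + ‖v.2‖)) (ZZ b n p v.1 v.2) := by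
  have hC := hW.C1_nonneg
  have key : ∀ y, 0 < y → IntegrableOn (fun t => (t ^ 10)⁻¹ * ZZ b n p v.1 v.2 t) (Ioi y) ∧
      |QQ (ZZ b n p v.1 v.2) y| ≤ C1 b n1 cq Cq * (((1 + y) ^ 6 * (y ^ 9 * √y)⁻¹) * ‖v.1‖ +
        ((1 + y) ^ 6 * (y ^ 9 * √y)⁻¹) * ‖v.2‖) := by
    intro y hy
    obtain ⟨k1, k2⟩ := k_bound hy
    set k : ℝ → ℝ := (Ioi y).indicator (fun t => (t ^ 10)⁻¹ * (1 + t) ^ 6) with hk
    have hkm : Measurable k := Measurable.indicator (by fun_prop) measurableSet_Ioi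
    have hk2 : (fun t => k t ^ 2) = (Ioi y).indicator (fun t => ((t ^ 10)⁻¹ * (1 + t) ^ 6) ^ 2) := by
      funext t
      by_cases h : t ∈ Ioi y
      · simp [hk, h]
      · simp [hk, h]
    have hki : Integrable (fun t => k t ^ 2) mu0 := by
      rw [hk2, integrable_indicator_iff measurableSet_Ioi]
      have : IntegrableOn (fun t => ((t ^ 10)⁻¹ * (1 + t) ^ 6) ^ 2) (Ioi y) mu0 := by
        rw [IntegrableOn, Measure.restrict_restrict measurableSet_Ioi,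
          inter_eq_self_of_subset_left (Ioi_subset_Ioi hy.le)]
        exact k1
      exact this
    have hkL : MemLp k 2 mu0 := (memLp_two_iff_integrable_sq hkm.aestronglyMeasurable).2 hki
    have hkv : ∫ t, k t ^ 2 ∂mu0 ≤ ((1 + y) ^ 6 * (y ^ 9 * √y)⁻¹) ^ 2 := by
      rw [hk2, integral_indicator measurableSet_Ioi, Measure.restrict_restrict measurableSet_Ioi,
          inter_eq_self_of_subset_left (Ioi_subset_Ioi hy.le)]
      exact k2
    have hA : 0 ≤ (1 + y) ^ 6 * (y ^ 9 * √y)⁻¹ := by positivity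
    obtain ⟨i1, j1⟩ := HH_cs hkL hA hkv v.1
    obtain ⟨i2, j2⟩ := HH_cs hkL hA hkv v.2
    have hdom : Integrable (fun t => C1 b n1 cq Cq * (|k t| * |v.1 t| + |k t| * |v.2 t|)) mu0 :=
      (i1.add i2).const_mul _
    have hm := ZZ_meas hW (HH_meas v.1) (HH_meas v.2)
    have hle : ∀ t, 0 < t → ‖(Ioi y).indicator (fun t => (t ^ 10)⁻¹ * ZZ b n p v.1 v.2 t) t‖ ≤
        C1 b n1 cq Cq * (|k t| * |v.1 t| + |k t| * |v.2 t|) := by
      intro t ht
      by_cases h : t ∈ Ioi y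
      · rw [indicator_of_mem h, hk, indicator_of_mem h, norm_mul,
          Real.norm_of_nonneg (by positivity : 0 ≤ (t ^ 10)⁻¹), Real.norm_eq_abs,
          abs_of_nonneg (by positivity : 0 ≤ (t ^ 10)⁻¹ * (1 + t) ^ 6)]
        calc (t ^ 10)⁻¹ * |ZZ b n p v.1 v.2 t|
            ≤ (t ^ 10)⁻¹ * (C1 b n1 cq Cq * ((1 + t) ^ 6 * |v.1 t| + (1 + t) ^ 6 * |v.2 t|)) := by
              have := ZZ_bound hW v.1 v.2 ht
              gcongr
          _ = _ := by ring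
      · rw [indicator_of_notMem h, norm_zero]
        positivity
    have hI : Integrable ((Ioi y).indicator (fun t => (t ^ 10)⁻¹ * ZZ b n p v.1 v.2 t)) mu0 := by
      refine Integrable.mono' hdom ?_ ?_
      · refine (Measurable.indicator ?_ measurableSet_Ioi).aestronglyMeasurable
        exact (by fun_prop : Measurable fun t : ℝ => (t ^ 10)⁻¹).mul hm
      · exact (ae_restrict_iff' measurableSet_Ioi).2 (Eventually.of_forall fun t ht => hle t ht)
    constructor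
    · rw [integrable_indicator_iff measurableSet_Ioi, IntegrableOn,
        Measure.restrict_restrict measurableSet_Ioi,
        inter_eq_self_of_subset_left (Ioi_subset_Ioi hy.le)] at hI
      exact hI
    · have e : QQ (ZZ b n p v.1 v.2) y =
          ∫ t, (Ioi y).indicator (fun t => (t ^ 10)⁻¹ * ZZ b n p v.1 v.2 t) t ∂mu0 := by
        rw [integral_indicator measurableSet_Ioi, Measure.restrict_restrict measurableSet_Ioi,
          inter_eq_self_of_subset_left (Ioi_subset_Ioi hy.le)]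
        rfl
      rw [e, ← Real.norm_eq_abs]
      refine (norm_integral_le_of_norm_le hdom
        ((ae_restrict_iff' measurableSet_Ioi).2 (Eventually.of_forall fun t ht => hle t ht))).trans ?_
      rw [integral_const_mul, integral_add i1 i2]
      exact mul_le_mul_of_nonneg_left (add_le_add j1 j2) hC
  refine ⟨fun y hy => (key y hy).1, fun y hy => ?_⟩
  have h := (key y hy).2
  have hs0 : 0 < √y := Real.sqrt_pos.2 hy
  calc |GG (ZZ b n p v.1 v.2) y| = y ^ 9 * |QQ (ZZ b n p v.1 v.2) y| := by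
        rw [GG, abs_mul, abs_of_pos (by positivity)]
    _ ≤ y ^ 9 * (C1 b n1 cq Cq * (((1 + y) ^ 6 * (y ^ 9 * √y)⁻¹) * ‖v.1‖ +
        ((1 + y) ^ 6 * (y ^ 9 * √y)⁻¹) * ‖v.2‖)) := by gcongr
    _ = C1 b n1 cq Cq * (‖v.1‖ + ‖v.2‖) * wk y := by
        unfold wk
        field_simp

end Crest.Agent.R213.E
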