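import Crest.Agent.R213.E.LinRep2

/-!
# Row 213, part E: `κ` for the limits of test pairs
-/

set_option autoImplicit false

open Set MeasureTheory Filter Topology

noncomputable section

namespace Crest.Agent.R213.E

variable {b n1 cq Cq : ℝ} {n p : ℝ → ℝ}

/-- `D = û/p` is `κ y - K z(y)` a.e. -/
def RepP (b : ℝ) (n p : ℝ → ℝ) (v : HH × HH) (κ : ℝ) : Prop :=
  ∀ᵐ y ∂mu0, v.1 y / p y = κ * y - KK (ZZ b n p v.1 v.2) y

theorem mem_mu0 : ∀ᵐ t ∂mu0, t ∈ Ioi (0:ℝ) := ae_restrict_mem measurableSet_Ioi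

theorem ZZ_sub_ae (v w : HH × HH) : ZZ b n p (v - w).1 (v - w).2 =ᵐ[mu0]
    fun t => ZZ b n p v.1 v.2 t - ZZ b n p w.1 w.2 t := by
  filter_upwards [Lp.coeFn_sub v.1 w.1, Lp.coeFn_sub v.2 w.2] with t h1 h2
  simp only [ZZ, Prod.fst_sub, Prod.snd_sub]
  rw [h1, h2, Pi.sub_apply, Pi.sub_apply]
  ring

theorem RepP_sub (hW : WData b n1 cq Cq n p) {v w : HH × HH} {κ κ' : ℝ} (hv : RepP b n p v κ)
    (hw : RepP b n p w κ') : RepP b n p (v - w) (κ - κ') := by
  filter_upwards [hv, hw, Lp.coeFn_sub v.1 w.1, mem_mu0] with y h1 h2 h3 hy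
  rw [KK_congr (ZZ_sub_ae v w) (le_of_lt hy), TB.KK_sub (TB_ZZ hW v) (TB_ZZ hW w) (le_of_lt hy),
    Prod.fst_sub, h3, Pi.sub_apply, sub_div, h1, h2]
  ring

def C2 (b n1 cq Cq : ℝ) : ℝ := Cq * (1 + 1 / b ^ 2) ^ 3 * 3 ^ 6 + C1 b n1 cq Cq * (2 * WW 2)

theorem C2_nonneg (hW : WData b n1 cq Cq n p) : 0 ≤ C2 b n1 cq Cq := by
  have := hW.C1_nonneg
  have := hW.Cq_pos
  have := WW_nonneg (y := 2) (by norm_num)
  unfold C2; positivity

theorem RepP_bound (hW : WData b n1 cq Cq n p) {v : HH × HH} {κ : ℝ} (hv : RepP b n p v κ) :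
    |κ| ≤ C2 b n1 cq Cq * (‖v.1‖ + ‖v.2‖) := by
  have hC1 := hW.C1_nonneg
  have hCq := hW.Cq_pos
  have hW2 := WW_nonneg (y := 2) (by norm_num)
  set k : ℝ → ℝ := (Ioc (1:ℝ) 2).indicator (fun _ => (1:ℝ)) with hk
  have hsub : Ioc (1:ℝ) 2 ⊆ Ioi 0 := fun t ht => lt_trans one_pos ht.1
  have hkm : Measurable k := measurable_const.indicator measurableSet_Ioc
  have hk2 : (fun t => k t ^ 2) = k := by
    funext t
    by_cases h : t ∈ Ioc (1:ℝ) 2
    · simp [hk, h]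
    · simp [hk, h]
  have hres : (mu0.restrict (Ioc (1:ℝ) 2)) = volume.restrict (Ioc (1:ℝ) 2) := by
    rw [Measure.restrict_restrict measurableSet_Ioc, inter_eq_self_of_subset_left hsub]
  have hki : Integrable k mu0 := by
    rw [hk, integrable_indicator_iff measurableSet_Ioc, IntegrableOn, hres]
    exact integrable_const _
  have hkv : ∫ t, k t ∂mu0 = 1 := by
    rw [hk, integral_indicator measurableSet_Ioc, hres]
    simp
    norm_num
  have hkL : MemLp k 2 mu0 := (memLp_two_iff_integrable_sq hkm.aestronglyMeasurable).2 (by rw [hk2]; exact hki)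
  obtain ⟨i1, j1⟩ := HH_cs hkL zero_le_one (by rw [hk2, hkv]; norm_num) v.1
  set S := ‖v.1‖ + ‖v.2‖ with hS
  have hS0 : 0 ≤ S := by positivity
  have hle : (fun t => |κ| * k t) ≤ᵐ[mu0] fun t => (Cq * (1 + 1 / b ^ 2) ^ 3 * 3 ^ 6) * (|k t| * |v.1 t|) +
      (C1 b n1 cq Cq * S * (2 * WW 2)) * k t := by
    filter_upwards [hv, mem_mu0] with y h hy
    by_cases hy2 : y ∈ Ioc (1:ℝ) 2
    · rw [show k y = 1 by simp [hk, hy2]]
      have e : κ * y = v.1 y / p y + KK (ZZ b n p v.1 v.2) y := by rw [h]; ring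
      have h1 : |κ| ≤ |κ * y| := by
        rw [abs_mul, abs_of_pos (show 0 < y from hy)]
        nlinarith [abs_nonneg κ, hy2.1]
      have h2 : |v.1 y / p y| ≤ (Cq * (1 + 1 / b ^ 2) ^ 3 * 3 ^ 6) * |v.1 y| := by
        rw [abs_div, abs_of_pos (hW.p_pos y hy)]
        have h3 := hW.inv_p_le hy
        have h4 : (1 + y) ^ 6 ≤ 3 ^ 6 := by
          have := hy2.2
          have : 0 < y := hy
          gcongr
          linarith
        calc |v.1 y| / p y = (1 / p y) * |v.1 y| := by ring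
          _ ≤ (Cq * (1 + 1 / b ^ 2) ^ 3 * (1 + y) ^ 6) * |v.1 y| := by gcongr
          _ ≤ (Cq * (1 + 1 / b ^ 2) ^ 3 * 3 ^ 6) * |v.1 y| := by gcongr
      have h5 : |KK (ZZ b n p v.1 v.2) y| ≤ C1 b n1 cq Cq * S * (2 * WW 2) := by
        refine (TB.KK_bd (TB_ZZ hW v) (le_of_lt hy)).trans ?_
        have hm := WW_mono (le_of_lt hy) hy2.2
        have h0 := WW_nonneg (le_of_lt hy)
        have := hy2.2
        have : 0 < y := hy
        gcongr
      calc |κ| * 1 ≤ |κ * y| := by rw [mul_one]; exact h1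
        _ ≤ |v.1 y / p y| + |KK (ZZ b n p v.1 v.2) y| := by rw [e]; exact abs_add_le _ _
        _ ≤ _ := by
          rw [abs_one, one_mul, mul_one]
          exact add_le_add h2 h5
    · rw [show k y = 0 by simp [hk, hy2]]
      simp
  have hI : ∫ t, |κ| * k t ∂mu0 ≤ ∫ t, ((Cq * (1 + 1 / b ^ 2) ^ 3 * 3 ^ 6) * (|k t| * |v.1 t|) +
      (C1 b n1 cq Cq * S * (2 * WW 2)) * k t) ∂mu0 :=
    integral_mono_ae (hki.const_mul |κ|) ((i1.const_mul _).add (hki.const_mul _)) hle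
  rw [integral_const_mul, hkv, mul_one, integral_add (i1.const_mul _) (hki.const_mul _),
    integral_const_mul, integral_const_mul, hkv, mul_one] at hI
  refine hI.trans ?_
  rw [one_mul] at j1
  have hb0 : 0 ≤ Cq * (1 + 1 / b ^ 2) ^ 3 * 3 ^ 6 := by positivity
  have j2 : ‖v.1‖ ≤ S := by rw [hS]; linarith [norm_nonneg v.2]
  calc Cq * (1 + 1 / b ^ 2) ^ 3 * 3 ^ 6 * ∫ t, |k t| * |v.1 t| ∂mu0 + C1 b n1 cq Cq * S * (2 * WW 2)
      ≤ Cq * (1 + 1 / b ^ 2) ^ 3 * 3 ^ 6 * S + C1 b n1 cq Cq * S * (2 * WW 2) := by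
        have := mul_le_mul_of_nonneg_left (j1.trans j2) hb0
        linarith
    _ = C2 b n1 cq Cq * S := by unfold C2; ring

theorem RepP_V0 (hW : WData b n1 cq Cq n p) {v : HH × HH} (hv : v ∈ V0 b n p) :
    ∃ κ, RepP b n p v κ := by
  obtain ⟨z, hz, h1, h2⟩ := hv
  refine ⟨(1 / 10) * ∫ t in Ioi (0:ℝ), z t, ?_⟩
  have hzz : ZZ b n p v.1 v.2 =ᵐ[mu0] z := by
    filter_upwards [h1, h2, mem_mu0] with t e1 e2 ht
    have hp := (hW.p_pos t ht).ne'
    have hc := (chi_pos b t).ne'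
    simp only [ZZ]
    rw [e1, e2]
    field_simp
    ring
  filter_upwards [h1, mem_mu0] with y e1 hy
  have hp := (hW.p_pos y hy).ne'
  rw [KK_congr hzz (le_of_lt hy), ← DD_rep hz (le_of_lt hy), e1]
  field_simp

theorem RepP_closure (hW : WData b n1 cq Cq n p) {v : HH × HH} (hv : v ∈ (V0 b n p).topologicalClosure) :
    ∃ κ, RepP b n p v κ := by
  have hv' : v ∈ closure (V0 b n p : Set (HH × HH)) := hv
  obtain ⟨x, hx, hlim⟩ := mem_closure_iff_seq_limit.1 hv'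
  choose κ hκ using fun i => RepP_V0 hW (hx i)
  have hC2 := C2_nonneg hW
  have hC1 := hW.C1_nonneg
  have hdist : ∀ i j, |κ i - κ j| ≤ C2 b n1 cq Cq * (2 * ‖x i - x j‖) := by
    intro i j
    refine (RepP_bound hW (RepP_sub hW (hκ i) (hκ j))).trans ?_
    refine mul_le_mul_of_nonneg_left ?_ hC2
    have h1 := norm_fst_le (x i - x j)
    have h2 := norm_snd_le (x i - x j)
    linarith
  have hcau : CauchySeq κ := by
    have hxc : CauchySeq x := hlim.cauchySeq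
    rw [Metric.cauchySeq_iff] at hxc ⊢
    intro ε hε
    obtain ⟨N, hN⟩ := hxc (ε / (2 * C2 b n1 cq Cq + 1)) (by positivity)
    refine ⟨N, fun i hi j hj => ?_⟩
    have h1 := hN i hi j hj
    rw [dist_eq_norm] at h1
    rw [Real.dist_eq]
    refine (hdist i j).trans_lt ?_
    rw [lt_div_iff₀ (by positivity)] at h1
    nlinarith [norm_nonneg (x i - x j)]
  obtain ⟨κ0, hκ0⟩ := cauchySeq_tendsto_of_complete hcau
  refine ⟨κ0, ?_⟩
  have hl1 : Tendsto (fun i => (x i).1) atTop (𝓝 v.1) := (continuous_fst.tendsto v).comp hlim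
  obtain ⟨ns, hns, hae⟩ := (tendstoInMeasure_of_tendsto_Lp hl1).exists_seq_tendsto_ae
  have hall : ∀ᵐ y ∂mu0, ∀ i, (x i).1 y / p y = κ i * y - KK (ZZ b n p (x i).1 (x i).2) y :=
    ae_all_iff.2 hκ
  filter_upwards [hae, hall, mem_mu0] with y h1 h2 hy
  have hy0 : 0 < y := hy
  have hnst : Tendsto ns atTop atTop := hns.tendsto_atTop
  have t1 : Tendsto (fun i => (x (ns i)).1 y / p y) atTop (𝓝 (v.1 y / p y)) := h1.div_const _
  have hnorm : Tendsto (fun i => ‖x i - v‖) atTop (𝓝 0) := by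
    have := (hlim.sub_const v).norm
    simpa using this
  have t2 : Tendsto (fun i => KK (ZZ b n p (x i).1 (x i).2) y) atTop
      (𝓝 (KK (ZZ b n p v.1 v.2) y)) := by
    rw [tendsto_iff_norm_sub_tendsto_zero]
    have hb : ∀ i, ‖KK (ZZ b n p (x i).1 (x i).2) y - KK (ZZ b n p v.1 v.2) y‖ ≤
        C1 b n1 cq Cq * (2 * ‖x i - v‖) * (y * WW y) := by
      intro i
      rw [← TB.KK_sub (TB_ZZ hW (x i)) (TB_ZZ hW v) hy0.le, ← KK_congr (ZZ_sub_ae (x i) v) hy0.le,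
        Real.norm_eq_abs]
      refine (TB.KK_bd (TB_ZZ hW (x i - v)) hy0.le).trans ?_
      have g1 := norm_fst_le (x i - v)
      have g2 := norm_snd_le (x i - v)
      have g3 := WW_nonneg hy0.le
      refine mul_le_mul_of_nonneg_right ?_ (by positivity)
      refine mul_le_mul_of_nonneg_left ?_ hC1
      linarith
    refine squeeze_zero (fun _ => norm_nonneg _) hb ?_
    have : Tendsto (fun i => C1 b n1 cq Cq * (2 * ‖x i - v‖) * (y * WW y)) atTop
        (𝓝 (C1 b n1 cq Cq * (2 * 0) * (y * WW y))) :=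
      ((hnorm.const_mul 2).const_mul _).mul_const _
    simpa using this
  have t3 : Tendsto (fun i => (x (ns i)).1 y / p y) atTop
      (𝓝 (κ0 * y - KK (ZZ b n p v.1 v.2) y)) := by
    have : Tendsto (fun i => κ (ns i) * y - KK (ZZ b n p (x (ns i)).1 (x (ns i)).2) y) atTop
      (𝓝 (κ0 * y - KK (ZZ b n p v.1 v.2) y)) :=
      ((hκ0.comp hnst).mul_const y).sub (t2.comp hnst)
    refine this.congr fun i => ?_
    exact (h2 (ns i)).symm
  exact tendsto_nhds_unique t1 t3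

end Crest.Agent.R213.E
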