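import Crest.Agent.R213.E.LinOrth

/-!
# Row 213, part E: the linear solver in `L²(0,∞)` (for `û = p D`, `f̂ = q f`)
-/

set_option autoImplicit false

open Set MeasureTheory Filter Topology

noncomputable section

namespace Crest.Agent.R213.E

/-- Lebesgue measure on `(0,∞)` -/
abbrev mu0 : Measure ℝ := volume.restrict (Ioi (0:ℝ))

/-- the Hilbert space `L²(0,∞)` -/
abbrev HH : Type := Lp ℝ 2 mu0

theorem memLp_of_bdd_supp {f : ℝ → ℝ} {M R : ℝ} (hf : Measurable f)
    (hM : ∀ y, 0 < y → y ≤ R → |f y| ≤ M) (hR : ∀ y, R < y → f y = 0) : MemLp f 2 mu0 := by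
  rw [memLp_two_iff_integrable_sq hf.aestronglyMeasurable]
  have h1 : IntegrableOn (fun y => f y ^ 2) (Ioc 0 R) := by
    refine Measure.integrableOn_of_bounded (M := M ^ 2) (by simp) (hf.pow_const 2).aestronglyMeasurable ?_
    refine (ae_restrict_iff' measurableSet_Ioc).2 (Eventually.of_forall fun y hy => ?_)
    rw [Real.norm_of_nonneg (sq_nonneg _), ← sq_abs]
    exact pow_le_pow_left₀ (abs_nonneg _) (hM y hy.1 hy.2) 2
  rcases le_or_gt R 0 with hR0 | hR0
  · have : IntegrableOn (fun y => f y ^ 2) (Ioi 0) := by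
      refine (integrableOn_zero).congr_fun (fun y hy => ?_) measurableSet_Ioi
      rw [hR y (lt_of_le_of_lt hR0 hy)]; simp
    exact this
  · have h2 : IntegrableOn (fun y => f y ^ 2) (Ioi R) := by
      refine (integrableOn_zero).congr_fun (fun y hy => ?_) measurableSet_Ioi
      rw [hR y hy]; simp
    have := h1.union h2
    rw [Ioc_union_Ioi_eq_Ioi hR0.le] at this
    exact this

theorem DD_add {z w : ℝ → ℝ} (hz : Adm z) (hw : Adm w) (y : ℝ) :
    DD (fun t => z t + w t) y = DD z y + DD w y := by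
  have e1 : ∫ t in Ioi y, t * (z t + w t) = (∫ t in Ioi y, t * z t) + ∫ t in Ioi y, t * w t := by
    rw [← integral_add hz.tz_int.integrableOn hw.tz_int.integrableOn]
    congr 1; funext t; ring
  have e2 : ∫ t in Ioi y, (z t + w t) = (∫ t in Ioi y, z t) + ∫ t in Ioi y, w t :=
    integral_add hz.z_int.integrableOn hw.z_int.integrableOn
  have e3 : ∫ t in Ioi y, Adm.zm (fun t => z t + w t) t =
      (∫ t in Ioi y, Adm.zm z t) + ∫ t in Ioi y, Adm.zm w t := by
    rw [← integral_add hz.zm_int.integrableOn hw.zm_int.integrableOn]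
    congr 1; funext t; simp only [Adm.zm]; ring
  simp only [DD, e1, e2, e3]
  ring

theorem DD_smul {z : ℝ → ℝ} (c y : ℝ) :
    DD (fun t => c * z t) y = c * DD z y := by
  have e1 : ∫ t in Ioi y, t * (c * z t) = c * ∫ t in Ioi y, t * z t := by
    rw [← integral_const_mul]
    congr 1; funext t; ring
  have e2 : ∫ t in Ioi y, c * z t = c * ∫ t in Ioi y, z t := integral_const_mul _ _
  have e3 : ∫ t in Ioi y, Adm.zm (fun t => c * z t) t = c * ∫ t in Ioi y, Adm.zm z t := by
    rw [← integral_const_mul]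
    congr 1; funext t; simp only [Adm.zm]; ring
  simp only [DD, e1, e2, e3]
  ring

section

variable {b n1 cq Cq : ℝ} {n p : ℝ → ℝ}

namespace WData

theorem Cq_pos (hW : WData b n1 cq Cq n p) : 0 < Cq :=
  (div_pos (chi_pos b 1) (hW.p_pos 1 one_pos)).trans_le (hW.q_up 1 one_pos)

theorem q_pos (hW : WData b n1 cq Cq n p) {y : ℝ} (hy : 0 < y) : 0 < chi b y / p y :=
  div_pos (chi_pos b y) (hW.p_pos y hy)

theorem n1_nonneg (hW : WData b n1 cq Cq n p) : 0 ≤ n1 :=
  (hW.n_nonneg 1 one_pos).trans (hW.n_le 1 one_pos)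

/-- `1/q ≤ (1+y)^3/cq` -/
theorem inv_q_le (hW : WData b n1 cq Cq n p) {y : ℝ} (hy : 0 < y) :
    p y / chi b y ≤ (1 + y) ^ 3 / cq := by
  have h := hW.q_low y hy
  have hc := chi_pos b y
  have hp := hW.p_pos y hy
  rw [div_le_div_iff₀ hc hW.cq_pos]
  have : cq * p y ≤ chi b y * (1 + y) ^ 3 := by
    calc cq * p y ≤ (chi b y / p y * (1 + y) ^ 3) * p y := by gcongr
      _ = chi b y * (1 + y) ^ 3 := by field_simp
  linarith

theorem p_le (hW : WData b n1 cq Cq n p) {y : ℝ} (hy : 0 < y) : p y ≤ (1 + y) ^ 3 / cq := by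
  have h := hW.inv_q_le hy
  have hc := chi_pos b y
  have hc1 := chi_le_one b y
  have hp := hW.p_pos y hy
  refine le_trans ?_ h
  rw [le_div_iff₀ hc]
  nlinarith

theorem q_meas (hW : WData b n1 cq Cq n p) : Measurable (fun y => chi b y / p y) :=
  chi_cont.measurable.div hW.p_meas

end WData

theorem memLp_p (hW : WData b n1 cq Cq n p) {z : ℝ → ℝ} (hz : Adm z) :
    MemLp (fun y => p y * DD z y) 2 mu0 := by
  obtain ⟨K, hK, h⟩ := DD_lin_bound hz
  obtain ⟨R, hR, hR0⟩ := DD_zero_right hz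
  refine memLp_of_bdd_supp (M := ((1 + R) ^ 3 / cq) * (K * R)) (R := R)
    (hW.p_meas.mul (DD_cont hz).measurable) (fun y hy hyR => ?_) (fun y hy => ?_)
  · rw [abs_mul, abs_of_pos (hW.p_pos y hy)]
    have h1 : p y ≤ (1 + R) ^ 3 / cq := (hW.p_le hy).trans (by
      have := hW.cq_pos
      gcongr)
    have h2 : |DD z y| ≤ K * R := (h y hy.le).trans (by gcongr)
    have := hW.cq_pos
    exact mul_le_mul h1 h2 (abs_nonneg _) (by positivity)
  · rw [(hR0 y hy.le).1, mul_zero]

theorem memLp_q (hW : WData b n1 cq Cq n p) {z : ℝ → ℝ} (hz : Adm z) :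
    MemLp (fun y => chi b y / p y * (z y + n y * DD z y)) 2 mu0 := by
  obtain ⟨K, hK, h⟩ := DD_lin_bound hz
  obtain ⟨R, hR, hR0⟩ := DD_zero_right hz
  obtain ⟨Z, hZ, hz1⟩ := z_bound hz
  refine memLp_of_bdd_supp (M := Cq * (Z + n1 * (K * R))) (R := R)
    (hW.q_meas.mul (hz.cont.measurable.add (hW.n_meas.mul (DD_cont hz).measurable)))
    (fun y hy hyR => ?_) (fun y hy => ?_)
  · rw [abs_mul, abs_of_pos (hW.q_pos hy)]
    have h2 : |DD z y| ≤ K * R := (h y hy.le).trans (by gcongr)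
    have h3 : |z y + n y * DD z y| ≤ Z + n1 * (K * R) := by
      refine (abs_add_le _ _).trans (add_le_add (hz1 y) ?_)
      rw [abs_mul, abs_of_nonneg (hW.n_nonneg y hy)]
      exact mul_le_mul (hW.n_le y hy) h2 (abs_nonneg _) hW.n1_nonneg
    exact mul_le_mul (hW.q_up y hy) h3 (abs_nonneg _) hW.Cq_pos.le
  · rw [(hR0 y hy.le).1, (hR0 y hy.le).2.2.2]; simp

/-- the space of test pairs -/
def V0 (b : ℝ) (n p : ℝ → ℝ) : Submodule ℝ (HH × HH) where
  carrier := {v | ∃ z, Adm z ∧ (v.1 : ℝ → ℝ) =ᵐ[mu0] (fun y => p y * DD z y) ∧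
    (v.2 : ℝ → ℝ) =ᵐ[mu0] (fun y => chi b y / p y * (z y + n y * DD z y))}
  zero_mem' := by
    refine ⟨fun _ => 0, ⟨continuous_const, HasCompactSupport.zero, by simp, by simp⟩, ?_, ?_⟩
    · have : ∀ y, DD (fun _ => (0:ℝ)) y = 0 := fun y => by simp [DD, Adm.zm]
      filter_upwards [Lp.coeFn_zero ℝ 2 mu0] with y hy
      simp only [Prod.fst_zero]
      rw [hy, this]; simp
    · have : ∀ y, DD (fun _ => (0:ℝ)) y = 0 := fun y => by simp [DD, Adm.zm]
      filter_upwards [Lp.coeFn_zero ℝ 2 mu0] with y hy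
      simp only [Prod.snd_zero]
      rw [hy, this]; simp
  add_mem' := by
    rintro v w ⟨z, hz, h1, h2⟩ ⟨z', hz', h1', h2'⟩
    refine ⟨fun t => z t + z' t, hz.add hz', ?_, ?_⟩
    · filter_upwards [Lp.coeFn_add v.1 w.1, h1, h1'] with y e1 e2 e3
      rw [Prod.fst_add, e1, Pi.add_apply, e2, e3, DD_add hz hz']; ring
    · filter_upwards [Lp.coeFn_add v.2 w.2, h2, h2'] with y e1 e2 e3
      rw [Prod.snd_add, e1, Pi.add_apply, e2, e3, DD_add hz hz']; ring
  smul_mem' := by
    rintro c v ⟨z, hz, h1, h2⟩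
    refine ⟨fun t => c * z t, hz.smul c, ?_, ?_⟩
    · filter_upwards [Lp.coeFn_smul c v.1, h1] with y e1 e2
      rw [Prod.smul_fst, e1, Pi.smul_apply, e2, DD_smul, smul_eq_mul]; ring
    · filter_upwards [Lp.coeFn_smul c v.2, h2] with y e1 e2
      rw [Prod.smul_snd, e1, Pi.smul_apply, e2, DD_smul, smul_eq_mul]; ring

theorem coercive_int (hW : WData b n1 cq Cq n p) {z : ℝ → ℝ} (hz : Adm z) :
    ∫ y, (p y * DD z y) ^ 2 ∂mu0 ≤
      ∫ y, (p y * DD z y) * (chi b y / p y * (z y + n y * DD z y)) ∂mu0 := by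
  obtain ⟨K, hK, h⟩ := DD_lin_bound hz
  obtain ⟨R, hR, hR0⟩ := DD_zero_right hz
  have i1 := f1_int (b := b) hz
  have i2 := f2_int (b := b) hz
  have i3 : IntegrableOn (fun y => chi b y * (n y * (DD z y) ^ 2)) (Ioi 0) := by
    have hm : Measurable (fun y => chi b y * (n y * (DD z y) ^ 2)) :=
      chi_cont.measurable.mul (hW.n_meas.mul ((DD_cont hz).measurable.pow_const 2))
    have h1 : IntegrableOn (fun y => chi b y * (n y * (DD z y) ^ 2)) (Ioc 0 R) := by
      refine Measure.integrableOn_of_bounded (M := 1 * (n1 * (K * R) ^ 2)) (by simp)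
        hm.aestronglyMeasurable ?_
      refine (ae_restrict_iff' measurableSet_Ioc).2 (Eventually.of_forall fun y hy => ?_)
      have hn0 := hW.n_nonneg y hy.1
      have hc0 := (chi_pos b y).le
      rw [Real.norm_of_nonneg (by positivity)]
      have hD : (DD z y) ^ 2 ≤ (K * R) ^ 2 := by
        rw [← sq_abs]
        refine pow_le_pow_left₀ (abs_nonneg _) ((h y hy.1.le).trans ?_) 2
        have := hy.2
        gcongr
      have := hW.n_le y hy.1
      have := chi_le_one b y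
      have := hW.n1_nonneg
      gcongr
    have h2 : IntegrableOn (fun y => chi b y * (n y * (DD z y) ^ 2)) (Ioi R) := by
      refine (integrableOn_zero).congr_fun (fun y hy => ?_) measurableSet_Ioi
      rw [(hR0 y (le_of_lt hy)).1]; simp
    have := h1.union h2
    rwa [Ioc_union_Ioi_eq_Ioi hR.le] at this
  have hE := energy hW.b_pos hz
  have hL : ∫ y, (p y * DD z y) ^ 2 ∂mu0 ≤ ∫ y in Ioi (0:ℝ),
      (chi b y * (bet0 b y / y ^ 2) * (DD z y) ^ 2 + chi b y * (n y * (DD z y) ^ 2)) := by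
    refine integral_mono_ae ((memLp_p hW hz).integrable_sq) (i1.add i3) ?_
    refine (ae_restrict_iff' measurableSet_Ioi).2 (Eventually.of_forall fun y hy => ?_)
    have := hW.coer y hy
    calc (p y * DD z y) ^ 2 = p y ^ 2 * (DD z y) ^ 2 := by ring
      _ ≤ (chi b y * (bet0 b y / y ^ 2 + n y)) * (DD z y) ^ 2 := by gcongr
      _ = chi b y * (bet0 b y / y ^ 2) * (DD z y) ^ 2 + chi b y * (n y * (DD z y) ^ 2) := by ring
  have hRR : ∫ y, (p y * DD z y) * (chi b y / p y * (z y + n y * DD z y)) ∂mu0 =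
      ∫ y in Ioi (0:ℝ), (chi b y * (DD z y * z y) + chi b y * (n y * (DD z y) ^ 2)) := by
    refine setIntegral_congr_fun measurableSet_Ioi fun y hy => ?_
    have := (hW.p_pos y hy).ne'
    field_simp
  rw [hRR]
  refine hL.trans ?_
  rw [integral_add i1 i3, integral_add i2 i3]
  linarith

theorem V0_le (hW : WData b n1 cq Cq n p) {v : HH × HH} (hv : v ∈ V0 b n p) : ‖v.1‖ ≤ ‖v.2‖ := by
  obtain ⟨z, hz, h1, h2⟩ := hv
  have e1 : ‖v.1‖ ^ 2 = ∫ y, (p y * DD z y) ^ 2 ∂mu0 := by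
    rw [← real_inner_self_eq_norm_sq, L2.inner_def]
    refine integral_congr_ae ?_
    filter_upwards [h1] with y hy
    rw [real_inner_self_eq_norm_sq, hy, Real.norm_eq_abs, sq_abs]
  have e2 : inner ℝ v.1 v.2 = ∫ y, (p y * DD z y) * (chi b y / p y * (z y + n y * DD z y)) ∂mu0 := by
    rw [L2.inner_def]
    refine integral_congr_ae ?_
    filter_upwards [h1, h2] with y hy hy2
    rw [hy, hy2]; simp [mul_comm]
  have h3 : ‖v.1‖ ^ 2 ≤ ‖v.1‖ * ‖v.2‖ := by
    rw [e1]
    refine (coercive_int hW hz).trans ?_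
    rw [← e2]
    exact real_inner_le_norm _ _
  rcases (norm_nonneg v.1).eq_or_lt with h0 | h0
  · rw [← h0]; exact norm_nonneg _
  · rw [sq] at h3
    exact le_of_mul_le_mul_left h3 h0

theorem V_le (hW : WData b n1 cq Cq n p) {v : HH × HH} (hv : v ∈ (V0 b n p).topologicalClosure) :
    ‖v.1‖ ≤ ‖v.2‖ := by
  have hcl : IsClosed {v : HH × HH | ‖v.1‖ ≤ ‖v.2‖} :=
    isClosed_le (continuous_fst.norm) (continuous_snd.norm)
  have : closure (V0 b n p : Set (HH × HH)) ⊆ {v | ‖v.1‖ ≤ ‖v.2‖} :=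
    closure_minimal (fun v hv => V0_le hW hv) hcl
  exact this hv

theorem not_lin_growth (hW : WData b n1 cq Cq n p) (u : HH) {A : ℝ} (hA : 0 < A) :
    ¬ ∀ᵐ t, 0 < t → A * t ≤ |chi b t / p t * u t| := by
  intro h
  have h1 : Integrable (fun t => (u t) ^ 2) mu0 := (Lp.memLp u).integrable_sq
  have h2 : IntegrableOn (fun _ : ℝ => (A / Cq) ^ 2) (Ioi (1:ℝ)) := by
    have h1' : IntegrableOn (fun t => (u t) ^ 2) (Ioi (1:ℝ)) :=
      IntegrableOn.mono_set (s := Ioi 1) (t := Ioi 0) h1 (Ioi_subset_Ioi zero_le_one)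
    refine Integrable.mono' h1' aestronglyMeasurable_const ?_
    refine (ae_restrict_iff' measurableSet_Ioi).2 ?_
    filter_upwards [h] with t ht ht1
    have ht0 : 0 < t := lt_trans one_pos ht1
    have h3 := ht ht0
    rw [abs_mul, abs_of_pos (hW.q_pos ht0)] at h3
    have h4 : A * t ≤ Cq * |u t| := h3.trans (by have := hW.q_up t ht0; gcongr)
    have h5 : A / Cq ≤ |u t| := by
      rw [div_le_iff₀ hW.Cq_pos]
      have ht1' : (1:ℝ) < t := ht1
      nlinarith
    rw [Real.norm_of_nonneg (sq_nonneg _), ← sq_abs (u t)]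
    exact pow_le_pow_left₀ (div_pos hA hW.Cq_pos).le h5 2
  rw [integrableOn_const_iff] at h2
  rcases h2 with h2 | h2
  · have h3 : (A / Cq) ^ 2 ≠ 0 := by have := hW.Cq_pos; positivity
    exact h3 (enorm_eq_zero.1 h2)
  · simp at h2

theorem dense_range (hW : WData b n1 cq Cq n p) :
    ((V0 b n p).map (LinearMap.snd ℝ HH HH)).topologicalClosure = ⊤ := by
  rw [Submodule.topologicalClosure_eq_top_iff, Submodule.eq_bot_iff]
  intro u hu
  rw [Submodule.mem_orthogonal] at hu
  have hum : Measurable (u : ℝ → ℝ) := (Lp.stronglyMeasurable u).measurable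
  set U : ℝ → ℝ := fun y => chi b y / p y * u y with hUd
  have hUm : Measurable U := hW.q_meas.mul hum
  have hU2 : MemLp U 2 mu0 := by
    refine MemLp.of_le_mul (g := (u : ℝ → ℝ)) (c := Cq) (Lp.memLp u) hUm.aestronglyMeasurable ?_
    refine (ae_restrict_iff' measurableSet_Ioi).2 (Eventually.of_forall fun y hy => ?_)
    rw [hUd, norm_mul, Real.norm_of_nonneg (hW.q_pos hy).le]
    exact mul_le_mul_of_nonneg_right (hW.q_up y hy) (norm_nonneg _)
  have hU : ∀ T, IntegrableOn U (Ioc 0 T) := by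
    intro T
    have h1 : MemLp U 2 (volume.restrict (Ioc 0 T)) :=
      MemLp.mono_measure (Measure.restrict_mono Ioc_subset_Ioi_self le_rfl) hU2
    exact MemLp.integrable (q := 2) (by norm_num) h1
  have horth : ∀ z, Adm z → ∫ y in Ioi (0:ℝ), U y * (z y + n y * DD z y) = 0 := by
    intro z hz
    have hm : (show HH from (memLp_q hW hz).toLp _) ∈ (V0 b n p).map (LinearMap.snd ℝ HH HH) := by
      refine ⟨((memLp_p hW hz).toLp _, (memLp_q hW hz).toLp _), ⟨z, hz, ?_, ?_⟩, rfl⟩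
      · exact (memLp_p hW hz).coeFn_toLp
      · exact (memLp_q hW hz).coeFn_toLp
    have h := hu _ hm
    rw [L2.inner_def] at h
    refine Eq.trans ?_ h
    refine integral_congr_ae ?_
    filter_upwards [(memLp_q hW hz).coeFn_toLp] with y hy
    rw [hy]
    simp only [hUd, RCLike.inner_apply, conj_trivial]
    ring
  have hz := orth_zero hW.n_meas hW.n_nonneg hW.n_le hUm hU horth
    (fun A hA => not_lin_growth hW u hA)
  refine Lp.ext ?_
  have h2 : ∀ᵐ t ∂mu0, U t = 0 := (ae_restrict_iff' measurableSet_Ioi).2 hz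
  have h3 : ∀ᵐ t ∂mu0, t ∈ Ioi (0:ℝ) := ae_restrict_mem measurableSet_Ioi
  filter_upwards [h2, h3, Lp.coeFn_zero ℝ 2 mu0] with t ht ht0 h0
  rw [h0]
  simp only [Pi.zero_apply]
  rcases mul_eq_zero.1 ht with h | h
  · exact absurd h (hW.q_pos ht0).ne'
  · exact h

/-- **linear solver** -/
theorem exists_solver (hW : WData b n1 cq Cq n p) :
    ∃ S : HH →L[ℝ] HH, (∀ f, ‖S f‖ ≤ ‖f‖) ∧ ∀ f, (S f, f) ∈ (V0 b n p).topologicalClosure := by
  set V := (V0 b n p).topologicalClosure with hV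
  have hVc : IsClosed (V : Set (HH × HH)) := (V0 b n p).isClosed_topologicalClosure
  have : CompleteSpace V := hVc.completeSpace_coe
  let Φ : V →ₗᵢ[ℝ] HH :=
    { toLinearMap := (LinearMap.snd ℝ HH HH).comp V.subtype
      norm_map' := by
        intro v
        have h := V_le hW v.2
        show ‖(v : HH × HH).2‖ = ‖(v : HH × HH)‖
        rw [Prod.norm_def, max_eq_right h] }
  have hcl : IsClosed (LinearMap.range Φ.toLinearMap : Set HH) := by
    have := Φ.isometry.isClosedEmbedding.isClosed_range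
    exact this
  have hsurj : Function.Surjective Φ := by
    refine (LinearMap.range_eq_top (f := Φ.toLinearMap)).1 ?_
    rw [eq_top_iff, ← dense_range hW]
    refine Submodule.topologicalClosure_minimal _ ?_ hcl
    rintro _ ⟨v, hv, rfl⟩
    exact ⟨⟨v, subset_closure hv⟩, rfl⟩
  let E := LinearIsometryEquiv.ofSurjective Φ hsurj
  refine ⟨(ContinuousLinearMap.fst ℝ HH HH).comp
    ((V.subtypeL).comp (E.symm : HH →L[ℝ] V)), ?_, ?_⟩
  · intro f
    have h1 := V_le hW (E.symm f).2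
    have h2 : ((E.symm f : V) : HH × HH).2 = f := E.apply_symm_apply f
    rw [h2] at h1
    exact h1
  · intro f
    have h2 : ((E.symm f : V) : HH × HH).2 = f := E.apply_symm_apply f
    have h3 : (((E.symm f : V) : HH × HH).1, f) = ((E.symm f : V) : HH × HH) :=
      Prod.ext rfl h2.symm
    show (((E.symm f : V) : HH × HH).1, f) ∈ V
    rw [h3]
    exact (E.symm f).2

end

end Crest.Agent.R213.E
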