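import Crest.Agent.R213.E.NLDefs

/-!
# Row 213, part E: test pairs `(D,z)` with `y D''' - 9 D'' = z` and the energy inequality
-/

set_option autoImplicit false

open Set MeasureTheory Filter Topology

noncomputable section

namespace Crest.Agent.R213.E

/-- derivative of a tail integral -/
theorem hasDerivAt_tail {f : ℝ → ℝ} (hf : Continuous f) (hi : Integrable f) (y : ℝ) :
    HasDerivAt (fun x => ∫ t in Ioi x, f t) (-f y) y := by
  have h1 : ∀ x, ∫ t in Ioi x, f t = (∫ t in Ioi (0:ℝ), f t) - ∫ t in (0:ℝ)..x, f t := by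
    intro x
    have := intervalIntegral.integral_Ioi_sub_Ioi' (μ := volume) (f := f) (a := 0) (b := x)
      hi.integrableOn hi.integrableOn
    linarith
  have h3 : (fun x => ∫ t in Ioi x, f t) = fun x => (∫ t in Ioi (0:ℝ), f t) - ∫ t in (0:ℝ)..x, f t :=
    funext h1
  rw [h3]
  have := (intervalIntegral.integral_hasDerivAt_right (hf.intervalIntegrable 0 y)
    hf.aestronglyMeasurable.stronglyMeasurableAtFilter hf.continuousAt).const_sub
      (∫ t in Ioi (0:ℝ), f t)
  exact this

/-- admissible test functions -/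
structure Adm (z : ℝ → ℝ) : Prop where
  cont : Continuous z
  supp : HasCompactSupport z
  pos : tsupport z ⊆ Ioi 0
  mom : ∫ t in Ioi (0:ℝ), t * z t = 0

namespace Adm

variable {z : ℝ → ℝ}

theorem bounds (hz : Adm z) : ∃ r R : ℝ, 0 < r ∧ r < R ∧ ∀ t, t ∉ Icc r R → z t = 0 := by
  rcases (tsupport z).eq_empty_or_nonempty with h | h
  · refine ⟨1, 2, one_pos, one_lt_two, fun t _ => ?_⟩
    exact image_eq_zero_of_notMem_tsupport (by rw [h]; simp)
  · have hK : IsCompact (tsupport z) := hz.supp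
    obtain ⟨a, ha, hamin⟩ := hK.exists_isLeast h
    obtain ⟨b, hb, hbmax⟩ := hK.exists_isGreatest h
    have ha0 : 0 < a := hz.pos ha
    refine ⟨a, b + 1, ha0, ?_, fun t ht => image_eq_zero_of_notMem_tsupport fun h' => ht ?_⟩
    · have := hamin hb; linarith
    · exact ⟨hamin h', by have := hbmax h'; linarith⟩

theorem add {w : ℝ → ℝ} (hz : Adm z) (hw : Adm w) : Adm (fun t => z t + w t) where
  cont := hz.cont.add hw.cont
  supp := hz.supp.add hw.supp
  pos := (tsupport_add z w).trans (union_subset hz.pos hw.pos)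
  mom := by
    have h1 : Integrable (fun t => t * z t) := (continuous_id.mul hz.cont).integrable_of_hasCompactSupport
      hz.supp.mul_left
    have h2 : Integrable (fun t => t * w t) := (continuous_id.mul hw.cont).integrable_of_hasCompactSupport
      hw.supp.mul_left
    simp only [mul_add]
    rw [integral_add h1.integrableOn h2.integrableOn, hz.mom, hw.mom, add_zero]

theorem smul (hz : Adm z) (c : ℝ) : Adm (fun t => c * z t) where
  cont := continuous_const.mul hz.cont
  supp := hz.supp.mul_left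
  pos := by
    refine (closure_mono ?_).trans hz.pos
    intro t ht
    simp only [Function.mem_support] at ht ⊢
    exact right_ne_zero_of_mul ht
  mom := by
    have : ∀ t : ℝ, t * (c * z t) = c * (t * z t) := fun t => by ring
    simp only [this]
    rw [integral_const_mul, hz.mom, mul_zero]

/-- `t^{-10} z` -/
def zm (z : ℝ → ℝ) (t : ℝ) : ℝ := (t ^ 10)⁻¹ * z t

theorem zm_cont (hz : Adm z) : Continuous (zm z) := by
  obtain ⟨r, R, hr, hrR, h0⟩ := hz.bounds
  rw [continuous_iff_continuousAt]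
  intro t
  rcases eq_or_ne t 0 with rfl | ht
  · have : zm z =ᶠ[𝓝 0] fun _ => 0 := by
      filter_upwards [Iio_mem_nhds hr] with s hs
      simp only [zm]
      rw [h0 s (fun h => absurd h.1 (not_le.2 hs)), mul_zero]
    exact (continuousAt_const).congr this.symm
  · exact ((continuousAt_id.pow 10).inv₀ (pow_ne_zero 10 ht)).mul hz.cont.continuousAt

theorem zm_supp (hz : Adm z) : HasCompactSupport (zm z) := hz.supp.mul_left

theorem zm_int (hz : Adm z) : Integrable (zm z) := hz.zm_cont.integrable_of_hasCompactSupport hz.zm_supp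

theorem z_int (hz : Adm z) : Integrable z := hz.cont.integrable_of_hasCompactSupport hz.supp

theorem tz_cont (hz : Adm z) : Continuous (fun t => t * z t) := continuous_id.mul hz.cont

theorem tz_int (hz : Adm z) : Integrable (fun t => t * z t) :=
  hz.tz_cont.integrable_of_hasCompactSupport hz.supp.mul_left

end Adm

open Adm

theorem abs_sub' (a b : ℝ) : |a - b| ≤ |a| + |b| := by
  have := norm_sub_le a b
  simpa [Real.norm_eq_abs] using this

/-- `D` for a test function `z`. -/
def DD (z : ℝ → ℝ) (y : ℝ) : ℝ :=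
  -((1 / 11) * ∫ t in Ioi y, t * z t) + (y / 10) * (∫ t in Ioi y, z t)
    - (y ^ 11 / 110) * ∫ t in Ioi y, zm z t

def DD1 (z : ℝ → ℝ) (y : ℝ) : ℝ :=
  (1 / 10) * (∫ t in Ioi y, z t) - (y ^ 10 / 10) * ∫ t in Ioi y, zm z t

def DD2 (z : ℝ → ℝ) (y : ℝ) : ℝ := -(y ^ 9 * ∫ t in Ioi y, zm z t)

def DD3 (z : ℝ → ℝ) (y : ℝ) : ℝ := -(9 * y ^ 8 * ∫ t in Ioi y, zm z t) + z y / y

variable {z : ℝ → ℝ}

theorem DD_hasDeriv (hz : Adm z) {y : ℝ} (hy : 0 < y) : HasDerivAt (DD z) (DD1 z y) y := by
  have h1 := hasDerivAt_tail hz.tz_cont hz.tz_int y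
  have h0 := hasDerivAt_tail hz.cont hz.z_int y
  have hm := hasDerivAt_tail hz.zm_cont hz.zm_int y
  have hy' : y ≠ 0 := hy.ne'
  have := ((h1.const_mul (1/11)).neg.add (((hasDerivAt_id y).div_const 10).mul h0)).sub
    (((hasDerivAt_pow 11 y).div_const 110).mul hm)
  refine (this.congr_deriv ?_)
  simp only [DD1, id]
  generalize (∫ t in Ioi y, z t) = A
  generalize (∫ t in Ioi y, zm z t) = B
  simp only [zm]
  field_simp
  norm_num
  ring

theorem DD1_hasDeriv (hz : Adm z) {y : ℝ} (hy : 0 < y) : HasDerivAt (DD1 z) (DD2 z y) y := by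
  have h0 := hasDerivAt_tail hz.cont hz.z_int y
  have hm := hasDerivAt_tail hz.zm_cont hz.zm_int y
  have hy' : y ≠ 0 := hy.ne'
  have := (h0.const_mul (1/10)).sub (((hasDerivAt_pow 10 y).div_const 10).mul hm)
  refine (this.congr_deriv ?_)
  simp only [DD2]
  generalize (∫ t in Ioi y, zm z t) = B
  simp only [zm]
  field_simp
  norm_num
  ring

theorem DD2_hasDeriv (hz : Adm z) {y : ℝ} (hy : 0 < y) : HasDerivAt (DD2 z) (DD3 z y) y := by
  have hm := hasDerivAt_tail hz.zm_cont hz.zm_int y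
  have hy' : y ≠ 0 := hy.ne'
  have := ((hasDerivAt_pow 9 y).mul hm).neg
  refine (this.congr_deriv ?_)
  simp only [DD3]
  generalize (∫ t in Ioi y, zm z t) = B
  simp only [zm]
  field_simp
  norm_num
  ring

theorem DD_eq {y : ℝ} (hy : 0 < y) : y * DD3 z y - 9 * DD2 z y = z y := by
  simp only [DD3, DD2]
  field_simp
  ring

theorem DD_cont (hz : Adm z) : Continuous (DD z) := by
  have c1 : Continuous (fun y => ∫ t in Ioi y, t * z t) :=
    continuous_iff_continuousAt.2 fun y => (hasDerivAt_tail hz.tz_cont hz.tz_int y).continuousAt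
  have c2 : Continuous (fun y => ∫ t in Ioi y, z t) :=
    continuous_iff_continuousAt.2 fun y => (hasDerivAt_tail hz.cont hz.z_int y).continuousAt
  have c3 : Continuous (fun y => ∫ t in Ioi y, zm z t) :=
    continuous_iff_continuousAt.2 fun y => (hasDerivAt_tail hz.zm_cont hz.zm_int y).continuousAt
  unfold DD
  fun_prop

theorem DD1_cont (hz : Adm z) : Continuous (DD1 z) := by
  have c2 : Continuous (fun y => ∫ t in Ioi y, z t) :=
    continuous_iff_continuousAt.2 fun y => (hasDerivAt_tail hz.cont hz.z_int y).continuousAt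
  have c3 : Continuous (fun y => ∫ t in Ioi y, zm z t) :=
    continuous_iff_continuousAt.2 fun y => (hasDerivAt_tail hz.zm_cont hz.zm_int y).continuousAt
  unfold DD1
  fun_prop

theorem DD2_cont (hz : Adm z) : Continuous (DD2 z) := by
  have c3 : Continuous (fun y => ∫ t in Ioi y, zm z t) :=
    continuous_iff_continuousAt.2 fun y => (hasDerivAt_tail hz.zm_cont hz.zm_int y).continuousAt
  unfold DD2
  fun_prop

theorem tail_zero {f : ℝ → ℝ} {R y : ℝ} (h : ∀ t, R < t → f t = 0) (hy : R ≤ y) :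
    ∫ t in Ioi y, f t = 0 := by
  rw [setIntegral_congr_fun measurableSet_Ioi (g := fun _ => (0:ℝ)) (fun t ht => h t (lt_of_le_of_lt hy ht))]
  simp

theorem DD_zero_right (hz : Adm z) : ∃ R : ℝ, 0 < R ∧ ∀ y, R ≤ y → DD z y = 0 ∧ DD1 z y = 0 ∧
    DD2 z y = 0 ∧ z y = 0 := by
  obtain ⟨r, R, hr, hrR, h0⟩ := hz.bounds
  have hR : ∀ t, R < t → z t = 0 := fun t ht => h0 t (fun h => absurd h.2 (not_le.2 ht))
  refine ⟨R + 1, by linarith, fun y hy => ?_⟩
  have e1 : ∫ t in Ioi y, t * z t = 0 := tail_zero (fun t ht => by simp [hR t ht]) (by linarith : R ≤ y)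
  have e2 : ∫ t in Ioi y, z t = 0 := tail_zero (fun t ht => by simp [hR t ht]) (by linarith : R ≤ y)
  have e3 : ∫ t in Ioi y, zm z t = 0 :=
    tail_zero (fun t ht => by simp [zm, hR t ht]) (by linarith : R ≤ y)
  refine ⟨by simp [DD, e1, e2, e3], by simp [DD1, e2, e3], by simp [DD2, e3], hR y (by linarith)⟩

theorem tail_const {f : ℝ → ℝ} (hf : Integrable f) {r y : ℝ} (h : ∀ t, t < r → f t = 0) (hy : 0 ≤ y)
    (hyr : y ≤ r) : ∫ t in Ioi y, f t = ∫ t in Ioi (0:ℝ), f t := by
  have := intervalIntegral.integral_Ioi_sub_Ioi' (μ := volume) (f := f) (a := 0) (b := y)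
    hf.integrableOn hf.integrableOn
  have h2 : ∫ t in (0:ℝ)..y, f t = 0 := by
    rw [intervalIntegral.integral_of_le hy, integral_Ioc_eq_integral_Ioo,
      setIntegral_congr_fun measurableSet_Ioo (g := fun _ => (0:ℝ))
        (fun t ht => h t (lt_of_lt_of_le ht.2 hyr))]
    simp
  linarith

/-- near zero: `|D| ≤ C y`, `|D'| ≤ C`, `|D''| ≤ C`. -/
theorem DD_near_zero (hz : Adm z) : ∃ C r : ℝ, 0 ≤ C ∧ 0 < r ∧ r ≤ 1 ∧ ∀ y, 0 ≤ y → y ≤ r →
    |DD z y| ≤ C * y ∧ |DD1 z y| ≤ C ∧ |DD2 z y| ≤ C ∧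
    DD1 z y = (1/10) * (∫ t in Ioi (0:ℝ), z t) - (y ^ 10 / 10) * ∫ t in Ioi (0:ℝ), zm z t := by
  obtain ⟨r, R, hr, hrR, h0⟩ := hz.bounds
  have hR : ∀ t, t < r → z t = 0 := fun t ht => h0 t (fun h => absurd h.1 (not_le.2 ht))
  set A := ∫ t in Ioi (0:ℝ), z t with hA
  set B := ∫ t in Ioi (0:ℝ), zm z t with hB
  refine ⟨|A| + |B|, min r 1, by positivity, lt_min hr one_pos, min_le_right _ _, fun y hy hyr => ?_⟩
  have hy1 : y ≤ 1 := hyr.trans (min_le_right _ _)
  have hyr' : y ≤ r := hyr.trans (min_le_left _ _)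
  have e1 : ∫ t in Ioi y, t * z t = 0 := by
    rw [tail_const hz.tz_int (fun t ht => by simp [hR t ht]) hy hyr', hz.mom]
  have e2 : ∫ t in Ioi y, z t = A := tail_const hz.z_int hR hy hyr'
  have e3 : ∫ t in Ioi y, zm z t = B := tail_const hz.zm_int (fun t ht => by simp [zm, hR t ht]) hy hyr'
  have p9 : y ^ 9 ≤ 1 := pow_le_one₀ hy hy1
  have p10 : y ^ 10 ≤ 1 := pow_le_one₀ hy hy1
  have p9' : 0 ≤ y ^ 9 := by positivity
  have p10' : 0 ≤ y ^ 10 := by positivity
  refine ⟨?_, ?_, ?_, ?_⟩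
  · have : DD z y = y * (A / 10 - y ^ 10 / 110 * B) := by
      simp only [DD, e1, e2, e3]; ring
    rw [this, abs_mul, abs_of_nonneg hy, mul_comm]
    refine mul_le_mul_of_nonneg_right ?_ hy
    calc |A / 10 - y ^ 10 / 110 * B| ≤ |A / 10| + |y ^ 10 / 110 * B| := abs_sub' _ _
      _ = |A| / 10 + y ^ 10 / 110 * |B| := by
          rw [abs_div, abs_mul, abs_of_nonneg (by positivity : 0 ≤ y ^ 10 / 110)]
          norm_num
      _ ≤ |A| + |B| := by
          have := abs_nonneg A
          have := abs_nonneg B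
          nlinarith
  · simp only [DD1, e2, e3]
    calc |1 / 10 * A - y ^ 10 / 10 * B| ≤ |1 / 10 * A| + |y ^ 10 / 10 * B| := abs_sub' _ _
      _ = |A| / 10 + y ^ 10 / 10 * |B| := by
          rw [abs_mul, abs_mul, abs_of_nonneg (by positivity : 0 ≤ y ^ 10 / 10)]
          norm_num; ring
      _ ≤ |A| + |B| := by
          have := abs_nonneg A
          have := abs_nonneg B
          nlinarith
  · simp only [DD2, e3]
    rw [abs_neg, abs_mul, abs_of_nonneg p9']
    have := abs_nonneg A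
    have := abs_nonneg B
    nlinarith
  · simp only [DD1, e2, e3]

end Crest.Agent.R213.E
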