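import Crest.Agent.R213.E.LinRep3

/-!
# Row 213, part E: the nonlinear fixed point
-/

set_option autoImplicit false

open Set MeasureTheory Filter Topology

noncomputable section

namespace Crest.Agent.R213.E

variable {b n1 cq Cq : ℝ} {n p : ℝ → ℝ}

theorem Rep.congr {κ : ℝ} {z z' D D1 : ℝ → ℝ} (h : Rep κ z D D1) (hz : z =ᵐ[mu0] z') :
    Rep κ z' D D1 where
  int := by
    intro y hy
    refine (h.int y hy).congr ?_
    have hae : z =ᵐ[volume.restrict (Ioi y)] z' :=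
      hz.filter_mono (ae_mono (Measure.restrict_mono (Ioi_subset_Ioi hy.le) le_rfl))
    filter_upwards [hae] with t ht
    rw [ht]
  hD := h.hD
  hD1 := by
    intro y hy
    rw [← QQ_congr hz hy]
    exact h.hD1 y hy
  lim0 := h.lim0
  lim1 := h.lim1

/-- the nonlinearity on the `L²` side -/
def gN (b : ℝ) (p : ℝ → ℝ) (N : ℝ → ℝ → ℝ → ℝ) (c : ℝ) (u : ℝ → ℝ) (y : ℝ) : ℝ :=
  chi b y / p y * N c y (u y / p y)

variable {c1 c2 η M : ℝ} {N : ℝ → ℝ → ℝ → ℝ} {F : ℝ → ℝ}

theorem gN_aemeas (hW : WData b n1 cq Cq n p) (hN : NLData b p c1 c2 η M N F) {c : ℝ}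
    (hc : c ∈ Icc c1 c2) {u : ℝ → ℝ} (hu : Measurable u) : AEStronglyMeasurable (gN b p N c u) mu0 := by
  set N' : ℝ → ℝ → ℝ := fun D y => (Ioi (0:ℝ)).indicator (fun y => N c y D) y with hN'
  have h1 : ∀ D, Measurable (N' D) := fun D => (hN.meas c hc D).indicator measurableSet_Ioi
  have h2 : ∀ y, Continuous fun D => N' D y := by
    intro y
    by_cases hy : y ∈ Ioi (0:ℝ)
    · simp only [hN', indicator_of_mem hy]
      have hL : LipschitzWith (Real.toNNReal (η * (p y ^ 2 / chi b y))) (fun D => N c y D) := by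
        refine LipschitzWith.of_dist_le_mul fun D D' => ?_
        rw [Real.dist_eq, Real.dist_eq, Real.coe_toNNReal]
        · exact hN.lip c hc y hy D D'
        · have := hN.η_nonneg
          have := chi_pos b y
          positivity
      exact hL.continuous
    · simp only [hN', indicator_of_notMem hy]
      exact continuous_const
  have h3 : Measurable (Function.uncurry N') := measurable_uncurry_of_continuous_of_measurable h2 h1
  have h4 : Measurable (fun y => N' (u y / p y) y) :=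
    h3.comp ((hu.div hW.p_meas).prodMk measurable_id)
  have h5 : Measurable (fun y => chi b y / p y * N' (u y / p y) y) := hW.q_meas.mul h4
  refine h5.aestronglyMeasurable.congr ?_
  filter_upwards [mem_mu0] with y hy
  simp only [gN, hN', indicator_of_mem hy]

theorem gN_diff (hW : WData b n1 cq Cq n p) (hN : NLData b p c1 c2 η M N F) {c : ℝ}
    (hc : c ∈ Icc c1 c2) (u v : ℝ → ℝ) {y : ℝ} (hy : 0 < y) :
    |gN b p N c u y - gN b p N c v y| ≤ η * |u y - v y| := by
  have hq := hW.q_pos hy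
  have hp := hW.p_pos y hy
  have hch := chi_pos b y
  have h := hN.lip c hc y hy (u y / p y) (v y / p y)
  simp only [gN]
  rw [← mul_sub, abs_mul, abs_of_pos hq]
  calc chi b y / p y * |N c y (u y / p y) - N c y (v y / p y)|
      ≤ chi b y / p y * (η * (p y ^ 2 / chi b y) * |u y / p y - v y / p y|) := by gcongr
    _ = η * |u y - v y| := by
        rw [← sub_div, abs_div, abs_of_pos hp]
        field_simp

theorem gN_zero (hW : WData b n1 cq Cq n p) (hN : NLData b p c1 c2 η M N F) {c : ℝ}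
    (hc : c ∈ Icc c1 c2) {y : ℝ} (hy : 0 < y) :
    |gN b p N c (fun _ => 0) y| ≤ chi b y / p y * F y := by
  have hq := hW.q_pos hy
  simp only [gN]
  rw [abs_mul, abs_of_pos hq, zero_div]
  have := hN.F_bd c hc y hy
  gcongr

theorem gN_bound (hW : WData b n1 cq Cq n p) (hN : NLData b p c1 c2 η M N F) {c : ℝ}
    (hc : c ∈ Icc c1 c2) (u : ℝ → ℝ) {y : ℝ} (hy : 0 < y) :
    |gN b p N c u y| ≤ chi b y / p y * F y + η * |u y| := by
  have h1 := gN_diff hW hN hc u (fun _ => 0) hy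
  have h2 := gN_zero hW hN hc hy
  simp only [sub_zero] at h1
  have e : gN b p N c u y = gN b p N c (fun _ => 0) y +
    (gN b p N c u y - gN b p N c (fun _ => 0) y) := by ring
  rw [e]
  exact (abs_add_le _ _).trans (add_le_add h2 h1)

theorem qF_memLp (hW : WData b n1 cq Cq n p) (hN : NLData b p c1 c2 η M N F) :
    MemLp (fun y => chi b y / p y * F y) 2 mu0 :=
  (memLp_two_iff_integrable_sq (hW.q_meas.mul hN.F_meas).aestronglyMeasurable).2 hN.F_int

theorem gN_memLp (hW : WData b n1 cq Cq n p) (hN : NLData b p c1 c2 η M N F) {c : ℝ}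
    (hc : c ∈ Icc c1 c2) (u : HH) : MemLp (gN b p N c u) 2 mu0 := by
  have h1 : MemLp (fun y => chi b y / p y * F y + η * |u y|) 2 mu0 :=
    (qF_memLp hW hN).add ((Lp.memLp u).abs.const_mul η)
  refine h1.of_le (gN_aemeas hW hN hc (HH_meas u)) ?_
  filter_upwards [mem_mu0] with y hy
  exact (gN_bound hW hN hc u hy).trans (le_abs_self _)

/-- fixed points -/
theorem exists_fix (hW : WData b n1 cq Cq n p) (hN : NLData b p c1 c2 η M N F)
    (S : HH →L[ℝ] HH) (hS : ∀ f, ‖S f‖ ≤ ‖f‖) {c : ℝ} (hc : c ∈ Icc c1 c2) :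
    ∃ f : HH, (f : ℝ → ℝ) =ᵐ[mu0] gN b p N c (S f) := by
  set Φ : HH → HH := fun f => (gN_memLp hW hN hc (S f)).toLp _ with hΦ
  have hlip : LipschitzWith (Real.toNNReal η) Φ := by
    refine LipschitzWith.of_dist_le_mul fun f g => ?_
    rw [dist_eq_norm, dist_eq_norm, Real.coe_toNNReal _ hN.η_nonneg]
    have h1 : ‖Φ f - Φ g‖ ≤ η * ‖S f - S g‖ := by
      refine Lp.norm_le_mul_norm_of_ae_le_mul ?_
      filter_upwards [Lp.coeFn_sub (Φ f) (Φ g), Lp.coeFn_sub (S f) (S g),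
        (gN_memLp hW hN hc (S f)).coeFn_toLp, (gN_memLp hW hN hc (S g)).coeFn_toLp, mem_mu0]
        with y e1 e2 e3 e4 hy
      rw [e1, e2, Pi.sub_apply, Pi.sub_apply, e3, e4]
      exact gN_diff hW hN hc _ _ hy
    refine h1.trans (mul_le_mul_of_nonneg_left ?_ hN.η_nonneg)
    rw [← map_sub]
    exact hS _
  have hcon : ContractingWith (Real.toNNReal η) Φ := by
    refine ⟨?_, hlip⟩
    rw [Real.toNNReal_lt_one]
    exact hN.η_lt
  have hfix := hcon.fixedPoint_isFixedPt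
  refine ⟨ContractingWith.fixedPoint Φ hcon, ?_⟩
  set f := ContractingWith.fixedPoint Φ hcon with hf
  have e : Φ f = f := hfix
  have := (gN_memLp hW hN hc (S f)).coeFn_toLp
  have e2 : ((gN_memLp hW hN hc (S f)).toLp _ : HH) = f := e
  rw [e2] at this
  exact this

theorem fix_bound (hW : WData b n1 cq Cq n p) (hN : NLData b p c1 c2 η M N F)
    (S : HH →L[ℝ] HH) (hS : ∀ f, ‖S f‖ ≤ ‖f‖) {c : ℝ} (hc : c ∈ Icc c1 c2) {f : HH}
    (hf : (f : ℝ → ℝ) =ᵐ[mu0] gN b p N c (S f)) : ‖f‖ ≤ M / (1 - η) := by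
  have hqF := qF_memLp hW hN
  have hqn : ‖(hqF.toLp _ : HH)‖ ≤ M := by
    have h1 := toLp_norm_sq hqF
    have h2 : ‖(hqF.toLp _ : HH)‖ ^ 2 ≤ M ^ 2 := by rw [h1]; exact hN.F_M
    exact (abs_le_of_sq_le_sq' h2 hN.M_nonneg).2
  have h1 : ‖f‖ ≤ ‖(hqF.toLp _ : HH) + η • |S f|‖ := by
    refine Lp.norm_le_norm_of_ae_le ?_
    filter_upwards [hf, hqF.coeFn_toLp, Lp.coeFn_add (hqF.toLp _ : HH) (η • |S f|),
      Lp.coeFn_smul η |S f|, Lp.coeFn_abs (S f), mem_mu0] with y e1 e2 e3 e4 e5 hy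
    rw [e1, e3, Pi.add_apply, e2, e4, Pi.smul_apply, e5, smul_eq_mul]
    exact (gN_bound hW hN hc _ hy).trans (le_abs_self _)
  have h2 : ‖(hqF.toLp _ : HH) + η • |S f|‖ ≤ M + η * ‖f‖ := by
    refine (norm_add_le _ _).trans (add_le_add hqn ?_)
    rw [norm_smul, norm_abs_eq_norm, Real.norm_of_nonneg hN.η_nonneg]
    exact mul_le_mul_of_nonneg_left (hS f) hN.η_nonneg
  have h3 := h1.trans h2
  have h4 := hN.η_lt
  rw [le_div_iff₀ (by linarith)]
  linarith

/-- continuity of the Nemytskii operator in `c`. -/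
theorem gN_cont (hW : WData b n1 cq Cq n p) (hN : NLData b p c1 c2 η M N F) {c : ℝ}
    (hc : c ∈ Icc c1 c2) (u : HH) :
    Tendsto (fun c' => ∫ y, (gN b p N c' u y - gN b p N c u y) ^ 2 ∂mu0) (𝓝[Icc c1 c2] c) (𝓝 0) := by
  have h1 : MemLp (fun y => chi b y / p y * F y + η * |u y|) 2 mu0 :=
    (qF_memLp hW hN).add ((Lp.memLp u).abs.const_mul η)
  have h2 := (h1.const_mul 2).integrable_sq
  have key : Tendsto (fun c' => ∫ y, (gN b p N c' u y - gN b p N c u y) ^ 2 ∂mu0) (𝓝[Icc c1 c2] c)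
      (𝓝 (∫ _, (0:ℝ) ∂mu0)) := by
    refine tendsto_integral_filter_of_dominated_convergence
      (fun y => (2 * (chi b y / p y * F y + η * |u y|)) ^ 2) ?_ ?_ h2 ?_
    · filter_upwards [self_mem_nhdsWithin] with c' hc'
      exact ((gN_aemeas hW hN hc' (HH_meas u)).sub (gN_aemeas hW hN hc (HH_meas u))).pow 2
    · filter_upwards [self_mem_nhdsWithin] with c' hc'
      filter_upwards [mem_mu0] with y hy
      have b1 := gN_bound hW hN hc' u hy
      have b2 := gN_bound hW hN hc u hy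
      rw [Real.norm_of_nonneg (sq_nonneg _), ← sq_abs]
      refine pow_le_pow_left₀ (abs_nonneg _) ((abs_sub' _ _).trans ?_) 2
      linarith
    · filter_upwards [mem_mu0] with y hy
      have hcc := hN.cont y hy (u y / p y) c hc
      have t1 : Tendsto (fun c' => gN b p N c' u y) (𝓝[Icc c1 c2] c) (𝓝 (gN b p N c u y)) :=
        hcc.tendsto.const_mul _
      have t2 := (t1.sub_const (gN b p N c u y)).pow 2
      simpa using t2
  simpa using key

theorem fix_cont (hW : WData b n1 cq Cq n p) (hN : NLData b p c1 c2 η M N F)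
    (S : HH →L[ℝ] HH) (hS : ∀ f, ‖S f‖ ≤ ‖f‖) {f : ℝ → HH}
    (hf : ∀ c ∈ Icc c1 c2, (f c : ℝ → ℝ) =ᵐ[mu0] gN b p N c (S (f c))) :
    ContinuousOn f (Icc c1 c2) := by
  intro c hc
  have hη := hN.η_lt
  have hη0 := hN.η_nonneg
  have hg := gN_cont hW hN hc (S (f c))
  have hs : Tendsto (fun c' => √(∫ y, (gN b p N c' (S (f c)) y - gN b p N c (S (f c)) y) ^ 2 ∂mu0) /
      (1 - η)) (𝓝[Icc c1 c2] c) (𝓝 0) := by
    have := (hg.sqrt).div_const (1 - η)
    simpa using this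
  show Tendsto f (𝓝[Icc c1 c2] c) (𝓝 (f c))
  rw [tendsto_iff_norm_sub_tendsto_zero]
  refine squeeze_zero' (Eventually.of_forall fun _ => norm_nonneg _) ?_ hs
  filter_upwards [self_mem_nhdsWithin] with c' hc'
  set P : HH := (gN_memLp hW hN hc' (S (f c))).toLp _ with hP
  have hPe : (P : ℝ → ℝ) =ᵐ[mu0] gN b p N c' (S (f c)) := (gN_memLp hW hN hc' (S (f c))).coeFn_toLp
  have h1 : ‖f c' - P‖ ≤ η * ‖f c' - f c‖ := by
    have h1 : ‖f c' - P‖ ≤ η * ‖S (f c') - S (f c)‖ := by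
      refine Lp.norm_le_mul_norm_of_ae_le_mul ?_
      filter_upwards [Lp.coeFn_sub (f c') P, Lp.coeFn_sub (S (f c')) (S (f c)), hPe, hf c' hc', mem_mu0]
        with y e1 e2 e3 e4 hy
      rw [e1, e2, Pi.sub_apply, Pi.sub_apply, e3, e4]
      exact gN_diff hW hN hc' _ _ hy
    refine h1.trans (mul_le_mul_of_nonneg_left ?_ hη0)
    rw [← map_sub]
    exact hS _
  have h2 : ‖P - f c‖ = √(∫ y, (gN b p N c' (S (f c)) y - gN b p N c (S (f c)) y) ^ 2 ∂mu0) := by
    have e : ‖P - f c‖ ^ 2 = ∫ y, (gN b p N c' (S (f c)) y - gN b p N c (S (f c)) y) ^ 2 ∂mu0 := by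
      rw [HH_norm_sq]
      refine integral_congr_ae ?_
      filter_upwards [Lp.coeFn_sub P (f c), hPe, hf c hc] with y e1 e2 e3
      rw [e1, Pi.sub_apply, e2, e3]
    rw [← e, Real.sqrt_sq (norm_nonneg _)]
  have h3 : ‖f c' - f c‖ ≤ ‖f c' - P‖ + ‖P - f c‖ := norm_sub_le_norm_sub_add_norm_sub _ _ _
  rw [le_div_iff₀ (by linarith), ← h2]
  linarith

/-- **existence for the nonlinear problem** (row 213, E-LIN + E-NL) -/
theorem nl_exists (hW : WData b n1 cq Cq n p) (hN : NLData b p c1 c2 η M N F) :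
    ∃ (D D1 : ℝ → ℝ → ℝ) (κ : ℝ → ℝ), ContinuousOn κ (Icc c1 c2) ∧ ∀ c ∈ Icc c1 c2,
      Rep (κ c) (fun t => N c t (D c t) - n t * D c t) (D c) (D1 c) ∧
      IntegrableOn (fun y => (p y * D c y) ^ 2) (Ioi 0) ∧
      ∫ y in Ioi (0 : ℝ), (p y * D c y) ^ 2 ≤ (M / (1 - η)) ^ 2 := by
  obtain ⟨S, hS, hSV⟩ := exists_solver hW
  have hfix : ∀ c : ℝ, ∃ f : HH, c ∈ Icc c1 c2 → (f : ℝ → ℝ) =ᵐ[mu0] gN b p N c (S f) := by
    intro c
    by_cases hc : c ∈ Icc c1 c2
    · obtain ⟨f, hf⟩ := exists_fix hW hN S hS hc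
      exact ⟨f, fun _ => hf⟩
    · exact ⟨0, fun h => absurd h hc⟩
  choose f hf using hfix
  have hcont := fix_cont hW hN S hS (f := f) hf
  choose κ hκ using fun c => RepP_closure hW (hSV (f c))
  set z : ℝ → ℝ → ℝ := fun c => ZZ b n p (S (f c)) (f c) with hz
  refine ⟨fun c y => κ c * y - KK (z c) y, fun c y => κ c - ∫ s in (0:ℝ)..y, GG (z c) s, κ, ?_, ?_⟩
  · intro c hc
    show Tendsto κ (𝓝[Icc c1 c2] c) (𝓝 (κ c))
    rw [tendsto_iff_norm_sub_tendsto_zero]
    have h1 : ∀ c', ‖κ c' - κ c‖ ≤ C2 b n1 cq Cq * (2 * ‖f c' - f c‖) := by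
      intro c'
      refine (RepP_bound hW (RepP_sub hW (hκ c') (hκ c))).trans ?_
      refine mul_le_mul_of_nonneg_left ?_ (C2_nonneg hW)
      simp only [Prod.fst_sub, Prod.snd_sub]
      rw [← map_sub]
      linarith [hS (f c' - f c)]
    have h2 : Tendsto (fun c' => C2 b n1 cq Cq * (2 * ‖f c' - f c‖)) (𝓝[Icc c1 c2] c) (𝓝 0) := by
      have h3 : Tendsto f (𝓝[Icc c1 c2] c) (𝓝 (f c)) := hcont c hc
      have := ((tendsto_iff_norm_sub_tendsto_zero.1 h3).const_mul 2).const_mul (C2 b n1 cq Cq)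
      simpa using this
    exact squeeze_zero (fun _ => norm_nonneg _) h1 h2
  · intro c hc
    have hD : ∀ᵐ y ∂mu0, κ c * y - KK (z c) y = S (f c) y / p y := by
      filter_upwards [hκ c] with y hy
      exact hy.symm
    refine ⟨?_, ?_, ?_⟩
    · refine (rep_of_TB (κ := κ c) (TB_ZZ hW (S (f c), f c))).congr ?_
      filter_upwards [hD, hf c hc, mem_mu0] with t h1 h2 ht
      have hq := (hW.q_pos ht).ne'
      rw [h1]
      simp only [ZZ]
      rw [h2]
      simp only [gN]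
      rw [mul_div_cancel_left₀ _ hq]
    · have h1 := (Lp.memLp (S (f c))).integrable_sq
      refine Integrable.congr h1 ?_
      filter_upwards [hD, mem_mu0] with y h1 hy
      have hp := (hW.p_pos y hy).ne'
      rw [h1]
      field_simp
    · have e : ∫ y in Ioi (0 : ℝ), (p y * (κ c * y - KK (z c) y)) ^ 2 = ‖S (f c)‖ ^ 2 := by
        rw [HH_norm_sq]
        refine integral_congr_ae ?_
        filter_upwards [hD, mem_mu0] with y h1 hy
        have hp := (hW.p_pos y hy).ne'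
        rw [h1]
        field_simp
      rw [e]
      have h1 := fix_bound hW hN S hS hc (hf c hc)
      exact pow_le_pow_left₀ (norm_nonneg _) ((hS (f c)).trans h1) 2

end Crest.Agent.R213.E
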