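import Crest.Agent.R213.E.EDefs

/-! Row 213, PART E: pointwise bound of the correction (helper510). -/

set_option autoImplicit false

open Set MeasureTheory Filter Topology

noncomputable section

namespace Crest.Agent.R213.E

namespace PtB

theorem mono1 {Y : ℝ} {F F1 : ℝ → ℝ} (h1 : ∀ y, 0 < y → y ≤ Y → HasDerivAt F (F1 y) y)
    (h3 : ∀ y, 0 < y → y ≤ Y → 0 ≤ F1 y) (l0 : Tendsto F (𝓝[>] 0) (𝓝 0)) :
    ∀ y, 0 < y → y ≤ Y → 0 ≤ F y := by
  have hmono : MonotoneOn F (Ioc 0 Y) := by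
    refine monotoneOn_of_deriv_nonneg (convex_Ioc 0 Y) ?_ ?_ ?_
    · exact fun t ht => (h1 t ht.1 ht.2).continuousAt.continuousWithinAt
    · intro t ht
      rw [interior_Ioc] at ht
      exact (h1 t ht.1 ht.2.le).differentiableAt.differentiableWithinAt
    · intro t ht
      rw [interior_Ioc] at ht
      rw [(h1 t ht.1 ht.2.le).deriv]
      exact h3 t ht.1 ht.2.le
  intro y hy hyY
  refine le_of_tendsto l0 ?_
  filter_upwards [Ioo_mem_nhdsGT hy] with s hs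
  exact hmono ⟨hs.1, hs.2.le.trans hyY⟩ ⟨hy, hyY⟩ hs.2.le

theorem mono2 {Y : ℝ} {F F1 F2 : ℝ → ℝ} (h1 : ∀ y, 0 < y → y ≤ Y → HasDerivAt F (F1 y) y)
    (h2 : ∀ y, 0 < y → y ≤ Y → HasDerivAt F1 (F2 y) y)
    (h3 : ∀ y, 0 < y → y ≤ Y → 0 ≤ F2 y) (l0 : Tendsto F (𝓝[>] 0) (𝓝 0))
    (l1 : Tendsto F1 (𝓝[>] 0) (𝓝 0)) :
    ∀ y, 0 < y → y ≤ Y → 0 ≤ F1 y ∧ 0 ≤ F y := by
  have a := mono1 h2 h3 l1
  exact fun y hy hyY => ⟨a y hy hyY, mono1 h1 a l0 y hy hyY⟩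

/-- comparison of `D` with an explicit function. -/
theorem cmp {Y : ℝ} {D D1 D2 Φ Φ1 Φ2 : ℝ → ℝ}
    (h1 : ∀ y, 0 < y → y ≤ Y → HasDerivAt D (D1 y) y)
    (h2 : ∀ y, 0 < y → y ≤ Y → HasDerivAt D1 (D2 y) y)
    (p1 : ∀ y, 0 < y → y ≤ Y → HasDerivAt Φ (Φ1 y) y)
    (p2 : ∀ y, 0 < y → y ≤ Y → HasDerivAt Φ1 (Φ2 y) y)
    (h3 : ∀ y, 0 < y → y ≤ Y → |D2 y| ≤ Φ2 y)
    (l0 : Tendsto D (𝓝[>] 0) (𝓝 0)) (l1 : Tendsto D1 (𝓝[>] 0) (𝓝 0))
    (q0 : Tendsto Φ (𝓝[>] 0) (𝓝 0)) (q1 : Tendsto Φ1 (𝓝[>] 0) (𝓝 0)) :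
    ∀ y, 0 < y → y ≤ Y → |D1 y| ≤ Φ1 y ∧ |D y| ≤ Φ y := by
  intro y hy hyY
  have a := mono2 (F := fun y => Φ y - D y) (F1 := fun y => Φ1 y - D1 y)
    (F2 := fun y => Φ2 y - D2 y) (fun y a b => (p1 y a b).sub (h1 y a b))
    (fun y a b => (p2 y a b).sub (h2 y a b))
    (fun y a b => sub_nonneg.2 ((le_abs_self _).trans (h3 y a b)))
    (by simpa using q0.sub l0) (by simpa using q1.sub l1) y hy hyY
  have b := mono2 (F := fun y => Φ y + D y) (F1 := fun y => Φ1 y + D1 y)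
    (F2 := fun y => Φ2 y + D2 y) (fun y a b => (p1 y a b).add (h1 y a b))
    (fun y a b => (p2 y a b).add (h2 y a b))
    (fun y a b => by have := (neg_abs_le (D2 y)); have := h3 y a b; linarith)
    (by simpa using q0.add l0) (by simpa using q1.add l1) y hy hyY
  constructor
  · rw [abs_le]
    constructor <;> linarith [a.1, b.1]
  · rw [abs_le]
    constructor <;> linarith [a.2, b.2]

theorem tendsto_of_cont {Φ : ℝ → ℝ} (h : Continuous Φ) (h0 : Φ 0 = 0) :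
    Tendsto Φ (𝓝[>] 0) (𝓝 0) := by
  have := h.tendsto 0
  rw [h0] at this
  exact this.mono_left nhdsWithin_le_nhds

theorem Q_bd {z D D1 : ℝ → ℝ} (hR : Rep 0 z D D1) {L ε Z M σ : ℝ} (hL0 : 0 ≤ L)
    (hε : 0 ≤ ε) (hz : ∀ y, 0 < y → y ≤ 2 → |z y| ≤ L * |D y| + ε * y ^ 10)
    (hQ : ∀ y, 2 ≤ y → |QQ z y| ≤ Z / y) (hσ : 0 ≤ σ) (hM : 0 ≤ M)
    (hD : ∀ y, 0 < y → y ≤ 2 → |D y| ≤ M * (y ^ 11 + σ * y)) {s : ℝ} (hs : 0 < s) (hs2 : s ≤ 2) :
    |QQ z s| ≤ Z / 2 + 2 * ε + L * M * (2 + σ / 8 / s ^ 8) := by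
  have hsplit : QQ z s = (∫ t in Ioc s 2, (t ^ 10)⁻¹ * z t) + QQ z 2 := by
    unfold QQ
    rw [← Ioc_union_Ioi_eq_Ioi hs2, setIntegral_union (Ioc_disjoint_Ioi le_rfl) measurableSet_Ioi]
    · exact (hR.int s hs).mono_set Ioc_subset_Ioi_self
    · exact (hR.int s hs).mono_set (Ioi_subset_Ioi hs2)
  have hcont : ContinuousOn (fun t : ℝ => L * M * (t + σ * (t ^ 9)⁻¹) + ε) (Icc s 2) := by
    intro t ht
    have : t ≠ 0 := (hs.trans_le ht.1).ne'
    have h9 : t ^ 9 ≠ 0 := pow_ne_zero _ this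
    fun_prop (disch := assumption)
  have hb : ‖∫ t in Ioc s 2, (t ^ 10)⁻¹ * z t‖ ≤
      ∫ t in Ioc s 2, (L * M * (t + σ * (t ^ 9)⁻¹) + ε) := by
    refine norm_integral_le_of_norm_le ?_ ?_
    · exact (hcont.integrableOn_Icc).mono_set Ioc_subset_Icc_self
    · refine (ae_restrict_iff' measurableSet_Ioc).2 (Eventually.of_forall fun t ht => ?_)
      have t0 : 0 < t := hs.trans ht.1
      rw [Real.norm_eq_abs, abs_mul, abs_of_pos (inv_pos.2 (pow_pos t0 10))]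
      have h1 := hz t t0 ht.2
      have h2 := hD t t0 ht.2
      have h3 : |z t| ≤ L * (M * (t ^ 11 + σ * t)) + ε * t ^ 10 :=
        h1.trans (add_le_add_left (mul_le_mul_of_nonneg_left h2 hL0) _)
      calc (t ^ 10)⁻¹ * |z t| ≤ (t ^ 10)⁻¹ * (L * (M * (t ^ 11 + σ * t)) + ε * t ^ 10) :=
            mul_le_mul_of_nonneg_left h3 (inv_nonneg.2 (pow_nonneg t0.le 10))
        _ = L * M * (t + σ * (t ^ 9)⁻¹) + ε := by
            field_simp
  have hint : ∫ t in Ioc s 2, (L * M * (t + σ * (t ^ 9)⁻¹) + ε) =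
      (L * M * ((2 : ℝ) ^ 2 / 2 - σ / 8 * ((2 : ℝ) ^ 8)⁻¹) + ε * 2) -
      (L * M * (s ^ 2 / 2 - σ / 8 * (s ^ 8)⁻¹) + ε * s) := by
    rw [← intervalIntegral.integral_of_le hs2]
    refine intervalIntegral.integral_eq_sub_of_hasDerivAt
      (f := fun t => L * M * (t ^ 2 / 2 - σ / 8 * (t ^ 8)⁻¹) + ε * t) ?_ ?_
    · intro t ht
      rw [uIcc_of_le hs2] at ht
      have t0 : t ≠ 0 := (hs.trans_le ht.1).ne'
      have h8 : HasDerivAt (fun t : ℝ => (t ^ 8)⁻¹) (-(8 * t ^ 7) / (t ^ 8) ^ 2) t := by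
        have := (hasDerivAt_pow 8 t).inv (pow_ne_zero _ t0)
        refine HasDerivAt.congr_deriv this ?_
        norm_num
      refine (((((hasDerivAt_pow 2 t).div_const 2).sub (h8.const_mul (σ / 8))).const_mul
        (L * M)).add ((hasDerivAt_id t).const_mul ε)).congr_deriv ?_
      field_simp
      ring
    · exact (hcont.mono (by rw [uIcc_of_le hs2])).intervalIntegrable
  rw [hint] at hb
  have h2 := hQ 2 le_rfl
  rw [hsplit]
  have e8 : 0 ≤ σ / 8 * ((2 : ℝ) ^ 8)⁻¹ := by positivity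
  have hLM : 0 ≤ L * M := mul_nonneg hL0 hM
  have e1 : 0 ≤ L * M * (σ / 8 * ((2 : ℝ) ^ 8)⁻¹) := mul_nonneg hLM e8
  have e2 : 0 ≤ L * M * (s ^ 2 / 2) := by positivity
  have e3 : 0 ≤ ε * s := mul_nonneg hε hs.le
  calc |(∫ t in Ioc s 2, (t ^ 10)⁻¹ * z t) + QQ z 2| ≤ _ := abs_add_le _ _
    _ ≤ _ := add_le_add hb h2
    _ ≤ _ := by
      rw [div_eq_mul_inv (σ / 8)]
      nlinarith

/-- `|D| ≤ C y` near `0`. -/
theorem lin_bd {z D D1 : ℝ → ℝ} (hR : Rep 0 z D D1) :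
    ∃ C, 0 ≤ C ∧ ∀ y, 0 < y → y ≤ 2 → |D y| ≤ C * y := by
  -- `D1` is bounded on `(0,2]`
  have h1 : ∀ᶠ y in 𝓝[>] (0 : ℝ), |D1 y| < 1 := by
    have := hR.lim1.abs
    rw [abs_zero] at this
    exact this.eventually (gt_mem_nhds one_pos)
  obtain ⟨r, hr, hr1⟩ := mem_nhdsGT_iff_exists_Ioc_subset.1 h1
  have hr0 : (0 : ℝ) < r := hr
  obtain ⟨C, hC⟩ := (isCompact_Icc (a := min r 2) (b := 2)).exists_bound_of_continuousOn
    (f := D1) (fun y hy => by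
      have : 0 < y := lt_of_lt_of_le (lt_min hr0 two_pos) hy.1
      exact (hR.hD1 y this).continuousAt.continuousWithinAt)
  have hb : ∀ y, 0 < y → y ≤ 2 → |D1 y| ≤ max 1 C := by
    intro y hy hy2
    by_cases h : y ≤ r
    · exact le_max_of_le_left (le_of_lt (hr1 ⟨hy, h⟩))
    · exact le_max_of_le_right (hC y ⟨(min_le_left _ _).trans (le_of_not_ge h), hy2⟩)
  have hC0 : 0 ≤ max 1 C := le_max_of_le_left zero_le_one
  refine ⟨max 1 C, hC0, fun y hy hy2 => ?_⟩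
  have hlin : ∀ y : ℝ, HasDerivAt (fun y => max 1 C * y) (max 1 C) y := fun y => by
    simpa using (hasDerivAt_id y).const_mul (max 1 C)
  have hl0 : Tendsto (fun y => max 1 C * y) (𝓝[>] 0) (𝓝 0) :=
    tendsto_of_cont (by fun_prop) (by simp)
  have a := mono1 (Y := 2) (F := fun y => max 1 C * y - D y) (F1 := fun y => max 1 C - D1 y)
    (fun y a _ => (hlin y).sub (hR.hD y a))
    (fun y a b => sub_nonneg.2 ((le_abs_self _).trans (hb y a b)))
    (by simpa using hl0.sub hR.lim0) y hy hy2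
  have b := mono1 (Y := 2) (F := fun y => max 1 C * y + D y) (F1 := fun y => max 1 C + D1 y)
    (fun y a _ => (hlin y).add (hR.hD y a))
    (fun y a b => by have := neg_abs_le (D1 y); have := hb y a b; linarith)
    (by simpa using hl0.add hR.lim0) y hy hy2
  rw [abs_le]
  constructor <;> linarith

/-- one improvement step. -/
theorem step {z D D1 : ℝ → ℝ} (hR : Rep 0 z D D1) {L ε Z M σ : ℝ} (hL0 : 0 ≤ L) (hL : L ≤ 3)
    (hε : 0 ≤ ε) (hz : ∀ y, 0 < y → y ≤ 2 → |z y| ≤ L * |D y| + ε * y ^ 10)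
    (hQ : ∀ y, 2 ≤ y → |QQ z y| ≤ Z / y) (hσ : 0 ≤ σ) (hM : 0 ≤ M)
    (hD : ∀ y, 0 < y → y ≤ 2 → |D y| ≤ M * (y ^ 11 + σ * y)) :
    ∀ y, 0 < y → y ≤ 2 → |D y| ≤ ((Z / 2 + 2 * ε) / 110 + M / 4) * (y ^ 11 + σ * y) := by
  have hLM : 0 ≤ L * M := mul_nonneg hL0 hM
  have hZ : 0 ≤ Z := by
    have := (abs_nonneg _).trans (hQ 2 le_rfl)
    linarith
  set A : ℝ := Z / 2 + 2 * ε with hA
  have hA0 : 0 ≤ A := by positivity
  have key := cmp (Y := 2) (D := D) (D1 := D1) (D2 := fun y => -(y ^ 9 * QQ z y))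
    (Φ := fun y => A * y ^ 11 / 110 + L * M * (2 * y ^ 11 / 110 + σ * y ^ 3 / 48))
    (Φ1 := fun y => A * y ^ 10 / 10 + L * M * (2 * y ^ 10 / 10 + σ * y ^ 2 / 16))
    (Φ2 := fun y => A * y ^ 9 + L * M * (2 * y ^ 9 + σ * y / 8))
    (fun y a _ => hR.hD y a) (fun y a _ => hR.hD1 y a)
    (fun y _ _ => by
      refine ((((hasDerivAt_pow 11 y).const_mul A).div_const 110).add
        (((((hasDerivAt_pow 11 y).const_mul 2).div_const 110).add
        (((hasDerivAt_pow 3 y).const_mul σ).div_const 48)).const_mul (L * M))).congr_deriv ?_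
      norm_num
      ring)
    (fun y _ _ => by
      refine ((((hasDerivAt_pow 10 y).const_mul A).div_const 10).add
        (((((hasDerivAt_pow 10 y).const_mul 2).div_const 10).add
        (((hasDerivAt_pow 2 y).const_mul σ).div_const 16)).const_mul (L * M))).congr_deriv ?_
      norm_num
      ring)
    (fun y a b => by
      rw [abs_neg, abs_mul, abs_of_pos (pow_pos a 9)]
      have h1 := Q_bd hR hL0 hε hz hQ hσ hM hD a b
      calc y ^ 9 * |QQ z y| ≤ y ^ 9 * (Z / 2 + 2 * ε + L * M * (2 + σ / 8 / y ^ 8)) :=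
            mul_le_mul_of_nonneg_left h1 (pow_nonneg a.le 9)
        _ = A * y ^ 9 + L * M * (2 * y ^ 9 + σ * y / 8) := by
            rw [hA]
            field_simp)
    hR.lim0 hR.lim1 (tendsto_of_cont (by fun_prop) (by simp))
    (tendsto_of_cont (by fun_prop) (by simp))
  intro y hy hy2
  refine (key y hy hy2).2.trans ?_
  have y2 : y ^ 2 ≤ 4 := by nlinarith
  have y3 : y ^ 3 ≤ 4 * y := by
    have := mul_le_mul_of_nonneg_left y2 hy.le
    nlinarith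
  have hσy : 0 ≤ σ * y := mul_nonneg hσ hy.le
  have h11 : 0 ≤ y ^ 11 := pow_nonneg hy.le 11
  have e1 : σ * y ^ 3 / 48 ≤ σ * y / 12 := by
    have := mul_le_mul_of_nonneg_left y3 hσ
    linarith
  have e2 : 2 * y ^ 11 / 110 + σ * y ^ 3 / 48 ≤ 1 / 12 * (y ^ 11 + σ * y) := by linarith
  have e3 : 0 ≤ y ^ 11 + σ * y := by linarith
  have e4 : L * M * (2 * y ^ 11 / 110 + σ * y ^ 3 / 48) ≤ 3 * M * (1 / 12 * (y ^ 11 + σ * y)) :=
    mul_le_mul (mul_le_mul_of_nonneg_right hL hM) e2 (by positivity) (by positivity)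
  have e5 : 0 ≤ A * (σ * y) := mul_nonneg hA0 hσy
  nlinarith

theorem near {z D D1 : ℝ → ℝ} (hR : Rep 0 z D D1) {L ε Z : ℝ} (hL0 : 0 ≤ L) (hL : L ≤ 3)
    (hε : 0 ≤ ε) (hz : ∀ y, 0 < y → y ≤ 2 → |z y| ≤ L * |D y| + ε * y ^ 10)
    (hQ : ∀ y, 2 ≤ y → |QQ z y| ≤ Z / y) :
    ∀ y, 0 < y → y ≤ 2 → |D y| ≤ 4 / 330 * (Z / 2 + 2 * ε) * (y ^ 11) := by
  obtain ⟨C, hC0, hC⟩ := lin_bd hR
  have hZ : 0 ≤ Z := by
    have := (abs_nonneg _).trans (hQ 2 le_rfl)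
    linarith
  have hσ : ∀ σ : ℝ, 0 < σ → ∀ y, 0 < y → y ≤ 2 →
      |D y| ≤ 4 / 330 * (Z / 2 + 2 * ε) * (y ^ 11 + σ * y) := by
    intro σ hσ
    set T : Set ℝ := {M | 0 ≤ M ∧ ∀ y, 0 < y → y ≤ 2 → |D y| ≤ M * (y ^ 11 + σ * y)} with hT
    have hne : T.Nonempty := by
      refine ⟨C / σ, by positivity, fun y hy hy2 => (hC y hy hy2).trans ?_⟩
      have h11 : 0 ≤ y ^ 11 := pow_nonneg hy.le 11
      have : C / σ * (y ^ 11 + σ * y) = C / σ * y ^ 11 + C * y := by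
        field_simp
      rw [this]
      have := mul_nonneg (div_nonneg hC0 hσ.le) h11
      linarith
    have hbdd : BddBelow T := ⟨0, fun M hM => hM.1⟩
    have hm0 : 0 ≤ sInf T := le_csInf hne fun M hM => hM.1
    have hmem : sInf T ∈ T := by
      refine ⟨hm0, fun y hy hy2 => ?_⟩
      have hp : 0 < y ^ 11 + σ * y := by positivity
      rw [← div_le_iff₀ hp]
      exact le_csInf hne fun M hM => (div_le_iff₀ hp).2 (hM.2 y hy hy2)
    have hstep : (Z / 2 + 2 * ε) / 110 + sInf T / 4 ∈ T :=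
      ⟨by positivity, step hR hL0 hL hε hz hQ hσ.le hm0 hmem.2⟩
    have h1 := csInf_le hbdd hstep
    intro y hy hy2
    have hp : 0 < y ^ 11 + σ * y := by positivity
    refine (hmem.2 y hy hy2).trans (mul_le_mul_of_nonneg_right ?_ hp.le)
    linarith
  intro y hy hy2
  have hl : Tendsto (fun σ : ℝ => 4 / 330 * (Z / 2 + 2 * ε) * (y ^ 11 + σ * y)) (𝓝[>] 0)
      (𝓝 (4 / 330 * (Z / 2 + 2 * ε) * (y ^ 11 + 0 * y))) := by
    apply Tendsto.mono_left _ nhdsWithin_le_nhds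
    exact Continuous.tendsto (by fun_prop) 0
  rw [zero_mul, add_zero] at hl
  refine ge_of_tendsto hl ?_
  filter_upwards [self_mem_nhdsWithin] with σ hs
  exact hσ σ hs y hy hy2

/-- comparison on `[a, ∞)`. -/
theorem mono2' {a : ℝ} {F F1 F2 : ℝ → ℝ} (h1 : ∀ y, a ≤ y → HasDerivAt F (F1 y) y)
    (h2 : ∀ y, a ≤ y → HasDerivAt F1 (F2 y) y)
    (h3 : ∀ y, a ≤ y → 0 ≤ F2 y) (l0 : 0 ≤ F a) (l1 : 0 ≤ F1 a) :
    ∀ y, a ≤ y → 0 ≤ F y := by
  have m : ∀ {F F1 : ℝ → ℝ}, (∀ y, a ≤ y → HasDerivAt F (F1 y) y) → (∀ y, a ≤ y → 0 ≤ F1 y) →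
      0 ≤ F a → ∀ y, a ≤ y → 0 ≤ F y := by
    intro F F1 h1 h3 l0 y hy
    have hmono : MonotoneOn F (Ici a) := by
      refine monotoneOn_of_deriv_nonneg (convex_Ici a) ?_ ?_ ?_
      · exact fun t ht => (h1 t ht).continuousAt.continuousWithinAt
      · intro t ht
        rw [interior_Ici] at ht
        exact (h1 t (le_of_lt ht)).differentiableAt.differentiableWithinAt
      · intro t ht
        rw [interior_Ici] at ht
        rw [(h1 t (le_of_lt ht)).deriv]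
        exact h3 t (le_of_lt ht)
    exact l0.trans (hmono (le_refl a : a ∈ Ici a) hy hy)
  exact m h1 (m h2 h3 l1) l0

end PtB

open PtB in
theorem pt_bound {z D D1 : ℝ → ℝ} (hR : Rep 0 z D D1) {L ε Z : ℝ} (hL0 : 0 ≤ L) (hL : L ≤ 3)
    (hε : 0 ≤ ε) (hz : ∀ y, 0 < y → y ≤ 2 → |z y| ≤ L * |D y| + ε * y ^ 10)
    (hQ : ∀ y, 2 ≤ y → |QQ z y| ≤ Z / y) :
    ∀ y, 0 < y → |D y| ≤ (Z / 40 + ε / 16) * y ^ 10 := by
  have hZ : 0 ≤ Z := by
    have := (abs_nonneg _).trans (hQ 2 le_rfl)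
    linarith
  set A : ℝ := Z / 2 + 2 * ε with hA
  have hA0 : 0 ≤ A := by positivity
  have hn := near hR hL0 hL hε hz hQ
  rw [← hA] at hn
  have hm0 : 0 ≤ 4 / 330 * A := by positivity
  have hn' : ∀ y, 0 < y → y ≤ 2 → |D y| ≤ 4 / 330 * A * (y ^ 11 + 0 * y) := by
    simpa using hn
  -- bound of `Q` on `(0,2]`
  set q : ℝ := 118 / 110 * A with hq
  have hq0 : 0 ≤ q := by positivity
  have hQ2 : ∀ y, 0 < y → y ≤ 2 → |QQ z y| ≤ q := by
    intro y hy hy2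
    have := Q_bd hR hL0 hε hz hQ le_rfl hm0 hn' hy hy2
    refine this.trans ?_
    have e1 : L * (4 / 330 * A) ≤ 3 * (4 / 330 * A) := mul_le_mul_of_nonneg_right hL hm0
    simp only [zero_div, add_zero]
    rw [← hA, hq]
    nlinarith
  have key := cmp (Y := 2) (D := D) (D1 := D1) (D2 := fun y => -(y ^ 9 * QQ z y))
    (Φ := fun y => q * y ^ 11 / 110) (Φ1 := fun y => q * y ^ 10 / 10) (Φ2 := fun y => q * y ^ 9)
    (fun y a _ => hR.hD y a) (fun y a _ => hR.hD1 y a)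
    (fun y _ _ => by
      refine (((hasDerivAt_pow 11 y).const_mul q).div_const 110).congr_deriv ?_
      norm_num
      ring)
    (fun y _ _ => by
      refine (((hasDerivAt_pow 10 y).const_mul q).div_const 10).congr_deriv ?_
      norm_num
      ring)
    (fun y a b => by
      rw [abs_neg, abs_mul, abs_of_pos (pow_pos a 9), mul_comm]
      exact mul_le_mul_of_nonneg_right (hQ2 y a b) (pow_nonneg a.le 9))
    hR.lim0 hR.lim1 (tendsto_of_cont (by fun_prop) (by simp))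
    (tendsto_of_cont (by fun_prop) (by simp))
  obtain ⟨k1, k2⟩ := key 2 two_pos le_rfl
  intro y hy
  rcases le_or_gt y 2 with h | h
  · refine (hn y hy h).trans ?_
    have h10 : 0 ≤ y ^ 10 := pow_nonneg hy.le 10
    have e1 : y ^ 11 ≤ 2 * y ^ 10 := by
      rw [pow_succ]
      nlinarith
    calc 4 / 330 * A * y ^ 11 ≤ 4 / 330 * A * (2 * y ^ 10) := mul_le_mul_of_nonneg_left e1 hm0
      _ = (8 / 330 * A) * y ^ 10 := by ring
      _ ≤ _ := mul_le_mul_of_nonneg_right (by rw [hA]; linarith) h10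
  · -- `y ≥ 2`
    have dΨ : ∀ y : ℝ, HasDerivAt (fun y => q * (2 ^ 11 / 110) + q * (2 ^ 10 / 10) * (y - 2) +
        Z * ((y ^ 10 - 2 ^ 10) / 90 - 2 ^ 9 / 9 * (y - 2)))
        (q * (2 ^ 10 / 10) + Z * (y ^ 9 / 9 - 2 ^ 9 / 9)) y := by
      intro y
      refine ((((hasDerivAt_id y).sub_const 2).const_mul (q * (2 ^ 10 / 10))).const_add
        (q * (2 ^ 11 / 110)) |>.add (((((hasDerivAt_pow 10 y).sub_const (2 ^ 10)).div_const 90).sub
        (((hasDerivAt_id y).sub_const 2).const_mul (2 ^ 9 / 9))).const_mul Z)).congr_deriv ?_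
      push_cast
      ring
    have dΨ1 : ∀ y : ℝ, HasDerivAt (fun y => q * (2 ^ 10 / 10) + Z * (y ^ 9 / 9 - 2 ^ 9 / 9))
        (Z * y ^ 8) y := by
      intro y
      refine (((((hasDerivAt_pow 9 y).div_const 9).sub_const (2 ^ 9 / 9)).const_mul Z).const_add
        (q * (2 ^ 10 / 10))).congr_deriv ?_
      push_cast
      ring
    have hQ9 : ∀ y, 2 ≤ y → |-(y ^ 9 * QQ z y)| ≤ Z * y ^ 8 := by
      intro y hy
      have y0 : 0 < y := by linarith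
      rw [abs_neg, abs_mul, abs_of_pos (pow_pos y0 9)]
      calc y ^ 9 * |QQ z y| ≤ y ^ 9 * (Z / y) :=
            mul_le_mul_of_nonneg_left (hQ y hy) (pow_nonneg y0.le 9)
        _ = Z * y ^ 8 := by field_simp
    have a := mono2' (a := 2) (F := fun y => (q * (2 ^ 11 / 110) + q * (2 ^ 10 / 10) * (y - 2) +
        Z * ((y ^ 10 - 2 ^ 10) / 90 - 2 ^ 9 / 9 * (y - 2))) - D y)
      (F1 := fun y => (q * (2 ^ 10 / 10) + Z * (y ^ 9 / 9 - 2 ^ 9 / 9)) - D1 y)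
      (F2 := fun y => Z * y ^ 8 - -(y ^ 9 * QQ z y))
      (fun y hy => (dΨ y).sub (hR.hD y (by linarith)))
      (fun y hy => (dΨ1 y).sub (hR.hD1 y (by linarith)))
      (fun y hy => sub_nonneg.2 ((le_abs_self _).trans (hQ9 y hy)))
      (by have := le_abs_self (D 2); norm_num at k2 ⊢; linarith)
      (by have := le_abs_self (D1 2); norm_num at k1 ⊢; linarith) y h.le
    have b := mono2' (a := 2) (F := fun y => (q * (2 ^ 11 / 110) + q * (2 ^ 10 / 10) * (y - 2) +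
        Z * ((y ^ 10 - 2 ^ 10) / 90 - 2 ^ 9 / 9 * (y - 2))) + D y)
      (F1 := fun y => (q * (2 ^ 10 / 10) + Z * (y ^ 9 / 9 - 2 ^ 9 / 9)) + D1 y)
      (F2 := fun y => Z * y ^ 8 + -(y ^ 9 * QQ z y))
      (fun y hy => (dΨ y).add (hR.hD y (by linarith)))
      (fun y hy => (dΨ1 y).add (hR.hD1 y (by linarith)))
      (fun y hy => by have := neg_abs_le (-(y ^ 9 * QQ z y)); have := hQ9 y hy; linarith)
      (by have := neg_abs_le (D 2); norm_num at k2 ⊢; linarith)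
      (by have := neg_abs_le (D1 2); norm_num at k1 ⊢; linarith) y h.le
    have hab : |D y| ≤ q * (2 ^ 11 / 110) + q * (2 ^ 10 / 10) * (y - 2) +
        Z * ((y ^ 10 - 2 ^ 10) / 90 - 2 ^ 9 / 9 * (y - 2)) := by
      rw [abs_le]
      constructor <;> linarith
    refine hab.trans ?_
    -- Bernoulli: `y^10 ≥ 1024 + 5120 (y-2)`
    have hbern : 1024 + 5120 * (y - 2) ≤ y ^ 10 := by
      have h1 := one_add_mul_le_pow (a := (y - 2) / 2) (by linarith) 10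
      have h2 : 1 + (y - 2) / 2 = y / 2 := by ring
      rw [h2, div_pow] at h1
      norm_num at h1
      linarith
    have h10 : 0 ≤ y ^ 10 := pow_nonneg hy.le 10
    have e1 : q * (2 ^ 11 / 110) + q * (2 ^ 10 / 10) * (y - 2) ≤ q * (y ^ 10 / 40) := by
      have : (2 : ℝ) ^ 11 / 110 + 2 ^ 10 / 10 * (y - 2) ≤ y ^ 10 / 40 := by
        norm_num
        linarith
      have := mul_le_mul_of_nonneg_left this hq0
      linarith
    have e2 : Z * ((y ^ 10 - 2 ^ 10) / 90 - 2 ^ 9 / 9 * (y - 2)) ≤ Z * (y ^ 10 / 90) := by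
      refine mul_le_mul_of_nonneg_left ?_ hZ
      norm_num
      linarith
    have e3 : q / 40 + Z / 90 ≤ Z / 40 + ε / 16 := by
      rw [hq, hA]
      linarith
    have e4 := mul_le_mul_of_nonneg_right e3 h10
    linarith

end Crest.Agent.R213.E
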