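import Crest.Agent.R213.E.LinRep2

/-!
# Row 213, part E: `qq_bound`
-/

set_option autoImplicit false

open Set MeasureTheory Filter Topology

noncomputable section

namespace Crest.Agent.R213.E

namespace QB

theorem tail4 {y : ℝ} (hy : 0 < y) : IntegrableOn (fun t : ℝ => (t ^ 4)⁻¹) (Ioi y) ∧
    ∫ t in Ioi y, (t ^ 4)⁻¹ = (y ^ 3)⁻¹ / 3 := by
  have h1 := integrableOn_Ioi_rpow_of_lt (a := -4) (c := y) (by norm_num) hy
  have h2 := integral_Ioi_rpow_of_lt (a := -4) (by norm_num) hy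
  have e : ∀ t ∈ Ioi y, t ^ (-4 : ℝ) = (t ^ 4)⁻¹ := by
    intro t ht
    have ht0 : 0 ≤ t := hy.le.trans (le_of_lt ht)
    rw [show (-4 : ℝ) = -((4 : ℕ) : ℝ) by norm_num, Real.rpow_neg ht0, Real.rpow_natCast]
  refine ⟨h1.congr_fun e measurableSet_Ioi, ?_⟩
  rw [← setIntegral_congr_fun measurableSet_Ioi e, h2]
  rw [show ((-4 : ℝ) + 1) = -((3 : ℕ) : ℝ) by norm_num, Real.rpow_neg hy.le, Real.rpow_natCast]
  norm_num

theorem tail2 {y : ℝ} (hy : 0 < y) : IntegrableOn (fun t : ℝ => (t ^ 2)⁻¹) (Ioi y) ∧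
    ∫ t in Ioi y, (t ^ 2)⁻¹ = y⁻¹ := by
  have h1 := integrableOn_Ioi_rpow_of_lt (a := -2) (c := y) (by norm_num) hy
  have h2 := integral_Ioi_rpow_of_lt (a := -2) (by norm_num) hy
  have e : ∀ t ∈ Ioi y, t ^ (-2 : ℝ) = (t ^ 2)⁻¹ := by
    intro t ht
    have ht0 : 0 ≤ t := hy.le.trans (le_of_lt ht)
    rw [show (-2 : ℝ) = -((2 : ℕ) : ℝ) by norm_num, Real.rpow_neg ht0, Real.rpow_natCast]
  refine ⟨h1.congr_fun e measurableSet_Ioi, ?_⟩
  rw [← setIntegral_congr_fun measurableSet_Ioi e, h2]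
  rw [show ((-2 : ℝ) + 1) = -((1 : ℕ) : ℝ) by norm_num, Real.rpow_neg hy.le, Real.rpow_natCast]
  norm_num

end QB

theorem qq_bound {b n1 cq Cq : ℝ} {n p : ℝ → ℝ} (hW : WData b n1 cq Cq n p) (hb : 12 ≤ b ^ 2)
    {z D : ℝ → ℝ} {ℓ ρ MD : ℝ} (hℓ : 0 ≤ ℓ) (hρ : 0 ≤ ρ) (hMD : 0 ≤ MD)
    (hD : ContinuousOn D (Ioi 0))
    (hz : ∀ y, 2 ≤ y → |z y| ≤ ℓ * y ^ 2 * |D y| + ρ * y ^ 8)
    (hDi : IntegrableOn (fun y => (p y * D y) ^ 2) (Ioi 0))
    (hDM : ∫ y in Ioi (0 : ℝ), (p y * D y) ^ 2 ≤ MD ^ 2) :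
    ∀ y, 2 ≤ y → |QQ z y| ≤ (ℓ * Cq * MD / 66 + ρ) / y := by
  intro y hy2
  have hy : 0 < y := by linarith
  have hCq := hW.Cq_pos
  have hm : AEStronglyMeasurable (fun y => p y * D y) mu0 :=
    hW.p_meas.aestronglyMeasurable.mul (hD.aestronglyMeasurable measurableSet_Ioi)
  have hpD : MemLp (fun y => p y * D y) 2 mu0 := (memLp_two_iff_integrable_sq hm).2 hDi
  set g : HH := hpD.toLp _ with hg
  have hgn : ‖g‖ ≤ MD := by
    have h2 : ‖g‖ ^ 2 ≤ MD ^ 2 := by rw [hg, toLp_norm_sq]; exact hDM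
    exact (abs_le_of_sq_le_sq' h2 hMD).2
  set k : ℝ → ℝ := (Ioi y).indicator (fun t => (t ^ 2)⁻¹) with hk
  have hkm : Measurable k := Measurable.indicator (by fun_prop) measurableSet_Ioi
  have hres : mu0.restrict (Ioi y) = volume.restrict (Ioi y) := by
    rw [Measure.restrict_restrict measurableSet_Ioi,
      inter_eq_self_of_subset_left (Ioi_subset_Ioi hy.le)]
  have hk2 : (fun t => k t ^ 2) = (Ioi y).indicator (fun t => (t ^ 4)⁻¹) := by
    funext t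
    by_cases h : t ∈ Ioi y
    · simp only [hk, indicator_of_mem h]
      rw [← inv_pow, ← inv_pow, ← pow_mul]
    · simp [hk, h]
  obtain ⟨q1, q2⟩ := QB.tail4 hy
  obtain ⟨r1, r2⟩ := QB.tail2 hy
  have hki : Integrable (fun t => k t ^ 2) mu0 := by
    rw [hk2, integrable_indicator_iff measurableSet_Ioi, IntegrableOn, hres]
    exact q1
  have hkL : MemLp k 2 mu0 := (memLp_two_iff_integrable_sq hkm.aestronglyMeasurable).2 hki
  have hkv : ∫ t, k t ^ 2 ∂mu0 ≤ (9 / 22 / y) ^ 2 := by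
    rw [hk2, integral_indicator measurableSet_Ioi, hres, q2]
    have e : (9 / 22 / y) ^ 2 = 81 / 484 * (y ^ 2)⁻¹ := by rw [div_pow]; ring
    have e2 : (y ^ 3)⁻¹ / 3 = (1 / 3) * y⁻¹ * (y ^ 2)⁻¹ := by field_simp
    rw [e, e2]
    have h3 : y⁻¹ ≤ 1 / 2 := by
      rw [inv_le_comm₀ hy (by norm_num)]; linarith
    have h4 : 0 < (y ^ 2)⁻¹ := by positivity
    refine mul_le_mul_of_nonneg_right ?_ h4.le
    linarith
  obtain ⟨i1, j1⟩ := HH_cs hkL (by positivity : 0 ≤ 9 / 22 / y) hkv g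
  have hgae : ∀ᵐ t ∂mu0, g t = p t * D t := hpD.coeFn_toLp
  -- the majorant on `Ioi y`
  have hi' : IntegrableOn (fun t => (t ^ 2)⁻¹ * |g t|) (Ioi y) ∧
      ∫ t in Ioi y, (t ^ 2)⁻¹ * |g t| ≤ 9 / 22 / y * MD := by
    have e : (fun t => |k t| * |g t|) = (Ioi y).indicator (fun t => (t ^ 2)⁻¹ * |g t|) := by
      funext t
      by_cases h : t ∈ Ioi y
      · simp only [hk, indicator_of_mem h]
        rw [abs_of_nonneg (by positivity)]
      · simp [hk, h]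
    rw [e] at i1 j1
    rw [integrable_indicator_iff measurableSet_Ioi, IntegrableOn, hres] at i1
    rw [integral_indicator measurableSet_Ioi, hres] at j1
    refine ⟨i1, j1.trans ?_⟩
    gcongr
  obtain ⟨a1, a2⟩ := hi'
  have hmaj : IntegrableOn (fun t => ℓ * Cq / 27 * ((t ^ 2)⁻¹ * |g t|) + ρ * (t ^ 2)⁻¹) (Ioi y) :=
    (a1.const_mul _).add (r1.const_mul _)
  have hae : ∀ᵐ t ∂(volume.restrict (Ioi y)), ‖(t ^ 10)⁻¹ * z t‖ ≤
      ℓ * Cq / 27 * ((t ^ 2)⁻¹ * |g t|) + ρ * (t ^ 2)⁻¹ := by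
    have h1 : ∀ᵐ t ∂(volume.restrict (Ioi y)), g t = p t * D t :=
      hgae.filter_mono (ae_mono (Measure.restrict_mono (Ioi_subset_Ioi hy.le) le_rfl))
    filter_upwards [h1, ae_restrict_mem measurableSet_Ioi] with t ht hty
    have hty' : y < t := hty
    have ht2 : 2 ≤ t := by linarith
    have ht0 : 0 < t := by linarith
    have hp := hW.p_pos t ht0
    have hc := chi_pos b t
    have hq := hW.q_up t ht0
    have hDb : |D t| ≤ Cq * (t ^ 6 / 27) * |g t| := by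
      rw [ht, abs_mul, abs_of_pos hp]
      have e2 : 1 / chi b t = (1 + t ^ 2 / b ^ 2) ^ 3 := by
        simp only [chi, uu]
        rw [inv_pow, one_div, inv_inv]
      have e3 : 1 + t ^ 2 / b ^ 2 ≤ t ^ 2 / 3 := by
        have : t ^ 2 / b ^ 2 ≤ t ^ 2 / 12 := by gcongr
        nlinarith
      have hb0 : 0 < b := hW.b_pos
      have e4 : 1 / chi b t ≤ t ^ 6 / 27 := by
        rw [e2]
        calc (1 + t ^ 2 / b ^ 2) ^ 3 ≤ (t ^ 2 / 3) ^ 3 := by gcongr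
          _ = t ^ 6 / 27 := by ring
      have e5 : 1 ≤ Cq * (t ^ 6 / 27) * p t := by
        have h5 : chi b t ≤ Cq * p t := by rwa [div_le_iff₀ hp] at hq
        have h6 : 1 ≤ t ^ 6 / 27 * chi b t := by rwa [div_le_iff₀ hc] at e4
        calc (1:ℝ) ≤ t ^ 6 / 27 * chi b t := h6
          _ ≤ t ^ 6 / 27 * (Cq * p t) := by gcongr
          _ = _ := by ring
      calc |D t| = 1 * |D t| := (one_mul _).symm
        _ ≤ (Cq * (t ^ 6 / 27) * p t) * |D t| := by gcongr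
        _ = _ := by ring
    rw [Real.norm_eq_abs, abs_mul, abs_of_nonneg (by positivity : 0 ≤ (t ^ 10)⁻¹)]
    calc (t ^ 10)⁻¹ * |z t| ≤ (t ^ 10)⁻¹ * (ℓ * t ^ 2 * |D t| + ρ * t ^ 8) := by
          have := hz t ht2
          gcongr
      _ ≤ (t ^ 10)⁻¹ * (ℓ * t ^ 2 * (Cq * (t ^ 6 / 27) * |g t|) + ρ * t ^ 8) := by gcongr
      _ = _ := by field_simp
  simp only [QQ]
  rw [← Real.norm_eq_abs]
  refine (norm_integral_le_of_norm_le hmaj hae).trans ?_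
  rw [integral_add (a1.const_mul _) (r1.const_mul _), integral_const_mul, integral_const_mul, r2]
  calc ℓ * Cq / 27 * (∫ t in Ioi y, (t ^ 2)⁻¹ * |g t|) + ρ * y⁻¹
      ≤ ℓ * Cq / 27 * (9 / 22 / y * MD) + ρ * y⁻¹ := by gcongr
    _ = (ℓ * Cq * MD / 66 + ρ) / y := by field_simp; ring

end Crest.Agent.R213.E
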