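import Crest.Agent.R213.E.Glue1

/-!
# Row 213, part E: `sign_of_cert` (helper310)
-/

set_option autoImplicit false

open Set MeasureTheory Filter Topology

noncomputable section

namespace Crest.Agent.R213.E

/-- B2 -/
theorem sign_of_cert {k : Cst} {p R : ℝ → ℝ} {G G1 G2 G3 : ℝ → ℝ → ℝ} {ψ ψ1 ψ2 ψ3 : ℝ → ℝ}
    (hC : Cert k p R G G1 G2 G3 ψ ψ1 ψ2 ψ3) {c κ : ℝ} (hc : c ∈ Icc (k.c0 - k.δ) (k.c0 + k.δ))
    {D D1 : ℝ → ℝ}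
    (hR : Rep κ (fun t => NN (G k.c0) k.m G G1 G2 G3 c t (D t) - nn (G k.c0) t * D t) D D1)
    (hDi : IntegrableOn (fun y => (p y * D y) ^ 2) (Ioi 0))
    (hDM : ∫ y in Ioi (0 : ℝ), (p y * D y) ^ 2 ≤ (k.M / (1 - k.η)) ^ 2) :
    |10 * ψ 0 * κ + ∫ y in (0 : ℝ)..k.Y, ψ y * (y ^ 8 * resid c y (G c y) (G1 c y) (G2 c y) (G3 c y))|
      ≤ (k.η * k.K1 + k.K2) * (k.M / (1 - k.η)) :=
  sign_of_cert_of hC (nlData_of_cert hC) hc hR hDi hDM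

end Crest.Agent.R213.E
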