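import Crest.Agent.R213.E.NLDefs

/-!
# Row 213, part E: from the integrated form (`Rep`) to a classical solution of the soliton equation
-/

set_option autoImplicit false

open Set MeasureTheory Filter Topology

noncomputable section

namespace Crest.Agent.R213.E

/-- derivative of `QQ`. -/
lemma hasDerivAt_QQ {z : ℝ → ℝ} (hint : ∀ y, 0 < y → IntegrableOn (fun t => (t ^ 10)⁻¹ * z t) (Ioi y))
    (hz : ContinuousOn z (Ioi 0)) {y : ℝ} (hy : 0 < y) :
    HasDerivAt (QQ z) (-((y ^ 10)⁻¹ * z y)) y := by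
  set f : ℝ → ℝ := fun t => (t ^ 10)⁻¹ * z t with hf
  have hfc : ContinuousOn f (Ioi 0) := by
    refine ContinuousOn.mul (ContinuousOn.inv₀ (by fun_prop) ?_) hz
    intro t ht; exact pow_ne_zero 10 (ne_of_gt ht)
  have hy2 : 0 < y / 2 := by linarith
  have hev : QQ z =ᶠ[𝓝 y] fun x => (∫ t in Ioi (y / 2), f t) - ∫ t in (y / 2)..x, f t := by
    filter_upwards [Ioi_mem_nhds hy] with x hx
    have := intervalIntegral.integral_interval_add_Ioi (f := f) (hint (y / 2) hy2) (hint x hx)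
    simp only [QQ]
    linarith
  have hd : HasDerivAt (fun x => ∫ t in (y / 2)..x, f t) (f y) y := by
    refine intervalIntegral.integral_hasDerivAt_right ?_ ?_ ?_
    · apply ContinuousOn.intervalIntegrable
      refine hfc.mono ?_
      rw [uIcc_of_le (by linarith)]
      intro t ht; exact lt_of_lt_of_le hy2 ht.1
    · exact hfc.stronglyMeasurableAtFilter isOpen_Ioi y hy
    · exact hfc.continuousAt (Ioi_mem_nhds hy)
  have := (hd.const_sub (∫ t in Ioi (y / 2), f t)).congr_of_eventuallyEq hev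
  exact this

/-- **(V) classical solution.** `g = G + D/y¹⁰`, `G ∈ C³(0,∞)`, `D` given by `Rep` with right hand side
`z = y⁸(-(P(θ)G + 90) - y²/(2c) + y²/(2g))`. -/
theorem upgrade {c κ : ℝ} {G G1 G2 G3 z D D1 : ℝ → ℝ}
    (h0 : ∀ y, 0 < y → HasDerivAt G (G1 y) y) (h1 : ∀ y, 0 < y → HasDerivAt G1 (G2 y) y)
    (h2 : ∀ y, 0 < y → HasDerivAt G2 (G3 y) y) (h3 : ContinuousOn G3 (Ioi 0))
    (hR : Rep κ z D D1) (hpos : ∀ y, 0 < y → 0 < G y + D y / y ^ 10)
    (hz : ∀ y, 0 < y → z y = y ^ 8 * (-(y ^ 3 * G3 y + 21 * y ^ 2 * G2 y + 90 * y * G1 y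
      + 90 * (1 - G y)) - y ^ 2 / 2 * (1 / c - 1 / (G y + D y / y ^ 10)))) :
    ∃ g1 g2 g3 : ℝ → ℝ,
      (∀ y, 0 < y → HasDerivAt (fun y => G y + D y / y ^ 10) (g1 y) y) ∧
      (∀ y, 0 < y → HasDerivAt g1 (g2 y) y) ∧ (∀ y, 0 < y → HasDerivAt g2 (g3 y) y) ∧
      ∀ y, 0 < y → y ^ 3 * g3 y + 21 * y ^ 2 * g2 y + 90 * y * g1 y
        + 90 * (1 - (G y + D y / y ^ 10)) + y ^ 2 / 2 * (1 / c - 1 / (G y + D y / y ^ 10)) = 0 := by
  have cG : ContinuousOn G (Ioi 0) := fun y hy => (h0 y hy).continuousAt.continuousWithinAt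
  have cG1 : ContinuousOn G1 (Ioi 0) := fun y hy => (h1 y hy).continuousAt.continuousWithinAt
  have cG2 : ContinuousOn G2 (Ioi 0) := fun y hy => (h2 y hy).continuousAt.continuousWithinAt
  have cD : ContinuousOn D (Ioi 0) := fun y hy => (hR.hD y hy).continuousAt.continuousWithinAt
  have cg : ContinuousOn (fun y => G y + D y / y ^ 10) (Ioi 0) :=
    cG.add (cD.div (by fun_prop) fun y hy => pow_ne_zero 10 (ne_of_gt hy))
  have hzc : ContinuousOn z (Ioi 0) := by
    have : ContinuousOn (fun y => y ^ 8 * (-(y ^ 3 * G3 y + 21 * y ^ 2 * G2 y + 90 * y * G1 y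
      + 90 * (1 - G y)) - y ^ 2 / 2 * (1 / c - 1 / (G y + D y / y ^ 10)))) (Ioi 0) := by
      have : ContinuousOn (fun y => 1 / (G y + D y / y ^ 10)) (Ioi 0) :=
        continuousOn_const.div cg fun y hy => (hpos y hy).ne'
      fun_prop
    exact this.congr fun y hy => hz y hy
  set D2 : ℝ → ℝ := fun y => -(y ^ 9 * QQ z y) with hD2
  have hDD : ∀ y, 0 < y → HasDerivAt D2 ((9 * D2 y + z y) / y) y := by
    intro y hy
    have hq := hasDerivAt_QQ hR.int hzc hy
    have := (((hasDerivAt_id y).pow 9).mul hq).neg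
    refine this.congr_deriv ?_
    simp only [hD2, id, Pi.pow_apply]
    field_simp
    ring
  refine ⟨fun y => G1 y + (D1 y / y ^ 10 - 10 * (D y / y ^ 11)),
    fun y => G2 y + (D2 y / y ^ 10 - 20 * (D1 y / y ^ 11) + 110 * (D y / y ^ 12)),
    fun y => G3 y + ((9 * D2 y + z y) / y / y ^ 10 - 30 * (D2 y / y ^ 11) +
      330 * (D1 y / y ^ 12) - 1320 * (D y / y ^ 13)), ?_, ?_, ?_, ?_⟩
  · intro y hy
    have hy0 : y ≠ 0 := hy.ne'
    have := (h0 y hy).add ((hR.hD y hy).div ((hasDerivAt_id y).pow 10) (pow_ne_zero 10 hy0))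
    refine this.congr_deriv ?_
    simp only [id, Pi.pow_apply]
    field_simp
    ring
  · intro y hy
    have hy0 : y ≠ 0 := hy.ne'
    have := (h1 y hy).add (((hR.hD1 y hy).div ((hasDerivAt_id y).pow 10) (pow_ne_zero 10 hy0)).sub
      (((hR.hD y hy).div ((hasDerivAt_id y).pow 11) (pow_ne_zero 11 hy0)).const_mul 10))
    refine this.congr_deriv ?_
    simp only [id, Pi.pow_apply, hD2]
    field_simp
    ring
  · intro y hy
    have hy0 : y ≠ 0 := hy.ne'
    have := (h2 y hy).add ((((hDD y hy).div ((hasDerivAt_id y).pow 10) (pow_ne_zero 10 hy0)).sub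
      (((hR.hD1 y hy).div ((hasDerivAt_id y).pow 11) (pow_ne_zero 11 hy0)).const_mul 20)).add
      (((hR.hD y hy).div ((hasDerivAt_id y).pow 12) (pow_ne_zero 12 hy0)).const_mul 110))
    refine this.congr_deriv ?_
    simp only [id, Pi.pow_apply, hD2]
    field_simp
    ring
  · intro y hy
    have hy0 : y ≠ 0 := hy.ne'
    have e := hz y hy
    have hp := (hpos y hy).ne'
    have key : y ^ 3 * (G3 y + ((9 * D2 y + z y) / y / y ^ 10 - 30 * (D2 y / y ^ 11) +
      330 * (D1 y / y ^ 12) - 1320 * (D y / y ^ 13))) +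
      21 * y ^ 2 * (G2 y + (D2 y / y ^ 10 - 20 * (D1 y / y ^ 11) + 110 * (D y / y ^ 12))) +
      90 * y * (G1 y + (D1 y / y ^ 10 - 10 * (D y / y ^ 11))) + 90 * (1 - (G y + D y / y ^ 10)) =
      y ^ 3 * G3 y + 21 * y ^ 2 * G2 y + 90 * y * G1 y + 90 * (1 - G y) + z y / y ^ 8 := by
      field_simp
      ring
    simp only
    rw [key, e]
    have : y ^ 8 * (-(y ^ 3 * G3 y + 21 * y ^ 2 * G2 y + 90 * y * G1 y
      + 90 * (1 - G y)) - y ^ 2 / 2 * (1 / c - 1 / (G y + D y / y ^ 10))) / y ^ 8 =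
      (-(y ^ 3 * G3 y + 21 * y ^ 2 * G2 y + 90 * y * G1 y
      + 90 * (1 - G y)) - y ^ 2 / 2 * (1 / c - 1 / (G y + D y / y ^ 10))) := by
      rw [mul_div_assoc, mul_comm]
      rw [div_mul_cancel₀ _ (pow_ne_zero 8 hy0)]
    rw [this]
    ring

end Crest.Agent.R213.E
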