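import Crest.Agent.R213.E.EDefs
import Crest.Agent.R213.E.NL
import Crest.Agent.R213.E.Glue1
import Crest.Agent.R213.E.Sign
import Crest.Agent.R213.E.QQBound
import Crest.Agent.R213.E.Upgrade
import Crest.Agent.R213.E.Lim
import Crest.Agent.R213.E.PtBound

/-! Row 213, PART E: `Cert → Mid` (helper9). -/

set_option autoImplicit false

open Set MeasureTheory Filter Topology

noncomputable section

namespace Crest.Agent.R213.E

namespace MC

lemma clamp_eq {m x : ℝ} (h : |x| ≤ m) : clamp m x = x := by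
  rw [abs_le] at h
  unfold clamp
  rw [min_eq_right h.2, max_eq_right h.1]

lemma int_inv_sq : IntegrableOn (fun y : ℝ => (y ^ 2)⁻¹) (Ioi 1) := by
  have h := integrableOn_Ioi_rpow_of_lt (by norm_num : (-2 : ℝ) < -1) (zero_lt_one)
  refine h.congr_fun (fun y hy => ?_) measurableSet_Ioi
  have hy' : (0 : ℝ) < y := lt_trans one_pos hy
  simp only
  rw [Real.rpow_neg hy'.le]
  norm_num

lemma cont_S3 (c : ℝ) : ContinuousOn (fun y => S3 c y) (Ioi 0) := by
  unfold S3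
  have : ∀ y ∈ Ioi (0 : ℝ), y ≠ 0 := fun y hy => ne_of_gt hy
  refine ContinuousOn.add (ContinuousOn.add (ContinuousOn.add continuousOn_const ?_) ?_) ?_
  · exact continuousOn_const.div (by fun_prop) fun y hy => pow_ne_zero _ (this y hy)
  · exact continuousOn_const.div (by fun_prop) fun y hy => pow_ne_zero _ (this y hy)
  · exact continuousOn_const.div (by fun_prop) fun y hy => pow_ne_zero _ (this y hy)

lemma tail_int {c C a : ℝ} {p D g : ℝ → ℝ} (ha : 0 < a) (hp : ∀ y, 1 ≤ y → a ≤ p y * y ^ 3)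
    (hg : ContinuousOn g (Ioi 0)) (hD : ContinuousOn D (Ioi 0))
    (hC : ∀ y, 1 ≤ y → |g y - S3 c y| ≤ C / y ^ 8)
    (hDi : IntegrableOn (fun y => (p y * D y) ^ 2) (Ioi 0)) :
    IntegrableOn (fun y => y ^ 14 * (g y + D y / y ^ 10 - S3 c y) ^ 2) (Ioi 1) := by
  have hi : IntegrableOn (fun y => 2 * C ^ 2 * (y ^ 2)⁻¹ + 2 / a ^ 2 * (p y * D y) ^ 2) (Ioi 1) :=
    (int_inv_sq.const_mul _).add ((hDi.mono_set (Ioi_subset_Ioi zero_le_one)).const_mul _)
  have hcont : ContinuousOn (fun y => y ^ 14 * (g y + D y / y ^ 10 - S3 c y) ^ 2) (Ioi 0) := by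
    have hS : ContinuousOn (fun y => S3 c y) (Ioi 0) := by
      unfold S3
      have : ∀ y ∈ Ioi (0 : ℝ), y ≠ 0 := fun y hy => ne_of_gt hy
      refine ContinuousOn.add (ContinuousOn.add (ContinuousOn.add continuousOn_const ?_) ?_) ?_
      · exact continuousOn_const.div (by fun_prop) fun y hy => pow_ne_zero _ (this y hy)
      · exact continuousOn_const.div (by fun_prop) fun y hy => pow_ne_zero _ (this y hy)
      · exact continuousOn_const.div (by fun_prop) fun y hy => pow_ne_zero _ (this y hy)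
    have h1 : ContinuousOn (fun y => D y / y ^ 10) (Ioi 0) :=
      hD.div (by fun_prop) fun y hy => pow_ne_zero _ (ne_of_gt hy)
    fun_prop
  refine Integrable.mono' hi ?_ ?_
  · exact (hcont.mono (Ioi_subset_Ioi zero_le_one)).aestronglyMeasurable measurableSet_Ioi
  · filter_upwards [ae_restrict_mem measurableSet_Ioi] with y hy
    have hy1 : (1 : ℝ) ≤ y := le_of_lt hy
    have hy0 : (0 : ℝ) < y := by linarith
    rw [Real.norm_eq_abs, abs_of_nonneg (by positivity)]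
    set A := g y - S3 c y
    set B := D y / y ^ 10
    have e : g y + D y / y ^ 10 - S3 c y = A + B := by simp only [A, B]; ring
    rw [e]
    have h1 : y ^ 14 * A ^ 2 ≤ C ^ 2 * (y ^ 2)⁻¹ := by
      have h2 := hC y hy1
      have h3 : A ^ 2 ≤ (C / y ^ 8) ^ 2 := sq_le_sq' (by linarith [neg_abs_le A, h2]) (by
        linarith [le_abs_self A, h2])
      calc y ^ 14 * A ^ 2 ≤ y ^ 14 * (C / y ^ 8) ^ 2 := by gcongr
        _ = C ^ 2 * (y ^ 2)⁻¹ := by field_simp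
    have h2 : y ^ 14 * B ^ 2 ≤ 1 / a ^ 2 * (p y * D y) ^ 2 := by
      have h3 : y ^ 14 * B ^ 2 = D y ^ 2 / y ^ 6 := by
        simp only [B]; field_simp
      rw [h3]
      have h4 := hp y hy1
      have h5 : a ^ 2 ≤ (p y * y ^ 3) ^ 2 := pow_le_pow_left₀ ha.le h4 2
      rw [div_le_iff₀ (by positivity)]
      have : 1 / a ^ 2 * (p y * D y) ^ 2 * y ^ 6 = (D y) ^ 2 * ((p y * y ^ 3) ^ 2 / a ^ 2) := by
        field_simp
      rw [this]
      have h6 : 1 ≤ (p y * y ^ 3) ^ 2 / a ^ 2 := by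
        rw [le_div_iff₀ (by positivity)]; linarith
      nlinarith [sq_nonneg (D y)]
    have h3 : y ^ 14 * (A + B) ^ 2 ≤ 2 * (y ^ 14 * A ^ 2) + 2 * (y ^ 14 * B ^ 2) := by
      have h4 : (A + B) ^ 2 ≤ 2 * A ^ 2 + 2 * B ^ 2 := by nlinarith [sq_nonneg (A - B)]
      nlinarith [pow_pos hy0 14]
    calc y ^ 14 * (A + B) ^ 2 ≤ 2 * (y ^ 14 * A ^ 2) + 2 * (y ^ 14 * B ^ 2) := h3
      _ ≤ 2 * (C ^ 2 * (y ^ 2)⁻¹) + 2 * (1 / a ^ 2 * (p y * D y) ^ 2) := by linarith
      _ = _ := by ring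
end MC

open MC in
theorem mid_of_cert {k : Cst} {p R : ℝ → ℝ} {G G1 G2 G3 : ℝ → ℝ → ℝ} {ψ ψ1 ψ2 ψ3 : ℝ → ℝ}
    (hC : Cert k p R G G1 G2 G3 ψ ψ1 ψ2 ψ3) :
    ∃ (c : ℝ) (g g1 g2 g3 : ℝ → ℝ), Mid c g g1 g2 g3 ∧ Tendsto g atTop (𝓝 c) := by
  obtain ⟨D, D1, κ, hκ, hall⟩ := nl_exists hC.wdata (nlData_of_cert hC)
  have hδ := hC.δ_pos
  have hMD : 0 ≤ k.M / (1 - k.η) := div_nonneg hC.M_nonneg (by linarith [hC.η_lt])
  have hc2 : k.c0 + k.δ ∈ Icc (k.c0 - k.δ) (k.c0 + k.δ) := ⟨by linarith, le_rfl⟩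
  have hc1 : k.c0 - k.δ ∈ Icc (k.c0 - k.δ) (k.c0 + k.δ) := ⟨le_rfl, by linarith⟩
  have hψ0 := hC.ψ_0
  have hhi : 0 ≤ κ (k.c0 + k.δ) := by
    obtain ⟨hR, hDi, hDM⟩ := hall _ hc2
    have h1 := sign_of_cert hC hc2 hR hDi hDM
    have h2 := hC.main_hi
    have h3 := hC.small
    rw [abs_le] at h1
    have h4 : 0 < 10 * ψ 0 * κ (k.c0 + k.δ) := by linarith [h1.1]
    by_contra hneg
    push Not at hneg
    nlinarith
  have hlo : κ (k.c0 - k.δ) ≤ 0 := by
    obtain ⟨hR, hDi, hDM⟩ := hall _ hc1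
    have h1 := sign_of_cert hC hc1 hR hDi hDM
    have h2 := hC.main_lo
    have h3 := hC.small
    rw [abs_le] at h1
    have h4 : 10 * ψ 0 * κ (k.c0 - k.δ) < 0 := by linarith [h1.2]
    by_contra hneg
    push Not at hneg
    nlinarith
  obtain ⟨c, hc, hκc⟩ := intermediate_value_Icc (by linarith : k.c0 - k.δ ≤ k.c0 + k.δ) hκ
    ⟨hlo, hhi⟩
  obtain ⟨hR, hDi, hDM⟩ := hall c hc
  rw [hκc] at hR
  set z : ℝ → ℝ := fun t => NN (G k.c0) k.m G G1 G2 G3 c t (D c t) - nn (G k.c0) t * D c t with hz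
  have hDc : ContinuousOn (D c) (Ioi 0) := fun y hy => (hR.hD y hy).continuousAt.continuousWithinAt
  have hε : 0 ≤ k.ε := by
    have h1 := hC.R_near 1 one_pos (by norm_num)
    have h2 := hC.res c hc 1 one_pos
    have h3 := (abs_nonneg _).trans h2
    nlinarith
  have hρ : 0 ≤ k.ρ := by
    have h1 := hC.R_far 2 le_rfl
    have h2 := hC.res c hc 2 two_pos
    exact ((abs_nonneg _).trans h2).trans h1
  have hQ := qq_bound hC.wdata hC.b_ge (by norm_num : (0 : ℝ) ≤ 2 / 7) hρ hMD hDc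
    (fun y hy => (z_bd hC hc (D c y)).2 y hy) hDi hDM
  have hpt := pt_bound hR (by norm_num : (0 : ℝ) ≤ 3) le_rfl hε
    (fun y hy hy2 => (z_bd hC hc (D c y)).1 y hy hy2) hQ
  have hD : ∀ y, 0 < y → |D c y| ≤ k.m * y ^ 10 := fun y hy =>
    (hpt y hy).trans (mul_le_mul_of_nonneg_right hC.close (by positivity))
  have hh : ∀ y, 0 < y → |D c y / y ^ 10| ≤ k.m := fun y hy => by
    rw [abs_div, abs_of_pos (by positivity : (0 : ℝ) < y ^ 10), div_le_iff₀ (by positivity)]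
    exact hD y hy
  have hm := hC.m_le
  have hlow : ∀ y, 0 < y → 7 / 50 ≤ G c y + D c y / y ^ 10 := fun y hy => by
    have h1 := hC.G_lo c hc y hy
    have h2 := (abs_le.1 (hh y hy)).1
    linarith
  have hC3 := hC.G_C3 c hc
  have hzeq : ∀ y, 0 < y → z y = y ^ 8 * (-(y ^ 3 * G3 c y + 21 * y ^ 2 * G2 c y + 90 * y * G1 c y
      + 90 * (1 - G c y)) - y ^ 2 / 2 * (1 / c - 1 / (G c y + D c y / y ^ 10))) := by
    intro y hy
    simp only [hz, NN, if_pos hy, clamp_eq (hh y hy), resid]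
    have hy0 : y ≠ 0 := hy.ne'
    have e : y ^ 10 * (D c y / y ^ 10) = D c y := by field_simp
    rw [e]
    ring
  obtain ⟨g1, g2, g3, e1, e2, e3, hode⟩ := upgrade (c := c) hC3.d1 hC3.d2 hC3.d3 (hC.G3_cont c hc) hR
    (fun y hy => by linarith [hlow y hy]) hzeq
  have hti : IntegrableOn (fun y => y ^ 14 * (D c y / y ^ 10) ^ 2) (Ioi 1) := by
    obtain ⟨a, ha, hp⟩ := hC.p_tail
    have h := tail_int (c := c) (C := 0) (g := fun y => S3 c y) ha hp (cont_S3 c) hDc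
      (fun y _ => by simp) hDi
    refine h.congr_fun (fun y _ => ?_) measurableSet_Ioi
    simp only
    ring
  have hlim := lim_g hC hc (lim_h hR hQ hti)
  refine ⟨c, fun y => G c y + D c y / y ^ 10, g1, g2, g3, ?_, hlim⟩
  refine
    { c_lo := hC.c_lo.trans hc.1
      c_hi := hc.2.trans hC.c_hi
      C3 := ⟨e1, e2, e3⟩
      ode := hode
      lower := fun y hy => by linarith [hlow y hy]
      upper := fun y hy => ?_
      at_one := ?_
      tail := ?_ }
  · have h1 := hC.G_hi c hc y hy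
    have h2 := (abs_le.1 (hh y hy)).2
    linarith
  · have h1 := hC.at_one c hc
    have h2 := (abs_le.1 (hh 1 one_pos)).2
    linarith
  · obtain ⟨C, hCt⟩ := hC.tail c hc
    obtain ⟨a, ha, hp⟩ := hC.p_tail
    exact tail_int ha hp (fun y hy => (hC3.d1 y hy).continuousAt.continuousWithinAt) hDc hCt hDi

end Crest.Agent.R213.E
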