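import Crest.Agent.R213.E.NLDefs

/-!
# Row 213, part E: the pairing formula for `κ` (helper110)
-/

set_option autoImplicit false

open Set MeasureTheory Filter Topology

noncomputable section

namespace Crest.Agent.R213.E

/-- integration by parts against an `L¹` function. -/
theorem byparts_L1 {f f1 w : ℝ → ℝ} {a Y : ℝ} (haY : a ≤ Y)
    (hf : ∀ y ∈ Icc a Y, HasDerivWithinAt f (f1 y) (Icc a Y) y) (hf1 : ContinuousOn f1 (Icc a Y))
    (hw : IntervalIntegrable w volume a Y) :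
    ∫ t in a..Y, f t * w t =
      f a * (∫ t in a..Y, w t) + ∫ s in a..Y, f1 s * (∫ t in s..Y, w t) := by
  set g : ℝ → ℝ := fun x => ∫ t in a..x, w t with hg
  have hfc : ContinuousOn f (Icc a Y) := fun y hy => (hf y hy).continuousWithinAt
  have hgAC : AbsolutelyContinuousOnInterval g a Y :=
    hw.absolutelyContinuousOnInterval_intervalIntegral (by simp [haY])
  have hgc : ContinuousOn g (Icc a Y) := by
    have := hgAC.continuousOn; rwa [uIcc_of_le haY] at this
  -- `f` is Lipschitz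
  have hfLip : ∃ K : NNReal, LipschitzOnWith K f (Icc a Y) := by
    obtain ⟨C, hC⟩ := isCompact_Icc.exists_bound_of_continuousOn hf1
    refine ⟨Real.toNNReal (max C 0), ?_⟩
    apply Convex.lipschitzOnWith_of_nnnorm_hasDerivWithin_le (convex_Icc a Y) hf
    intro y hy
    have h1 := hC y hy
    rw [← NNReal.coe_le_coe, coe_nnnorm, Real.coe_toNNReal _ (le_max_right _ _)]
    exact le_trans h1 (le_max_left _ _)
  obtain ⟨K, hK⟩ := hfLip
  have hfAC : AbsolutelyContinuousOnInterval f a Y := by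
    apply LipschitzOnWith.absolutelyContinuousOnInterval (K := K)
    rwa [uIcc_of_le haY]
  have key := AbsolutelyContinuousOnInterval.integral_mul_deriv_eq_deriv_mul hfAC hgAC
  have e1 : ∫ x in a..Y, f x * deriv g x = ∫ x in a..Y, f x * w x := by
    apply intervalIntegral.integral_congr_ae
    filter_upwards [hw.ae_hasDerivAt_integral] with x hx hxm
    have hx' : x ∈ uIcc a Y := uIoc_subset_uIcc hxm
    have := hx hx' a (by simp)
    rw [hg, this.deriv]
  have e2 : ∫ x in a..Y, deriv f x * g x = ∫ x in a..Y, f1 x * g x := by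
    apply intervalIntegral.integral_congr_ae
    have h₂ : ∀ᵐ x : ℝ, x ≠ Y := by simp [ae_iff, measure_singleton]
    filter_upwards [h₂] with x hxY hxm
    rw [uIoc_of_le haY] at hxm
    have hxo : x ∈ Ioo a Y := ⟨hxm.1, lt_of_le_of_ne hxm.2 hxY⟩
    have := (hf x (Ioo_subset_Icc_self hxo)).hasDerivAt (Icc_mem_nhds hxo.1 hxo.2)
    rw [this.deriv]
  have hf1i : IntervalIntegrable f1 volume a Y :=
    (hf1.mono (by rw [uIcc_of_le haY])).intervalIntegrable
  have e3 : ∫ x in a..Y, f1 x = f Y - f a := by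
    apply intervalIntegral.integral_eq_sub_of_hasDerivAt_of_le haY hfc _ hf1i
    intro x hx
    exact (hf x (Ioo_subset_Icc_self hx)).hasDerivAt (Icc_mem_nhds hx.1 hx.2)
  have e4 : ∫ s in a..Y, f1 s * (∫ t in s..Y, w t) = ∫ s in a..Y, (f1 s * g Y - f1 s * g s) := by
    apply intervalIntegral.integral_congr
    intro s hs
    rw [uIcc_of_le haY] at hs
    have h1 : IntervalIntegrable w volume a s :=
      hw.mono_set (by rw [uIcc_of_le hs.1, uIcc_of_le haY]; exact Icc_subset_Icc_right hs.2)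
    have h2 : IntervalIntegrable w volume s Y :=
      hw.mono_set (by rw [uIcc_of_le hs.2, uIcc_of_le haY]; exact Icc_subset_Icc_left hs.1)
    have h3 := intervalIntegral.integral_add_adjacent_intervals h1 h2
    simp only [hg]
    rw [← h3]; ring
  have hfg : IntervalIntegrable (fun s => f1 s * g s) volume a Y :=
    ((hf1.mul hgc).mono (by rw [uIcc_of_le haY])).intervalIntegrable
  rw [← e1, key, e2, e4, intervalIntegral.integral_sub (hf1i.mul_const _) hfg,
    intervalIntegral.integral_mul_const, e3]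
  have : g a = 0 := by simp [hg]
  rw [this]
  simp only [hg]
  ring

/-- the identity on `[a,Y]`, `a > 0`. -/
theorem pairing_pos {κ Y : ℝ} {z D D1 ψ ψ1 ψ2 ψ3 : ℝ → ℝ} (hR : Rep κ z D D1) {a : ℝ}
    (ha : 0 < a) (haY : a ≤ Y)
    (hψ : ∀ y ∈ Icc 0 Y, HasDerivWithinAt ψ (ψ1 y) (Icc 0 Y) y)
    (hψ1 : ∀ y ∈ Icc 0 Y, HasDerivWithinAt ψ1 (ψ2 y) (Icc 0 Y) y)
    (hψ2c : ContinuousOn ψ2 (Icc 0 Y)) {s : Set ℝ} (hs : s.Countable)
    (hψ2 : ∀ y ∈ Ioo 0 Y \ s, HasDerivAt ψ2 (ψ3 y) y)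
    (hψ3 : IntervalIntegrable ψ3 volume 0 Y)
    (h0 : ψ Y = 0) (h1 : ψ1 Y = 0) (h2 : ψ2 Y = 0)
    (hz : IntervalIntegrable z volume 0 Y) :
    ∫ y in a..Y, (ψ y * z y + (y * ψ3 y + 12 * ψ2 y) * D y) =
      a ^ 10 * ψ a * QQ z a + (10 * ψ a + a * ψ1 a) * D1 a - (11 * ψ1 a + a * ψ2 a) * D a := by
  have hsub : Icc a Y ⊆ Icc 0 Y := Icc_subset_Icc_left ha.le
  have hIaY : uIcc a Y = Icc a Y := uIcc_of_le haY
  have hψa : ∀ y ∈ Icc a Y, HasDerivWithinAt ψ (ψ1 y) (Icc a Y) y :=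
    fun y hy => (hψ y (hsub hy)).mono hsub
  have hψ1a : ∀ y ∈ Icc a Y, HasDerivWithinAt ψ1 (ψ2 y) (Icc a Y) y :=
    fun y hy => (hψ1 y (hsub hy)).mono hsub
  have hψc : ContinuousOn ψ (Icc a Y) := fun y hy => (hψa y hy).continuousWithinAt
  have hψ1c : ContinuousOn ψ1 (Icc a Y) := fun y hy => (hψ1a y hy).continuousWithinAt
  have hψ2a : ContinuousOn ψ2 (Icc a Y) := hψ2c.mono hsub
  have hDa : ∀ y ∈ Icc a Y, HasDerivAt D (D1 y) y := fun y hy => hR.hD y (lt_of_lt_of_le ha hy.1)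
  have hD1a : ∀ y ∈ Icc a Y, HasDerivAt D1 (-(y ^ 9 * QQ z y)) y :=
    fun y hy => hR.hD1 y (lt_of_lt_of_le ha hy.1)
  have hDc : ContinuousOn D (Icc a Y) := fun y hy => (hDa y hy).continuousAt.continuousWithinAt
  have hD1c : ContinuousOn D1 (Icc a Y) := fun y hy => (hD1a y hy).continuousAt.continuousWithinAt
  -- w
  set w : ℝ → ℝ := fun t => (t ^ 10)⁻¹ * z t with hwdef
  have hza : IntervalIntegrable z volume a Y :=
    hz.mono_set (by rw [hIaY, uIcc_of_le (ha.le.trans haY)]; exact hsub)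
  have hwint : IntegrableOn w (Ioi a) := hR.int a ha
  have hwa : IntervalIntegrable w volume a Y := by
    rw [intervalIntegrable_iff_integrableOn_Ioc_of_le haY]
    exact hwint.mono_set Ioc_subset_Ioi_self
  have hQ : ∀ y ∈ Icc a Y, QQ z y = (∫ t in y..Y, w t) + QQ z Y := by
    intro y hy
    have h3 : IntegrableOn w (Ioi y) := hwint.mono_set (Ioi_subset_Ioi hy.1)
    have h4 : IntegrableOn w (Ioi Y) := hwint.mono_set (Ioi_subset_Ioi haY)
    have := intervalIntegral.integral_interval_add_Ioi h3 h4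
    unfold QQ
    rw [← this]
  have hQc : ContinuousOn (QQ z) (Icc a Y) := by
    have h5 : ContinuousOn (fun y => (∫ t in y..Y, w t) + QQ z Y) (Icc a Y) := by
      apply ContinuousOn.add _ continuousOn_const
      have h6 : ContinuousOn (fun x => ∫ t in a..x, w t) (Icc a Y) := by
        have := hwa.absolutelyContinuousOnInterval_intervalIntegral (c := a) (by simp)
        have := this.continuousOn
        rwa [hIaY] at this
      have h7 : ContinuousOn (fun y => (∫ t in a..Y, w t) - ∫ t in a..y, w t) (Icc a Y) :=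
        continuousOn_const.sub h6
      apply h7.congr
      intro y hy
      have h8 : IntervalIntegrable w volume a y :=
        hwa.mono_set (by rw [uIcc_of_le hy.1, hIaY]; exact Icc_subset_Icc_right hy.2)
      have h9 : IntervalIntegrable w volume y Y :=
        hwa.mono_set (by rw [uIcc_of_le hy.2, hIaY]; exact Icc_subset_Icc_left hy.1)
      have := intervalIntegral.integral_add_adjacent_intervals h8 h9
      simp only
      rw [← this]; ring
    exact h5.congr hQ
  -- Step A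
  have hA : ∫ t in a..Y, ψ t * z t = a ^ 10 * ψ a * QQ z a +
      ∫ s in a..Y, (10 * s ^ 9 * ψ s + s ^ 10 * ψ1 s) * QQ z s := by
    have hf : ∀ y ∈ Icc a Y, HasDerivWithinAt (fun t => t ^ 10 * ψ t)
        (10 * y ^ 9 * ψ y + y ^ 10 * ψ1 y) (Icc a Y) y := by
      intro y hy
      have h3 : HasDerivWithinAt (fun t : ℝ => t ^ 10) (10 * y ^ 9) (Icc a Y) y := by
        simpa using (hasDerivAt_pow 10 y).hasDerivWithinAt
      exact h3.mul (hψa y hy)
    have hf1c : ContinuousOn (fun y => 10 * y ^ 9 * ψ y + y ^ 10 * ψ1 y) (Icc a Y) := by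
      fun_prop
    have h4 := byparts_L1 haY hf hf1c hwa
    have h5 : ∫ t in a..Y, (t ^ 10 * ψ t) * w t = ∫ t in a..Y, ψ t * z t := by
      apply intervalIntegral.integral_congr
      intro t ht
      rw [hIaY] at ht
      have : t ≠ 0 := (lt_of_lt_of_le ha ht.1).ne'
      simp only [hwdef]
      field_simp
    have h6 : ∫ s in a..Y, (10 * s ^ 9 * ψ s + s ^ 10 * ψ1 s) * (∫ t in s..Y, w t) =
        ∫ s in a..Y, ((10 * s ^ 9 * ψ s + s ^ 10 * ψ1 s) * QQ z s -
          (10 * s ^ 9 * ψ s + s ^ 10 * ψ1 s) * QQ z Y) := by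
      apply intervalIntegral.integral_congr
      intro s hs
      rw [hIaY] at hs
      simp only
      rw [hQ s hs]; ring
    have i1 : IntervalIntegrable (fun s => (10 * s ^ 9 * ψ s + s ^ 10 * ψ1 s) * QQ z s)
        volume a Y := ((hf1c.mul hQc).mono (by rw [hIaY])).intervalIntegrable
    have i2 : IntervalIntegrable (fun s => (10 * s ^ 9 * ψ s + s ^ 10 * ψ1 s))
        volume a Y := (hf1c.mono (by rw [hIaY])).intervalIntegrable
    have h7 : ∫ s in a..Y, (10 * s ^ 9 * ψ s + s ^ 10 * ψ1 s) =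
        Y ^ 10 * ψ Y - a ^ 10 * ψ a := by
      apply intervalIntegral.integral_eq_sub_of_hasDerivAt_of_le haY
        (f := fun t => t ^ 10 * ψ t) _ _ i2
      · exact fun y hy => (hf y hy).continuousWithinAt
      · intro x hx
        exact (hf x (Ioo_subset_Icc_self hx)).hasDerivAt (Icc_mem_nhds hx.1 hx.2)
    rw [h5, h6, intervalIntegral.integral_sub i1 (i2.mul_const _),
      intervalIntegral.integral_mul_const, h7, h0] at h4
    rw [h4, hQ a ⟨le_rfl, haY⟩]
    ring
  -- Step B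
  have hB : ∫ s in a..Y, (10 * s ^ 9 * ψ s + s ^ 10 * ψ1 s) * QQ z s =
      (10 * ψ a + a * ψ1 a) * D1 a + ∫ s in a..Y, (11 * ψ1 s + s * ψ2 s) * D1 s := by
    have hu : ∀ y ∈ uIcc a Y, HasDerivWithinAt (fun y => 10 * ψ y + y * ψ1 y)
        (11 * ψ1 y + y * ψ2 y) (uIcc a Y) y := by
      intro y hy
      rw [hIaY] at hy ⊢
      have h3 := ((hψa y hy).const_mul 10).add ((hasDerivWithinAt_id y (Icc a Y)).mul (hψ1a y hy))
      refine h3.congr_deriv ?_
      simp only [id]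
      ring
    have hv : ∀ y ∈ uIcc a Y, HasDerivWithinAt D1 (-(y ^ 9 * QQ z y)) (uIcc a Y) y := by
      intro y hy
      rw [hIaY] at hy
      exact (hD1a y hy).hasDerivWithinAt
    have hu' : IntervalIntegrable (fun y => 11 * ψ1 y + y * ψ2 y) volume a Y := by
      apply ContinuousOn.intervalIntegrable
      rw [hIaY]; fun_prop
    have hv' : IntervalIntegrable (fun y => -(y ^ 9 * QQ z y)) volume a Y := by
      apply ContinuousOn.intervalIntegrable
      rw [hIaY]; fun_prop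
    have h4 := intervalIntegral.integral_mul_deriv_eq_deriv_mul_of_hasDerivWithinAt hu hv hu' hv'
    have h5 : ∫ s in a..Y, (10 * s ^ 9 * ψ s + s ^ 10 * ψ1 s) * QQ z s =
        - ∫ y in a..Y, (10 * ψ y + y * ψ1 y) * -(y ^ 9 * QQ z y) := by
      rw [← intervalIntegral.integral_neg]
      apply intervalIntegral.integral_congr
      intro s _
      simp only
      ring
    rw [h5, h4, h0, h1]
    ring
  -- Step C
  have hψ3a : IntervalIntegrable ψ3 volume a Y :=
    hψ3.mono_set (by rw [hIaY, uIcc_of_le (ha.le.trans haY)]; exact hsub)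
  have i3 : IntervalIntegrable (fun y => (y * ψ3 y + 12 * ψ2 y) * D y) volume a Y := by
    apply IntervalIntegrable.mul_continuousOn _ (by rw [hIaY]; exact hDc)
    apply IntervalIntegrable.add
    · exact hψ3a.continuousOn_mul continuousOn_id
    · apply ContinuousOn.intervalIntegrable
      rw [hIaY]; fun_prop
  have i4 : IntervalIntegrable (fun y => (11 * ψ1 y + y * ψ2 y) * D1 y) volume a Y := by
    apply ContinuousOn.intervalIntegrable
    rw [hIaY]; fun_prop
  have hC : ∫ s in a..Y, (11 * ψ1 s + s * ψ2 s) * D1 s =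
      - (11 * ψ1 a + a * ψ2 a) * D a - ∫ y in a..Y, (y * ψ3 y + 12 * ψ2 y) * D y := by
    have h4 : ∫ y in a..Y, ((y * ψ3 y + 12 * ψ2 y) * D y + (11 * ψ1 y + y * ψ2 y) * D1 y) =
        (11 * ψ1 Y + Y * ψ2 Y) * D Y - (11 * ψ1 a + a * ψ2 a) * D a := by
      apply integral_eq_of_hasDerivAt_off_countable
        (fun y => (11 * ψ1 y + y * ψ2 y) * D y) _ hs
      · rw [hIaY]; fun_prop
      · intro x hx
        rw [min_eq_left haY, max_eq_right haY] at hx
        have hx0 : x ∈ Ioo 0 Y \ s := ⟨⟨ha.trans hx.1.1, hx.1.2⟩, hx.2⟩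
        have hxI : x ∈ Icc a Y := Ioo_subset_Icc_self hx.1
        have h5 : HasDerivAt ψ1 (ψ2 x) x :=
          (hψ1a x hxI).hasDerivAt (Icc_mem_nhds hx.1.1 hx.1.2)
        have h6 := ((h5.const_mul 11).add ((hasDerivAt_id x).mul (hψ2 x hx0))).mul (hDa x hxI)
        refine h6.congr_deriv ?_
        simp only [id, Pi.add_apply, Pi.mul_apply]
        ring
      · exact i3.add i4
    rw [intervalIntegral.integral_add i3 i4, h1, h2] at h4
    linarith
  have i5 : IntervalIntegrable (fun t => ψ t * z t) volume a Y :=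
    hza.continuousOn_mul (by rw [hIaY]; exact hψc)
  rw [intervalIntegral.integral_add i5 i3, hA, hB, hC]
  ring

/-- `a^10 Q(a) → 0` as `a → 0+`. -/
theorem pow_mul_QQ_tendsto {κ Y : ℝ} {z D D1 : ℝ → ℝ} (hR : Rep κ z D D1) (hY : 0 < Y)
    (hz : IntervalIntegrable z volume 0 Y) :
    Tendsto (fun a => a ^ 10 * QQ z a) (𝓝[>] 0) (𝓝 0) := by
  set w : ℝ → ℝ := fun t => (t ^ 10)⁻¹ * z t with hwdef
  have hzI : IntegrableOn z (Ioc 0 Y) := by
    rwa [intervalIntegrable_iff_integrableOn_Ioc_of_le hY.le] at hz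
  have hev : ∀ᶠ a : ℝ in 𝓝[>] 0, 0 < a ∧ a < Y := by
    filter_upwards [Ioo_mem_nhdsGT hY] with a ha using ⟨ha.1, ha.2⟩
  have hdom : Tendsto (fun a => ∫ t in Ioc 0 Y, (Ioc a Y).indicator (fun t => a ^ 10 * w t) t)
      (𝓝[>] 0) (𝓝 (∫ t in Ioc 0 Y, (0 : ℝ))) := by
    apply tendsto_integral_filter_of_dominated_convergence (fun t => |z t|)
    · filter_upwards [hev] with a ha
      apply AEStronglyMeasurable.indicator _ measurableSet_Ioc
      have h1 : AEStronglyMeasurable z (volume.restrict (Ioc 0 Y)) := hzI.aestronglyMeasurable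
      have h2 : Measurable (fun t : ℝ => (t ^ 10)⁻¹) := by fun_prop
      exact (h2.aestronglyMeasurable.mul h1).const_mul _
    · filter_upwards [hev] with a ha
      refine (ae_restrict_iff' measurableSet_Ioc).2 (Eventually.of_forall ?_)
      intro t ht
      by_cases htm : t ∈ Ioc a Y
      · rw [indicator_of_mem htm, Real.norm_eq_abs, abs_mul, hwdef]
        simp only
        rw [abs_mul, abs_of_pos (pow_pos ha.1 10), abs_of_pos (inv_pos.2 (pow_pos ht.1 10))]
        have : a ^ 10 * (t ^ 10)⁻¹ ≤ 1 := by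
          rw [← div_eq_mul_inv, div_le_one (pow_pos ht.1 10)]
          exact pow_le_pow_left₀ ha.1.le htm.1.le 10
        nlinarith [abs_nonneg (z t)]
      · rw [indicator_of_notMem htm]
        simp
    · exact hzI.abs
    · refine (ae_restrict_iff' measurableSet_Ioc).2 (Eventually.of_forall ?_)
      intro t ht
      have h1 : Tendsto (fun a : ℝ => a ^ 10 * |w t|) (𝓝[>] 0) (𝓝 0) := by
        have : Tendsto (fun a : ℝ => a ^ 10 * |w t|) (𝓝 0) (𝓝 ((0:ℝ) ^ 10 * |w t|)) :=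
          ((continuous_pow 10).mul continuous_const).tendsto 0
        simpa using this.mono_left nhdsWithin_le_nhds
      apply squeeze_zero_norm' _ h1
      filter_upwards [hev] with a ha
      by_cases htm : t ∈ Ioc a Y
      · rw [indicator_of_mem htm, Real.norm_eq_abs, abs_mul, abs_of_pos (pow_pos ha.1 10)]
      · rw [indicator_of_notMem htm]
        simp only [norm_zero]
        exact mul_nonneg (pow_nonneg ha.1.le 10) (abs_nonneg _)
  rw [integral_zero] at hdom
  have h2 : Tendsto (fun a : ℝ => a ^ 10 * QQ z Y) (𝓝[>] 0) (𝓝 0) := by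
    have : Tendsto (fun a : ℝ => a ^ 10 * QQ z Y) (𝓝 0) (𝓝 ((0:ℝ) ^ 10 * QQ z Y)) :=
      ((continuous_pow 10).mul continuous_const).tendsto 0
    simpa using this.mono_left nhdsWithin_le_nhds
  have h3 := hdom.add h2
  rw [add_zero] at h3
  refine h3.congr' ?_
  filter_upwards [hev] with a ha
  have h4 : IntegrableOn w (Ioi a) := hR.int a ha.1
  have h5 := intervalIntegral.integral_interval_add_Ioi h4
    (h4.mono_set (Ioi_subset_Ioi ha.2.le))
  have h6 : ∫ t in Ioc 0 Y, (Ioc a Y).indicator (fun t => a ^ 10 * w t) t =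
      a ^ 10 * ∫ t in a..Y, w t := by
    rw [setIntegral_indicator measurableSet_Ioc,
      show Ioc 0 Y ∩ Ioc a Y = Ioc a Y from
        inter_eq_right.2 (Ioc_subset_Ioc_left ha.1.le),
      intervalIntegral.integral_of_le ha.2.le, integral_const_mul]
  rw [h6]
  unfold QQ
  rw [← h5]
  ring

/-- pairing with an adjoint function `ψ` (`ψ` = `y^{-9}·`(the ψ of note 8672)), vanishing for `y ≥ Y`. -/
theorem pairing {κ Y : ℝ} {z D D1 ψ ψ1 ψ2 ψ3 : ℝ → ℝ} (hR : Rep κ z D D1) (hY : 0 < Y)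
    (hψ : ∀ y ∈ Icc 0 Y, HasDerivWithinAt ψ (ψ1 y) (Icc 0 Y) y)
    (hψ1 : ∀ y ∈ Icc 0 Y, HasDerivWithinAt ψ1 (ψ2 y) (Icc 0 Y) y)
    (hψ2c : ContinuousOn ψ2 (Icc 0 Y)) {s : Set ℝ} (hs : s.Countable)
    (hψ2 : ∀ y ∈ Ioo 0 Y \ s, HasDerivAt ψ2 (ψ3 y) y)
    (hψ3 : IntervalIntegrable ψ3 volume 0 Y)
    (h0 : ψ Y = 0) (h1 : ψ1 Y = 0) (h2 : ψ2 Y = 0)
    (hz : IntervalIntegrable z volume 0 Y) :
    10 * ψ 0 * κ = ∫ y in (0:ℝ)..Y, (ψ y * z y + (y * ψ3 y + 12 * ψ2 y) * D y) := by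
  have hIY : uIcc 0 Y = Icc 0 Y := uIcc_of_le hY.le
  have h0m : (0:ℝ) ∈ Icc 0 Y := ⟨le_rfl, hY.le⟩
  have hψc : ContinuousOn ψ (Icc 0 Y) := fun y hy => (hψ y hy).continuousWithinAt
  have hψ1c : ContinuousOn ψ1 (Icc 0 Y) := fun y hy => (hψ1 y hy).continuousWithinAt
  -- continuous extension of `D` by `0`
  set Dt : ℝ → ℝ := Function.update D 0 0 with hDt
  have hDtc : ContinuousOn Dt (Icc 0 Y) := by
    intro y hy
    rcases eq_or_lt_of_le hy.1 with h | h
    · subst h
      rw [continuousWithinAt_update_same]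
      apply hR.lim0.mono_left
      apply nhdsWithin_mono
      intro t ht
      exact lt_of_le_of_ne ht.1.1 (Ne.symm ht.2)
    · have h3 : ContinuousAt D y := (hR.hD y h).continuousAt
      rw [continuousWithinAt_update_of_ne h.ne']
      exact h3.continuousWithinAt
  set F : ℝ → ℝ := fun y => ψ y * z y + (y * ψ3 y + 12 * ψ2 y) * D y with hF
  set Ft : ℝ → ℝ := fun y => ψ y * z y + (y * ψ3 y + 12 * ψ2 y) * Dt y with hFt
  have hFti : IntervalIntegrable Ft volume 0 Y := by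
    apply IntervalIntegrable.add
    · exact hz.continuousOn_mul (by rw [hIY]; exact hψc)
    · apply IntervalIntegrable.mul_continuousOn _ (by rw [hIY]; exact hDtc)
      apply IntervalIntegrable.add
      · exact hψ3.continuousOn_mul continuousOn_id
      · apply ContinuousOn.intervalIntegrable
        rw [hIY]; fun_prop
  have hFF : ∀ y, 0 < y → F y = Ft y := by
    intro y hy
    simp only [hF, hFt, hDt]
    rw [Function.update_of_ne hy.ne']
  have hIF : ∀ a, 0 ≤ a → a ≤ Y → ∫ y in a..Y, F y = ∫ y in a..Y, Ft y := by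
    intro a ha haY
    apply intervalIntegral.integral_congr_ae
    refine Eventually.of_forall ?_
    intro y hy
    rw [uIoc_of_le haY] at hy
    exact hFF y (lt_of_le_of_lt ha hy.1)
  have hev : ∀ᶠ a : ℝ in 𝓝[>] 0, 0 < a ∧ a < Y := by
    filter_upwards [Ioo_mem_nhdsGT hY] with a ha using ⟨ha.1, ha.2⟩
  have hle : 𝓝[>] (0:ℝ) ≤ 𝓝[Icc 0 Y] 0 := by
    rw [← nhdsWithin_Ioo_eq_nhdsGT hY]
    exact nhdsWithin_mono _ Ioo_subset_Icc_self
  have hL : Tendsto (fun a => ∫ y in a..Y, F y) (𝓝[>] 0) (𝓝 (∫ y in (0:ℝ)..Y, F y)) := by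
    have hprim : ContinuousOn (fun x => ∫ t in (0:ℝ)..x, Ft t) (Icc 0 Y) := by
      have := (hFti.absolutelyContinuousOnInterval_intervalIntegral (c := 0) (by simp)).continuousOn
      rwa [hIY] at this
    have h3 : Tendsto (fun x => ∫ t in (0:ℝ)..x, Ft t) (𝓝[>] 0) (𝓝 0) := by
      have := (hprim 0 h0m).tendsto.mono_left hle
      simpa using this
    have h4 : Tendsto (fun x => (∫ t in (0:ℝ)..Y, Ft t) - ∫ t in (0:ℝ)..x, Ft t) (𝓝[>] 0)
        (𝓝 ((∫ t in (0:ℝ)..Y, Ft t) - 0)) := tendsto_const_nhds.sub h3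
    rw [sub_zero, ← hIF 0 le_rfl hY.le] at h4
    refine h4.congr' ?_
    filter_upwards [hev] with a ha
    rw [hIF a ha.1.le ha.2.le]
    have h5 : IntervalIntegrable Ft volume 0 a :=
      hFti.mono_set (by rw [uIcc_of_le ha.1.le, hIY]; exact Icc_subset_Icc_right ha.2.le)
    have h6 : IntervalIntegrable Ft volume a Y :=
      hFti.mono_set (by rw [uIcc_of_le ha.2.le, hIY]; exact Icc_subset_Icc_left ha.1.le)
    have h7 := intervalIntegral.integral_add_adjacent_intervals h5 h6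
    rw [hIF 0 le_rfl hY.le, ← h7]
    ring
  have tψ : Tendsto ψ (𝓝[>] 0) (𝓝 (ψ 0)) := (hψc 0 h0m).tendsto.mono_left hle
  have tψ1 : Tendsto ψ1 (𝓝[>] 0) (𝓝 (ψ1 0)) := (hψ1c 0 h0m).tendsto.mono_left hle
  have tψ2 : Tendsto ψ2 (𝓝[>] 0) (𝓝 (ψ2 0)) := (hψ2c 0 h0m).tendsto.mono_left hle
  have tid : Tendsto (fun a : ℝ => a) (𝓝[>] 0) (𝓝 0) :=
    tendsto_id.mono_left nhdsWithin_le_nhds
  have hQt := pow_mul_QQ_tendsto hR hY hz
  have hRt : Tendsto (fun a => a ^ 10 * ψ a * QQ z a + (10 * ψ a + a * ψ1 a) * D1 a -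
      (11 * ψ1 a + a * ψ2 a) * D a) (𝓝[>] 0)
      (𝓝 (ψ 0 * 0 + (10 * ψ 0 + 0 * ψ1 0) * κ - (11 * ψ1 0 + 0 * ψ2 0) * 0)) := by
    have h3 := ((tψ.mul hQt).add (((tψ.const_mul 10).add (tid.mul tψ1)).mul hR.lim1)).sub
      (((tψ1.const_mul 11).add (tid.mul tψ2)).mul hR.lim0)
    refine h3.congr ?_
    intro a
    ring
  have hEq : ∀ᶠ a in 𝓝[>] (0:ℝ), ∫ y in a..Y, F y =
      a ^ 10 * ψ a * QQ z a + (10 * ψ a + a * ψ1 a) * D1 a - (11 * ψ1 a + a * ψ2 a) * D a := by
    filter_upwards [hev] with a ha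
    exact pairing_pos hR ha.1 ha.2.le hψ hψ1 hψ2c hs hψ2 hψ3 h0 h1 h2 hz
  have h5 := tendsto_nhds_unique (hL.congr' hEq) hRt
  have h6 : ∫ y in (0:ℝ)..Y, (ψ y * z y + (y * ψ3 y + 12 * ψ2 y) * D y) = ∫ y in (0:ℝ)..Y, F y := rfl
  rw [h6, h5]
  ring

end Crest.Agent.R213.E
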