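import Crest.Agent.R213.E.CSpl

/-!
# Row 213, part E, certificate tooling: localisation and integrals along a chain of cells (helper110)
-/

set_option autoImplicit false

open Set MeasureTheory

namespace Crest.Agent.R213.E.C

/-! ### localisation -/

theorem chain_b_le_a {K : ℕ} : ∀ (l : List Pc) (p : Pc), chain (p :: l) = true → ∀ q ∈ l,
    p.b K ≤ q.a K := by
  intro l
  induction l with
  | nil => intro p _ q hq; simp at hq
  | cons r l ih =>
    intro p hc q hq
    have hc' := hc
    simp only [chain, Bool.and_eq_true, decide_eq_true_eq] at hc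
    obtain ⟨⟨hp, hj⟩, ⟨hr, _⟩, _⟩ := hc
    have e := joint_ends (K := K) hj
    rcases List.mem_cons.1 hq with h | h
    · subst h; exact e.le
    · have h1 := ih r (chain_tail hc') q h
      have h2 := b_lt_b (K := K) hr hj
      linarith

theorem chain_pos {l : List Pc} (hc : chain l = true) : ∀ p ∈ l, 0 < p.H := by
  induction l with
  | nil => intro p hp; simp at hp
  | cons q l ih =>
    intro p hp
    rcases List.mem_cons.1 hp with h | h
    · subst h; exact chain_head hc
    · exact ih (chain_tail hc) p h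

/-- on the half open cell the spline is the piece (all orders). -/
theorem pw_eq_f {K S : ℕ} {T : ℕ → ℝ → ℝ} : ∀ (l : List Pc), chain l = true → ∀ p ∈ l, ∀ y : ℝ,
    p.a K < y → y ≤ p.b K → ∀ r, pw K S l T r y = p.f K S r y := by
  intro l
  induction l with
  | nil => intro _ p hp; simp at hp
  | cons q l ih =>
    intro hc p hp y hy1 hy2 r
    rcases List.mem_cons.1 hp with h | h
    · subst h; rw [pw, if_pos hy2]
    · have h1 := chain_b_le_a (K := K) l q hc p h
      rw [pw, if_neg (not_le.2 (h1.trans_lt hy1))]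
      exact ih (chain_tail hc) p h y hy1 hy2 r

/-- the spline of order `r ≤ 3` is continuous. -/
theorem pw_cont {K S : ℕ} {T : ℕ → ℝ → ℝ} : ∀ (l : List Pc), l ≠ [] → chain l = true →
    (∀ q, l.getLast? = some q → LastOK K S q T) → (∀ q, l.getLast? = some q →
      ContinuousOn (T 3) (Ici (q.b K))) → ∀ y : ℝ, ContinuousAt (pw K S l T 3) y := by
  intro l
  induction l with
  | nil => intro h; exact absurd rfl h
  | cons p l ih =>
    intro _ hc hT hTc y
    have hp := chain_head hc
    have hjet := pw_next hc hT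
    have hfc : ∀ z, ContinuousAt (p.f K S 3) z := fun z => (p.hasDerivAt_f K S hp 3 z).continuousAt
    have hrest : ∀ y, p.b K ≤ y → ContinuousWithinAt (pw K S l T 3) (Ici (p.b K)) y := by
      intro y hy
      cases l with
      | nil => exact hTc p rfl y hy
      | cons q l' =>
        exact (ih (by simp) (chain_tail hc) (fun q' hq' => hT q' (by simpa using hq'))
          (fun q' hq' => hTc q' (by simpa using hq')) y).continuousWithinAt
    rcases lt_trichotomy y (p.b K) with h | h | h
    · have e : pw K S (p :: l) T 3 =ᶠ[nhds y] p.f K S 3 := by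
        filter_upwards [Iio_mem_nhds h] with z hz
        rw [pw, if_pos (le_of_lt hz)]
      exact (hfc y).congr e.symm
    · subst h
      rw [continuousAt_iff_continuous_left_right]
      constructor
      · refine (hfc (p.b K)).continuousWithinAt.congr (fun z hz => ?_) ?_
        · rw [pw, if_pos (mem_Iic.1 hz)]
        · rw [pw, if_pos le_rfl]
      · refine (hrest (p.b K) le_rfl).congr (fun z hz => ?_) ?_
        · rcases eq_or_lt_of_le (mem_Ici.1 hz) with h | h
          · rw [← h, pw, if_pos le_rfl, hjet 3 le_rfl]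
          · rw [pw, if_neg (not_le.2 h)]
        · rw [pw, if_pos le_rfl, hjet 3 le_rfl]
    · have e : pw K S (p :: l) T 3 =ᶠ[nhds y] pw K S l T 3 := by
        filter_upwards [Ioi_mem_nhds h] with z hz
        rw [pw, if_neg (not_le.2 hz)]
      have h2 : ContinuousAt (pw K S l T 3) y :=
        (hrest y h.le).continuousAt (Ici_mem_nhds h)
      exact h2.congr e.symm

/-! ### integrals along the chain -/

/-- right end of the chain (`a` if empty). -/
noncomputable def lend (K : ℕ) : ℝ → List Pc → ℝ
  | a, [] => a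
  | _, p :: l => lend K (p.b K) l

/-- the chain starts at `a` and consecutive cells are adjacent. -/
def adj (K : ℕ) : ℝ → List Pc → Prop
  | _, [] => True
  | a, p :: l => p.a K = a ∧ 0 < p.H ∧ adj K (p.b K) l

theorem adj_of_chain {K : ℕ} : ∀ (l : List Pc) (p : Pc), chain (p :: l) = true →
    adj K (p.a K) (p :: l) := by
  intro l
  induction l with
  | nil => intro p hc; exact ⟨rfl, chain_head hc, trivial⟩
  | cons q l ih =>
    intro p hc
    have hc' := hc
    simp only [chain, Bool.and_eq_true, decide_eq_true_eq] at hc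
    obtain ⟨⟨hp, hj⟩, _⟩ := hc
    refine ⟨rfl, hp, ?_⟩
    have := ih q (chain_tail hc')
    rw [← joint_ends (K := K) hj] at this
    exact this

theorem Pc.a_lt_b {K : ℕ} {p : Pc} (h : 0 < p.H) : p.a K < p.b K := by
  have := Pc.h_pos (K := K) h
  unfold Pc.a Pc.b; nlinarith

theorem Pc.b_sub_a {K : ℕ} (p : Pc) : p.b K - p.a K = 2 * p.h K := by
  unfold Pc.a Pc.b; ring

theorem le_lend {K : ℕ} : ∀ (l : List Pc) (a : ℝ), adj K a l → a ≤ lend K a l := by
  intro l
  induction l with
  | nil => intro a _; exact le_rfl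
  | cons p l ih =>
    intro a h
    obtain ⟨h1, h2, h3⟩ := h
    exact (h1 ▸ (Pc.a_lt_b h2).le).trans (ih _ h3)

/-- upper bound of an integral along a chain. -/
theorem int_le_chain {K : ℕ} {f : ℝ → ℝ} {B : Pc → ℝ} : ∀ (l : List Pc) (a : ℝ), adj K a l →
    (∀ p ∈ l, ∀ y, p.a K < y → y ≤ p.b K → f y ≤ B p) →
    IntervalIntegrable f volume a (lend K a l) →
    ∫ y in a..lend K a l, f y ≤ (l.map fun p => B p * (2 * p.h K)).sum := by
  intro l
  induction l with
  | nil => intro a _ _ _; simp [lend]
  | cons p l ih =>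
    intro a hadj hb hi
    obtain ⟨h1, h2, h3⟩ := hadj
    have hab := Pc.a_lt_b (K := K) h2
    have hle := le_lend l _ h3
    simp only [lend] at hi ⊢
    have hi1 : IntervalIntegrable f volume a (p.b K) := by
      refine hi.mono_set ?_
      rw [uIcc_of_le (h1 ▸ hab.le), uIcc_of_le ((h1 ▸ hab.le).trans hle)]
      exact Icc_subset_Icc_right hle
    have hi2 : IntervalIntegrable f volume (p.b K) (lend K (p.b K) l) := by
      refine hi.mono_set ?_
      rw [uIcc_of_le hle, uIcc_of_le ((h1 ▸ hab.le).trans hle)]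
      exact Icc_subset_Icc_left (h1 ▸ hab.le)
    rw [← intervalIntegral.integral_add_adjacent_intervals hi1 hi2]
    simp only [List.map_cons, List.sum_cons]
    refine add_le_add ?_ (ih _ h3 (fun q hq => hb q (List.mem_cons_of_mem _ hq)) hi2)
    subst h1
    have e : (∫ _ in p.a K..p.b K, B p) = B p * (2 * p.h K) := by
      rw [intervalIntegral.integral_const, Pc.b_sub_a, smul_eq_mul]; ring
    rw [← e]
    refine intervalIntegral.integral_mono_on_of_le_Ioo hab.le hi1 (by simp) ?_
    intro y hy
    exact hb p (List.mem_cons_self ..) y hy.1 hy.2.le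

/-- additivity of the integral along a chain: if the integral over each cell is known. -/
theorem int_eq_chain {K : ℕ} {f : ℝ → ℝ} {B : Pc → ℝ} : ∀ (l : List Pc) (a : ℝ), adj K a l →
    (∀ p ∈ l, ∫ y in p.a K..p.b K, f y = B p) →
    IntervalIntegrable f volume a (lend K a l) →
    ∫ y in a..lend K a l, f y = (l.map B).sum := by
  intro l
  induction l with
  | nil => intro a _ _ _; simp [lend]
  | cons p l ih =>
    intro a hadj hb hi
    obtain ⟨h1, h2, h3⟩ := hadj
    have hab := Pc.a_lt_b (K := K) h2
    have hle := le_lend l _ h3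
    simp only [lend] at hi ⊢
    have hi1 : IntervalIntegrable f volume a (p.b K) := by
      refine hi.mono_set ?_
      rw [uIcc_of_le (h1 ▸ hab.le), uIcc_of_le ((h1 ▸ hab.le).trans hle)]
      exact Icc_subset_Icc_right hle
    have hi2 : IntervalIntegrable f volume (p.b K) (lend K (p.b K) l) := by
      refine hi.mono_set ?_
      rw [uIcc_of_le hle, uIcc_of_le ((h1 ▸ hab.le).trans hle)]
      exact Icc_subset_Icc_left (h1 ▸ hab.le)
    rw [← intervalIntegral.integral_add_adjacent_intervals hi1 hi2]
    simp only [List.map_cons, List.sum_cons]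
    rw [ih _ h3 (fun q hq => hb q (List.mem_cons_of_mem _ hq)) hi2, ← hb p (List.mem_cons_self ..), h1]

/-! ### exact integration over `[-1,1]` -/

/-- `∫_{-1}^1 (t^k p(t)) dt` times `L`, if `L` is divisible by `k+1, …`. -/
def itg (L : Int) : Nat → List Int → Int
  | _, [] => 0
  | k, a :: p => (if k % 2 = 0 then 2 * a * (L / (k + 1)) else 0) + itg L (k + 1) p

/-- divisibility check -/
def dvdB (L : Int) : Nat → List Int → Bool
  | _, [] => true
  | k, _ :: p => decide (L / (k + 1) * (k + 1) = L) && dvdB L (k + 1) p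

theorem integral_pow_mul_ev (L : Int) : ∀ (p : List Int) (k : ℕ), dvdB L k p = true →
    (L : ℝ) * ∫ t in (-1 : ℝ)..1, t ^ k * ev p t = (itg L k p : ℝ) := by
  intro p
  induction p with
  | nil => intro k _; simp [itg]
  | cons a p ih =>
    intro k h
    simp only [dvdB, Bool.and_eq_true, decide_eq_true_eq] at h
    obtain ⟨h1, h2⟩ := h
    have h3 := ih (k + 1) h2
    have e : (fun t : ℝ => t ^ k * ev (a :: p) t) = fun t => (a : ℝ) * t ^ k + t ^ (k + 1) * ev p t := by
      funext t; simp only [ev_cons]; ring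
    have hc := continuous_ev p
    rw [e, intervalIntegral.integral_add (by apply Continuous.intervalIntegrable; fun_prop)
      (by apply Continuous.intervalIntegrable; fun_prop), intervalIntegral.integral_const_mul,
      integral_pow, mul_add, h3]
    simp only [itg]
    have hk : ((k : ℝ) + 1) ≠ 0 := by positivity
    have hL : (L : ℝ) = ((L / (k + 1) : Int) : ℝ) * ((k : ℝ) + 1) := by
      have : ((L / (k + 1) * (k + 1) : Int) : ℝ) = (L : ℝ) := by rw [h1]
      push_cast at this
      linarith
    push_cast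
    congr 1
    rcases Nat.even_or_odd k with hev | hod
    · have h4 : k % 2 = 0 := Nat.even_iff.1 hev
      have h5 : (-1 : ℝ) ^ (k + 1) = -1 := (hev.add_one).neg_one_pow
      rw [if_pos h4, h5, one_pow, hL]
      field_simp
      ring
    · have h4 : ¬ k % 2 = 0 := by rw [Nat.odd_iff.1 hod]; decide
      have h5 : (-1 : ℝ) ^ (k + 1) = 1 := (hod.add_one).neg_one_pow
      rw [if_neg h4, h5, one_pow]
      simp

theorem integral_ev (L : Int) (p : List Int) (h : dvdB L 0 p = true) :
    (L : ℝ) * ∫ t in (-1 : ℝ)..1, ev p t = (itg L 0 p : ℝ) := by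
  have := integral_pow_mul_ev L p 0 h
  simpa using this

/-- `(M+t) p` -/
def mt (M : Int) (p : List Int) : List Int := add (smul M p) (0 :: p)

@[simp] theorem ev_mt (M : Int) (p : List Int) (t : ℝ) : ev (mt M p) t = (M + t) * ev p t := by
  simp [mt]; ring

/-- `(M+t)^n p` -/
def mtn (M : Int) : Nat → List Int → List Int
  | 0, p => p
  | n + 1, p => mt M (mtn M n p)

@[simp] theorem ev_mtn (M : Int) (n : Nat) (p : List Int) (t : ℝ) :
    ev (mtn M n p) t = (M + t) ^ n * ev p t := by
  induction n with
  | zero => simp [mtn]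
  | succ n ih => simp only [mtn, ev_mt, ih]; ring

/-- change of variables to the cell. -/
theorem Pc.integral_cell {K : ℕ} {p : Pc} (hH : 0 < p.H) (F : ℝ → ℝ) :
    ∫ y in p.a K..p.b K, F (y / p.h K - p.M) = p.h K * ∫ t in (-1 : ℝ)..1, F t := by
  have hh := Pc.h_pos (K := K) hH
  have e1 : (-1 : ℝ) = p.a K / p.h K - p.M := by unfold Pc.a; field_simp; ring
  have e2 : (1 : ℝ) = p.b K / p.h K - p.M := by unfold Pc.b; field_simp; ring
  have := intervalIntegral.integral_comp_sub_right (a := p.a K / p.h K) (b := p.b K / p.h K) F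
    (p.M : ℝ)
  rw [← e1, ← e2] at this
  rw [← this]
  have h2 := intervalIntegral.integral_comp_div (a := p.a K) (b := p.b K)
    (fun x => F (x - p.M)) hh.ne'
  rw [h2, smul_eq_mul]

/-- `∫ y^n (piece)` over the cell. -/
theorem Pc.integral_pow_mul {K S : ℕ} {p : Pc} (hH : 0 < p.H) (n : ℕ) (L : Int) (hL : 0 < L)
    (h : dvdB L 0 (mtn p.M n p.P) = true) :
    ∫ y in p.a K..p.b K, p.f K S 0 y * y ^ n =
      p.h K ^ (n + 1) * (itg L 0 (mtn p.M n p.P) : ℝ) / (L * 2 ^ S) := by
  have hh := Pc.h_pos (K := K) hH
  have hLR : (0 : ℝ) < L := by exact_mod_cast hL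
  have e : (fun y => p.f K S 0 y * y ^ n) =
      fun y => (fun t => p.h K ^ n / 2 ^ S * ev (mtn p.M n p.P) t) (y / p.h K - p.M) := by
    funext y
    simp only [Pc.f, dern, ev_mtn, pow_zero, div_one]
    have : ((p.M : Int) : ℝ) + (y / p.h K - p.M) = y / p.h K := by push_cast; ring
    rw [this, div_pow]
    field_simp
  rw [e, Pc.integral_cell hH (fun t => p.h K ^ n / 2 ^ S * ev (mtn p.M n p.P) t),
    intervalIntegral.integral_const_mul]
  have h2 := integral_ev L (mtn p.M n p.P) h
  have h3 : ∫ t in (-1 : ℝ)..1, ev (mtn p.M n p.P) t = (itg L 0 (mtn p.M n p.P) : ℝ) / L := by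
    field_simp; linarith
  rw [h3]
  field_simp
  ring

end Crest.Agent.R213.E.C
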