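import Crest.Agent.R213.E.PsiMain
import Crest.Agent.R213.E.CertAsm
import Crest.Agent.R213.E.CFam

/-!
# Row 213, part E, E-CERT: the fields `PsiFacts` of the certificate (helper110)
-/

set_option autoImplicit false

open Set MeasureTheory

namespace Crest.Agent.R213.E.C.Ps

theorem gf_eq (r : ℕ) : gf (tl 128 SE A0) r = gg r := rfl
theorem kf_eq (r : ℕ) : kf (tl 128 SE A1) r = kk r := rfl

theorem tl_contOn (A : List Int) (r : ℕ) {b : ℝ} (hb : b = 128) :
    ContinuousOn (tl 128 SE A r) (Ici b) := by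
  intro y hy
  have hy' : b ≤ y := hy
  exact (hasDerivAt_tl 128 SE A r (by rw [hb] at hy'; linarith)).continuousAt.continuousWithinAt

theorem cells_ne_g : cells.map Cell.gP ≠ [] := by decide
theorem cells_ne_k : cells.map Cell.kP ≠ [] := by decide

theorem gg_deriv {r : ℕ} (hr : r < 3) (y : ℝ) : HasDerivAt (gg r) (gg (r + 1) y) y :=
  pw_hasDerivAt _ cells_ne_g chain_g (fun q hq => (last_g q hq).1) r hr y

theorem kk_deriv {r : ℕ} (hr : r < 3) (y : ℝ) : HasDerivAt (kk r) (kk (r + 1) y) y :=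
  pw_hasDerivAt _ cells_ne_k chain_k (fun q hq => (last_k q hq).1) r hr y

theorem gg_cont {r : ℕ} (hr : r ≤ 3) : Continuous (gg r) := by
  rcases hr.lt_or_eq with h | h
  · exact continuous_iff_continuousAt.2 fun y => (gg_deriv h y).continuousAt
  · subst h
    exact continuous_iff_continuousAt.2 fun y => pw_cont _ cells_ne_g chain_g
      (fun q hq => (last_g q hq).1) (fun q hq => tl_contOn A0 3 (last_g q hq).2) y

theorem kk_cont {r : ℕ} (hr : r ≤ 3) : Continuous (kk r) := by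
  rcases hr.lt_or_eq with h | h
  · exact continuous_iff_continuousAt.2 fun y => (kk_deriv h y).continuousAt
  · subst h
    exact continuous_iff_continuousAt.2 fun y => pw_cont _ cells_ne_k chain_k
      (fun q hq => (last_k q hq).1) (fun q hq => tl_contOn A1 3 (last_k q hq).2) y

theorem zz_zero (x : ℝ) (r : ℕ) {y : ℝ} (hy : y ≤ 128) : zz x r y = 0 := by
  have hd : ∀ r, dern r ([] : List Int) = [] := by
    intro r; induction r with
    | zero => rfl
    | succ r ih => simpa [dern, der] using ih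
  rw [zz, pw, if_pos (by rw [zP_b]; exact hy)]
  simp [Pc.f, zP, hd]

theorem GF_eq (r : ℕ) (c : ℝ) {y : ℝ} (hy : y ≤ 128) : GF r c y = gg r y + (c - c0R) * kk r y := by
  rw [GF, zz_zero _ r hy, add_zero]; rfl

theorem c0_eq : cst.c0 = c0R := rfl
theorem d_eq : cst.δ = dR := rfl

theorem p_cell : PCell St.sd.p := by
  intro x hx y h1 h2
  rw [St.sd_p_cell hx (by rw [St.aQ_cast]; exact h1) (by rw [St.b_cast]; exact h2), St.be_cast]

theorem main_res (hres : ∀ c ∈ Icc (cst.c0 - cst.δ) (cst.c0 + cst.δ), ∀ y : ℝ, 0 < y →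
    |resid c y (GF 0 c y) (GF 1 c y) (GF 2 c y) (GF 3 c y)| ≤ St.sd.R y) {c : ℝ}
    (hc : c ∈ Icc (cst.c0 - cst.δ) (cst.c0 + cst.δ)) : ∀ x ∈ cells, ∀ y, x.gP.a KE < y →
      y ≤ x.gP.b KE → 8 < y →
      |resid c y (gf (tl 128 SE A0) 0 y + (c - c0R) * kf (tl 128 SE A1) 0 y)
        (gf (tl 128 SE A0) 1 y + (c - c0R) * kf (tl 128 SE A1) 1 y)
        (gf (tl 128 SE A0) 2 y + (c - c0R) * kf (tl 128 SE A1) 2 y)
        (gf (tl 128 SE A0) 3 y + (c - c0R) * kf (tl 128 SE A1) 3 y)| ≤ (x.R20 : ℝ) / 10 ^ 20 := by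
  intro x hx y h1 h2 h8
  have hb : ∀ x ∈ cells, x.gP.b KE ≤ 128 := by
    have h : cells.all (fun x => decide (x.H * (x.M + 1) ≤ 1024)) = true := by decide +kernel
    intro x hx
    have h3 : x.H * (x.M + 1) ≤ 1024 := by simpa using List.all_eq_true.1 h x hx
    rw [b_KE]
    have : ((x.gP.H * (x.gP.M + 1) : ℕ) : ℝ) ≤ 1024 := by exact_mod_cast h3
    linarith
  have hy128 : y ≤ 128 := h2.trans (hb x hx)
  have hx' : x ∈ cells.tail := by
    have hcons : cells = cells.head (by decide) :: cells.tail := (List.cons_head_tail _).symm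
    rw [hcons] at hx
    rcases List.mem_cons.1 hx with h | h
    · exfalso
      have hh : (cells.head (by decide)).H * ((cells.head (by decide)).M + 1) = 16 := by
        decide +kernel
      rw [h, b_KE] at h2
      have : (((cells.head (by decide)).gP.H * ((cells.head (by decide)).gP.M + 1) : ℕ) : ℝ) = 16 := by
        exact_mod_cast hh
      rw [this] at h2
      linarith
    · exact h
  have h := hres c hc y (by linarith)
  rw [St.sd_R_cell hx' (by rw [St.aQ_cast]; exact h1) (by rw [St.b_cast]; exact h2), St.R_cast] at h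
  rw [GF_eq 0 c hy128, GF_eq 1 c hy128, GF_eq 2 c hy128, GF_eq 3 c hy128] at h
  exact h

theorem PF_eq (c : ℝ) : ∫ y in (0 : ℝ)..16, PF (tl 128 SE A0) (tl 128 SE A1) c y =
    ∫ y in (0 : ℝ)..16, psi 0 y * (y ^ 8 * resid c y (GF 0 c y) (GF 1 c y) (GF 2 c y) (GF 3 c y)) := by
  refine intervalIntegral.integral_congr_ae (Filter.Eventually.of_forall fun y hy => ?_)
  rw [uIoc_of_le (by norm_num)] at hy
  have h : y ≤ 128 := hy.2.trans (by norm_num)
  rw [GF_eq 0 c h, GF_eq 1 c h, GF_eq 2 c h, GF_eq 3 c h]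
  rfl

/-- all the fields of `PsiFacts`, from the residual bound of the family. -/
theorem psiFacts (hres : ∀ c ∈ Icc (cst.c0 - cst.δ) (cst.c0 + cst.δ), ∀ y : ℝ, 0 < y →
    |resid c y (GF 0 c y) (GF 1 c y) (GF 2 c y) (GF 3 c y)| ≤ St.sd.R y) :
    PsiFacts (fun c y => GF 0 c y) (fun c y => GF 1 c y) (fun c y => GF 2 c y)
      (fun c y => GF 3 c y) (psi 0) (psi 1) (psi 2) (psi 3) := by
  have hY : cst.Y = 16 := rfl
  have hb : cst.b = 4 := rfl
  have hpm : Measurable St.sd.p := St.p_measurable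
  have hK1 := K1_bound hpm p_cell
  have hgm : Measurable (gf (tl 128 SE A0) 0) := (gg_cont (by norm_num)).measurable
  have hg0 : ∀ y : ℝ, 0 < y → y ≤ 16 → GF 0 cst.c0 y = gf (tl 128 SE A0) 0 y := by
    intro y _ h2
    rw [GF_eq 0 _ (h2.trans (by norm_num)), c0_eq, sub_self, zero_mul, add_zero]
    rfl
  have hK2 := K2_bound hpm p_cell hgm hg0
  have hd0 : 0 < dR := by unfold dR; positivity
  have hmain : ∀ (s : ℝ), s = 1 ∨ s = -1 → ∀ c, c = c0R + s * dR →
      c ∈ Icc (cst.c0 - cst.δ) (cst.c0 + cst.δ) →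
      3 / 4 ≤ s * -∫ y in (0 : ℝ)..16, psi 0 y *
        (y ^ 8 * resid c y (GF 0 c y) (GF 1 c y) (GF 2 c y) (GF 3 c y)) := by
    intro s hs c hc hmem
    rw [← PF_eq]
    exact main_core (fun r hr => gg_cont hr) (fun r hr => kk_cont hr)
      (fun r hr y => kk_deriv hr y) hs hc (main_res hres hmem)
  refine ⟨fun y _ => (psi_deriv (by norm_num) y).hasDerivWithinAt,
    fun y _ => (psi_deriv (by norm_num) y).hasDerivWithinAt,
    fun y _ => (psi_deriv (by norm_num) y).hasDerivWithinAt, psi3_cont.continuousOn,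
    psi_16 (by norm_num), psi_16 (by norm_num), psi_16 (by norm_num), psi_0, ?_, ?_, ?_, ?_, ?_, ?_⟩
  · rw [hY, hb]; exact hK1.1
  · rw [hY, hb]; exact hK1.2
  · rw [hY]; exact hK2.1
  · rw [hY]; exact hK2.2
  · have h := hmain 1 (Or.inl rfl) (cst.c0 + cst.δ) (by rw [c0_eq, d_eq]; ring)
      ⟨by rw [d_eq]; linarith, le_rfl⟩
    rw [one_mul] at h
    exact h
  · have h := hmain (-1) (Or.inr rfl) (cst.c0 - cst.δ) (by rw [c0_eq, d_eq]; ring)
      ⟨le_rfl, by rw [d_eq]; linarith⟩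
    rw [neg_mul_neg, one_mul] at h
    exact h

end Crest.Agent.R213.E.C.Ps
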