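import Crest.Agent.R213.E.PsiCell

/-!
# Row 213, part E: integrals along the cells, `ψ` facts, `K1`, `K2` (helper110)
-/

set_option autoImplicit false

open Set MeasureTheory

namespace Crest.Agent.R213.E.C.Ps

/-! ### chains of cells, integral bounds -/

/-- boolean adjacency: the chain starts at `s/8` -/
def adjB : Nat → List Pc → Bool
  | _, [] => true
  | s, p :: l => decide (0 < p.H) && decide (p.H * p.M = s + p.H) && adjB (p.H * (p.M + 1)) l

/-- right end times 8 -/
def lendN : Nat → List Pc → Nat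
  | s, [] => s
  | _, p :: l => lendN (p.H * (p.M + 1)) l

theorem b_KE (p : Pc) : p.b KE = ((p.H * (p.M + 1) : ℕ) : ℝ) / 8 := by
  simp only [Pc.b, Pc.h, KE]; push_cast; ring

theorem adj_of_adjB : ∀ (l : List Pc) (s : Nat), adjB s l = true → adj KE ((s : ℝ) / 8) l := by
  intro l
  induction l with
  | nil => intro s _; trivial
  | cons p l ih =>
    intro s h
    simp only [adjB, Bool.and_eq_true, decide_eq_true_eq] at h
    obtain ⟨⟨h1, h2⟩, h3⟩ := h
    refine ⟨?_, h1, ?_⟩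
    · have : ((p.H * p.M : ℕ) : ℝ) = ((s + p.H : ℕ) : ℝ) := by exact_mod_cast h2
      push_cast at this
      simp only [Pc.a, Pc.h, KE]
      linarith
    · rw [b_KE]; exact ih _ h3

theorem lend_eq : ∀ (l : List Pc) (s : Nat), lend KE ((s : ℝ) / 8) l = (lendN s l : ℝ) / 8 := by
  intro l
  induction l with
  | nil => intro s; rfl
  | cons p l ih => intro s; simp only [lend, lendN]; rw [b_KE]; exact ih _

/-- measurable function bounded on every cell: integrable and the integral is bounded. -/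
theorem int_chain {α : Type} (P : α → Pc) (B : α → ℝ) {f : ℝ → ℝ} (hf : Measurable f) :
    ∀ (l : List α) (a : ℝ), adj KE a (l.map P) →
    (∀ x ∈ l, ∀ y, (P x).a KE < y → y ≤ (P x).b KE → |f y| ≤ B x) →
    IntervalIntegrable f volume a (lend KE a (l.map P)) ∧
    |∫ y in a..lend KE a (l.map P), f y| ≤ (l.map fun x => B x * (2 * (P x).h KE)).sum := by
  intro l
  induction l with
  | nil => intro a _ _; simp [lend]
  | cons p l ih =>
    intro a hadj hb
    obtain ⟨h1, h2, h3⟩ := hadj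
    have hab := Pc.a_lt_b (K := KE) h2
    have ih' := ih _ h3 (fun q hq => hb q (List.mem_cons_of_mem _ hq))
    have hi1 : IntervalIntegrable f volume a ((P p).b KE) := by
      rw [intervalIntegrable_iff_integrableOn_Ioc_of_le (h1 ▸ hab.le)]
      refine Measure.integrableOn_of_bounded (M := B p) (by simp) hf.aestronglyMeasurable ?_
      refine (ae_restrict_iff' measurableSet_Ioc).2 (Filter.Eventually.of_forall fun y hy => ?_)
      rw [Real.norm_eq_abs]
      exact hb p (List.mem_cons_self ..) y (h1 ▸ hy.1) hy.2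
    simp only [List.map_cons, lend, List.sum_cons]
    refine ⟨hi1.trans ih'.1, ?_⟩
    rw [← intervalIntegral.integral_add_adjacent_intervals hi1 ih'.1]
    refine (abs_add_le _ _).trans (add_le_add ?_ ih'.2)
    have h4 := intervalIntegral.norm_integral_le_of_norm_le_const (a := a) (b := (P p).b KE)
      (f := f) (C := B p) (fun y hy => by
        rw [uIoc_of_le (h1 ▸ hab.le)] at hy
        rw [Real.norm_eq_abs]
        exact hb p (List.mem_cons_self ..) y (h1 ▸ hy.1) hy.2)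
    rw [Real.norm_eq_abs] at h4
    refine h4.trans ?_
    rw [← h1, Pc.b_sub_a, abs_of_pos (by have := Pc.h_pos (K := KE) h2; positivity)]

/-- cast of a rational sum -/
theorem sum_le_of_rat {α : Type} {l : List α} {B : α → ℝ} {q : α → ℚ} {R : ℚ}
    (h : ∀ x ∈ l, B x ≤ (q x : ℝ)) (hq : (l.map q).sum ≤ R) : (l.map B).sum ≤ (R : ℝ) := by
  have h1 : (l.map B).sum ≤ (l.map fun x => (q x : ℝ)).sum := List.sum_le_sum h
  have h2 : ∀ (l : List α), (l.map fun x => (q x : ℝ)).sum = (((l.map q).sum : ℚ) : ℝ) := by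
    intro l
    induction l with
    | nil => simp
    | cons a l ih => rw [List.map_cons, List.sum_cons, ih, List.map_cons, List.sum_cons]; push_cast; rfl
  rw [h2 l] at h1
  exact h1.trans (by exact_mod_cast hq)

/-! ### facts about `ψ` -/

def lastB : Bool := match psiL.getLast? with
  | none => true
  | some q => (List.range 4).all fun r => decide (evI (dern r q.P) 1 = 0)

theorem lastB_true : lastB = true := by decide +kernel

theorem psi_last : ∀ q, psiL.getLast? = some q → LastOK KE 64 q (fun _ _ => 0) := by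
  intro q hq
  have h := lastB_true
  simp only [lastB, hq, List.all_eq_true, List.mem_range, decide_eq_true_eq] at h
  have hH : 0 < q.H := chain_pos chain_psi q (List.mem_of_mem_getLast? hq)
  refine ⟨fun r hr => ?_, fun r _ y _ => hasDerivAt_const y (0 : ℝ)⟩
  rw [Pc.f_b hH, h r (by omega)]
  simp

theorem psiL_ne : psiL ≠ [] := by
  intro h
  have : psiL.length = 0 := by rw [h]; rfl
  revert this
  decide +kernel

theorem psi_deriv {r : ℕ} (hr : r < 3) (y : ℝ) : HasDerivAt (psi r) (psi (r + 1) y) y :=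
  pw_hasDerivAt psiL psiL_ne chain_psi psi_last r hr y

theorem psi3_cont : Continuous (psi 3) :=
  continuous_iff_continuousAt.2 fun y => pw_cont psiL psiL_ne chain_psi psi_last
    (fun _ _ => continuousOn_const) y

theorem psi_cont {r : ℕ} (hr : r ≤ 3) : Continuous (psi r) := by
  rcases hr.lt_or_eq with h | h
  · exact continuous_iff_continuousAt.2 fun y => (psi_deriv h y).continuousAt
  · subst h; exact psi3_cont

theorem adj_pz : adj KE 0 (pz.map psiP) := by
  have := adj_of_adjB (pz.map psiP) 0 (by decide +kernel)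
  simpa using this

theorem lend_pz : lend KE 0 (pz.map psiP) = 16 := by
  have := lend_eq (pz.map psiP) 0
  have h2 : lendN 0 (pz.map psiP) = 128 := by decide +kernel
  rw [h2] at this
  simpa using this.trans (by norm_num)

theorem psi_16 {r : ℕ} (hr : r ≤ 3) : psi r 16 = 0 := by
  obtain ⟨q, hq⟩ : ∃ q, psiL.getLast? = some q := by
    rw [← Option.isSome_iff_exists, List.getLast?_isSome]; exact psiL_ne
  have hmem := List.mem_of_mem_getLast? hq
  have hH : 0 < q.H := chain_pos chain_psi q hmem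
  have hb : q.b KE = 16 := by
    have h1 : (match psiL.getLast? with
      | none => true
      | some q => decide (q.H * (q.M + 1) = 128)) = true := by decide +kernel
    rw [hq] at h1
    simp only [decide_eq_true_eq] at h1
    rw [b_KE, h1]; norm_num
  have h2 := pw_eq_f (K := KE) (S := 64) (T := fun _ _ => 0) psiL chain_psi q hmem (q.b KE)
    (Pc.a_lt_b hH) le_rfl r
  rw [hb] at h2
  rw [psi, h2, ← hb, (psi_last q hq).jet r hr]

theorem psi_0 : 0 < psi 0 0 := by
  have h1 : (match psiL with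
      | [] => false
      | p :: _ => decide (p.H = 8) && decide (p.M = 1) && decide (0 < evI p.P (-1))) = true := by
    decide +kernel
  unfold psi
  cases h : psiL with
  | nil => exact absurd h psiL_ne
  | cons p l =>
    rw [h] at h1
    simp only [Bool.and_eq_true, decide_eq_true_eq] at h1
    obtain ⟨⟨hH, hM⟩, hE⟩ := h1
    have hHp : 0 < p.H := by omega
    have ha : p.a KE = 0 := by simp only [Pc.a, Pc.h, hM]; norm_num
    have hE' : (0 : ℝ) < evI p.P (-1) := by exact_mod_cast hE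
    have hh := Pc.h_pos (K := KE) hHp
    have h7 : pw KE 64 (p :: l) (fun _ _ => 0) 0 (p.a KE) = (evI p.P (-1) : ℝ) / 2 ^ 64 := by
      rw [pw, if_pos (Pc.a_lt_b hHp).le, Pc.f_a hHp 0]
      simp only [dern, pow_zero, div_one]
    rw [ha] at h7
    rw [h7]
    positivity

/-! ### `K1`, `K2` -/

theorem chi4 (y : ℝ) : chi 4 y = ((1 + y ^ 2 / 16) ^ 3)⁻¹ := by
  simp only [chi, uu]; rw [inv_pow]; norm_num

/-- the step weight on the cells -/
def PCell (p : ℝ → ℝ) : Prop := ∀ x ∈ cells, ∀ y, x.gP.a KE < y → y ≤ x.gP.b KE →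
  p y = √(chi 4 y * ((x.B3 : ℝ) / 1000))

def bQ (c : Cell) : ℚ := (c.H * (c.M + 1) : ℕ) / 8

def k1Q (x : Cell × PD) : ℚ :=
  ((x.2.sp : ℚ) / 10 ^ 9) ^ 2 * ((x.1.B3 : ℚ) / 1000) * (1 + bQ x.1 ^ 2 / 16) ^ 3 * (x.1.H / 4)

def k2Q (x : Cell × PD) : ℚ :=
  ((x.2.eb : ℚ) / 10 ^ 12) ^ 2 / ((x.1.B3 : ℚ) / 1000) * (1 + bQ x.1 ^ 2 / 16) ^ 3 * (x.1.H / 4)

theorem B3_pos : ∀ x ∈ cells, 0 < x.B3 := by
  have h : cells.all (fun x => decide (0 < x.B3)) = true := by decide +kernel
  intro x hx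
  have := List.all_eq_true.1 h x hx
  simpa using this

theorem sum_k1 : (pz.map k1Q).sum ≤ (207 / 100) ^ 2 := by decide +kernel
theorem sum_k2 : (pz.map k2Q).sum ≤ (65 / 1000) ^ 2 := by decide +kernel

theorem bQ_cast (c : Cell) : ((bQ c : ℚ) : ℝ) = c.gP.b KE := by
  rw [b_KE, bQ]; push_cast; rfl

theorem h_cast (c : Cell) : c.gP.h KE = (c.H : ℝ) / 8 := by
  simp only [Pc.h, KE, Cell.gP]; norm_num

theorem pos_of_mem_pz {x : Cell × PD} (hx : x ∈ pz) : 0 < x.1.H := by
  have hc := chk_of_mem hx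
  simp only [chk, Bool.and_eq_true, decide_eq_true_eq] at hc
  exact hc.1.1.1.1.1.1.1.1.1

/-- on a cell `0 ≤ y ≤ b` -/
theorem y_nonneg_of_cell {c : Cell} (hH : 0 < c.H) (hc : c ∈ cells) {y : ℝ}
    (h1 : c.gP.a KE < y) : 0 < y := by
  have h : cells.all (fun x => decide (1 ≤ x.M)) = true := by decide +kernel
  have hM : 1 ≤ c.M := by simpa using List.all_eq_true.1 h c hc
  refine lt_of_le_of_lt ?_ h1
  have hh := Pc.h_pos (K := KE) (p := c.gP) hH
  have : (1 : ℝ) ≤ c.M := by exact_mod_cast hM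
  simp only [Pc.a]
  exact mul_nonneg hh.le (by simpa [Cell.gP] using this)

theorem K1_bound {p : ℝ → ℝ} (hpm : Measurable p) (hp : PCell p) :
    IntervalIntegrable (fun y => (psi 0 y * p y / chi 4 y) ^ 2) volume 0 16 ∧
    ∫ y in (0 : ℝ)..16, (psi 0 y * p y / chi 4 y) ^ 2 ≤ (207 / 100) ^ 2 := by
  have hchi : Measurable (chi 4) := by unfold chi uu; fun_prop
  have hm : Measurable (fun y => (psi 0 y * p y / chi 4 y) ^ 2) :=
    (((psi_cont (by norm_num)).measurable.mul hpm).div hchi).pow_const 2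
  have hb : ∀ x ∈ pz, ∀ y, (psiP x).a KE < y → y ≤ (psiP x).b KE →
      |(psi 0 y * p y / chi 4 y) ^ 2| ≤ ((((x.2.sp : ℚ) / 10 ^ 9) ^ 2 * ((x.1.B3 : ℚ) / 1000) *
        (1 + bQ x.1 ^ 2 / 16) ^ 3 : ℚ) : ℝ) := by
    intro x hx y h1 h2
    have hf := cell_facts (fun _ _ => 0) (fun _ _ => 0) hx h1 h2
    have hmem := mem_cells_of_mem_pz hx
    have hB : (0 : ℝ) < x.1.B3 := by exact_mod_cast B3_pos x.1 hmem
    have hy : 0 < y := y_nonneg_of_cell (pos_of_mem_pz hx) hmem h1
    have hchip : 0 < chi 4 y := by rw [chi4]; positivity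
    rw [abs_of_nonneg (sq_nonneg _), div_pow, mul_pow, hp x.1 hmem y h1 h2,
      Real.sq_sqrt (by positivity)]
    have e : psi 0 y ^ 2 * (chi 4 y * ((x.1.B3 : ℝ) / 1000)) / chi 4 y ^ 2 =
        psi 0 y ^ 2 * ((x.1.B3 : ℝ) / 1000) * (1 + y ^ 2 / 16) ^ 3 := by
      have e1 : (1 + y ^ 2 / 16) ^ 3 = (chi 4 y)⁻¹ := by rw [chi4, inv_inv]
      rw [e1]
      field_simp
    rw [e]
    have h3 : psi 0 y ^ 2 ≤ ((x.2.sp : ℝ) / 10 ^ 9) ^ 2 := by
      rw [← sq_abs]; gcongr; exact hf.psi_le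
    have h4 : y ≤ x.1.gP.b KE := h2
    push_cast
    rw [bQ_cast]
    gcongr
  have hi := int_chain psiP _ hm pz 0 adj_pz hb
  rw [lend_pz] at hi
  refine ⟨hi.1, ?_⟩
  have h5 := (le_abs_self _).trans hi.2
  refine h5.trans ?_
  have := sum_le_of_rat (l := pz) (B := fun x => ((((x.2.sp : ℚ) / 10 ^ 9) ^ 2 *
    ((x.1.B3 : ℚ) / 1000) * (1 + bQ x.1 ^ 2 / 16) ^ 3 : ℚ) : ℝ) * (2 * (psiP x).h KE))
    (q := k1Q) (R := (207 / 100) ^ 2) (fun x _ => ?_) sum_k1
  · refine this.trans (by norm_num)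
  · have : (psiP x).h KE = (x.1.H : ℝ) / 8 := h_cast x.1
    simp only [k1Q]
    rw [this]
    push_cast
    apply le_of_eq
    ring

theorem K2_bound {p : ℝ → ℝ} (hpm : Measurable p) (hp : PCell p) {Tg : ℕ → ℝ → ℝ}
    (hg : Measurable (gf Tg 0)) {g0 : ℝ → ℝ} (hg0 : ∀ y, 0 < y → y ≤ 16 → g0 y = gf Tg 0 y) :
    IntervalIntegrable
      (fun y => ((y * psi 3 y + 12 * psi 2 y - nn g0 y * psi 0 y) / p y) ^ 2) volume 0 16 ∧
    ∫ y in (0 : ℝ)..16, ((y * psi 3 y + 12 * psi 2 y - nn g0 y * psi 0 y) / p y) ^ 2 ≤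
      (65 / 1000) ^ 2 := by
  set f : ℝ → ℝ := fun y => ((y * psi 3 y + 12 * psi 2 y - psi 0 y / (2 * gf Tg 0 y ^ 2)) / p y) ^ 2
    with hf_def
  have hm : Measurable f := by
    have m3 := (psi_cont (le_refl 3)).measurable
    have m2 := (psi_cont (show 2 ≤ 3 by norm_num)).measurable
    have m0 := (psi_cont (show 0 ≤ 3 by norm_num)).measurable
    exact ((((measurable_id.mul m3).add (m2.const_mul 12)).sub
      (m0.div ((hg.pow_const 2).const_mul 2))).div hpm).pow_const 2
  have hb : ∀ x ∈ pz, ∀ y, (psiP x).a KE < y → y ≤ (psiP x).b KE →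
      |f y| ≤ ((((x.2.eb : ℚ) / 10 ^ 12) ^ 2 / ((x.1.B3 : ℚ) / 1000) *
        (1 + bQ x.1 ^ 2 / 16) ^ 3 : ℚ) : ℝ) := by
    intro x hx y h1 h2
    have hf := cell_facts Tg (fun _ _ => 0) hx h1 h2
    have hmem := mem_cells_of_mem_pz hx
    have hB : (0 : ℝ) < x.1.B3 := by exact_mod_cast B3_pos x.1 hmem
    have hy : 0 < y := y_nonneg_of_cell (pos_of_mem_pz hx) hmem h1
    have hchip : 0 < chi 4 y := by rw [chi4]; positivity
    rw [hf_def]
    simp only
    rw [abs_of_nonneg (sq_nonneg _), div_pow, hp x.1 hmem y h1 h2, Real.sq_sqrt (by positivity)]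
    set E := y * psi 3 y + 12 * psi 2 y - psi 0 y / (2 * gf Tg 0 y ^ 2) with hE
    have e : E ^ 2 / (chi 4 y * ((x.1.B3 : ℝ) / 1000)) =
        E ^ 2 / ((x.1.B3 : ℝ) / 1000) * (1 + y ^ 2 / 16) ^ 3 := by
      rw [chi4]; field_simp
    rw [e]
    have h3 : E ^ 2 ≤ ((x.2.eb : ℝ) / 10 ^ 12) ^ 2 := by
      rw [← sq_abs]; gcongr; exact hf.e_le
    have h4 : y ≤ x.1.gP.b KE := h2
    push_cast
    rw [bQ_cast]
    gcongr
  have hi := int_chain psiP _ hm pz 0 adj_pz hb
  rw [lend_pz] at hi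
  have hcongr : ∀ y ∈ Ioc (0 : ℝ) 16,
      ((y * psi 3 y + 12 * psi 2 y - nn g0 y * psi 0 y) / p y) ^ 2 = f y := by
    intro y hy
    rw [hf_def]
    simp only [nn]
    rw [hg0 y hy.1 hy.2]
    congr 3
    ring
  constructor
  · rw [intervalIntegrable_iff_integrableOn_Ioc_of_le (by norm_num)] at hi ⊢
    exact (integrableOn_congr_fun hcongr measurableSet_Ioc).2 hi.1
  · rw [intervalIntegral.integral_congr_ae (g := f) (Filter.Eventually.of_forall fun y hy => by
      rw [uIoc_of_le (by norm_num)] at hy; exact hcongr y hy)]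
    have h5 := (le_abs_self _).trans hi.2
    refine h5.trans ?_
    have := sum_le_of_rat (l := pz) (B := fun x => ((((x.2.eb : ℚ) / 10 ^ 12) ^ 2 /
      ((x.1.B3 : ℚ) / 1000) * (1 + bQ x.1 ^ 2 / 16) ^ 3 : ℚ) : ℝ) * (2 * (psiP x).h KE))
      (q := k2Q) (R := (65 / 1000) ^ 2) (fun x _ => ?_) sum_k2
    · refine this.trans (by norm_num)
    · have : (psiP x).h KE = (x.1.H : ℝ) / 8 := h_cast x.1
      simp only [k2Q]
      rw [this]
      push_cast
      apply le_of_eq
      ring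

end Crest.Agent.R213.E.C.Ps
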