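import Crest.Agent.R213.E.PsiInt

/-!
# Row 213, part E: the main term of the pairing (helper110)
-/

set_option autoImplicit false

open Set MeasureTheory

namespace Crest.Agent.R213.E.C.Ps

/-- the concomitant -/
noncomputable def Wf (ψ ψ1 ψ2 k k1 k2 : ℝ → ℝ) (y : ℝ) : ℝ :=
  y * ψ y * (90 * y ^ 8 * k y + 20 * y ^ 9 * k1 y + y ^ 10 * k2 y)
    - (10 * ψ y + y * ψ1 y) * (10 * y ^ 9 * k y + y ^ 10 * k1 y)
    + (11 * ψ1 y + y * ψ2 y) * (y ^ 10 * k y)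

noncomputable def Wd (ψ ψ2 ψ3 k k1 k2 k3 : ℝ → ℝ) (y : ℝ) : ℝ :=
  ψ y * (y ^ 8 * (y ^ 3 * k3 y + 21 * y ^ 2 * k2 y + 90 * y * k1 y - 90 * k y))
    + (y * ψ3 y + 12 * ψ2 y) * (y ^ 10 * k y)

theorem hasDerivAt_Wf {ψ ψ1 ψ2 ψ3 k k1 k2 k3 : ℝ → ℝ} {y : ℝ}
    (a0 : HasDerivAt ψ (ψ1 y) y) (a1 : HasDerivAt ψ1 (ψ2 y) y) (a2 : HasDerivAt ψ2 (ψ3 y) y)
    (b0 : HasDerivAt k (k1 y) y) (b1 : HasDerivAt k1 (k2 y) y) (b2 : HasDerivAt k2 (k3 y) y) :
    HasDerivAt (Wf ψ ψ1 ψ2 k k1 k2) (Wd ψ ψ2 ψ3 k k1 k2 k3 y) y := by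
  have hy := hasDerivAt_id y
  have p8 := hasDerivAt_pow 8 y
  have p9 := hasDerivAt_pow 9 y
  have p10 := hasDerivAt_pow 10 y
  have t1 := (hy.mul a0).mul ((((p8.const_mul 90).mul b0).add ((p9.const_mul 20).mul b1)).add
    (p10.mul b2))
  have t2 := ((a0.const_mul 10).add (hy.mul a1)).mul (((p9.const_mul 10).mul b0).add (p10.mul b1))
  have t3 := ((a1.const_mul 11).add (hy.mul a2)).mul (p10.mul b0)
  have := (t1.sub t2).add t3
  refine this.congr_deriv ?_ |>.congr_of_eventuallyEq (Filter.Eventually.of_forall fun z => ?_)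
  · simp only [Wd, id, Pi.mul_apply, Pi.add_apply]
    push_cast
    ring
  · simp only [Wf, id, Pi.mul_apply, Pi.add_apply, Pi.sub_apply]

theorem alg_main {y ψ ψ2 ψ3 g g1 g2 g3 k k1 k2 k3 c c0 e : ℝ} (hce : c = c0 + e) (hc0 : c0 ≠ 0)
    (hc : c ≠ 0) (hg : g ≠ 0) (hgk : g + e * k ≠ 0) :
    -(ψ * (y ^ 8 * resid c y (g + e * k) (g1 + e * k1) (g2 + e * k2) (g3 + e * k3)))
      - e * (ψ * y ^ 10 / (2 * c * c0) -
        (ψ * (y ^ 8 * (y ^ 3 * k3 + 21 * y ^ 2 * k2 + 90 * y * k1 - 90 * k))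
          + (y * ψ3 + 12 * ψ2) * (y ^ 10 * k)))
    = -(ψ * (y ^ 8 * resid c0 y g g1 g2 g3)) + e * ((y * ψ3 + 12 * ψ2 - ψ / (2 * g ^ 2)) * (y ^ 10 * k))
      + e ^ 2 * (ψ * y ^ 10 * k ^ 2 / (2 * g ^ 2 * (g + e * k))) := by
  subst hce
  unfold resid
  field_simp
  ring

def pz1 : List (Cell × PD) := pz.take 25
def pz2 : List (Cell × PD) := pz.drop 25

theorem pz1_sub {x : Cell × PD} (h : x ∈ pz1) : x ∈ pz := List.mem_of_mem_take h
theorem pz2_sub {x : Cell × PD} (h : x ∈ pz2) : x ∈ pz := List.mem_of_mem_drop h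

theorem adj_pz1 : adj KE 0 (pz1.map psiP) := by
  have := adj_of_adjB (pz1.map psiP) 0 (by decide +kernel)
  simpa using this

theorem lend_pz1 : lend KE 0 (pz1.map psiP) = 8 := by
  have := lend_eq (pz1.map psiP) 0
  have h2 : lendN 0 (pz1.map psiP) = 64 := by decide +kernel
  rw [h2] at this
  simpa using this.trans (by norm_num)

theorem adj_pz2 : adj KE 8 (pz2.map psiP) := by
  have := adj_of_adjB (pz2.map psiP) 64 (by decide +kernel)
  norm_num at this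
  exact this

theorem lend_pz2 : lend KE 8 (pz2.map psiP) = 16 := by
  have := lend_eq (pz2.map psiP) 64
  have h2 : lendN 64 (pz2.map psiP) = 128 := by decide +kernel
  rw [h2] at this
  norm_num at this
  exact this

/-! ### `∫_0^8 ψ y^10` -/

def LL : Int := 12252240

def iQ (p : Pc) : ℚ := ((p.H : ℚ) / 8) ^ 11 * (itg LL 0 (mtn p.M 10 p.P) : ℚ) / (LL * 2 ^ 64)

theorem dvd_all : (pz1.map psiP).all (fun p => dvdB LL 0 (mtn p.M 10 p.P)) = true := by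
  decide +kernel

theorem sum_i : (11416366 : ℚ) ≤ ((pz1.map psiP).map iQ).sum := by decide +kernel

theorem cast_sum {α : Type} (l : List α) (q : α → ℚ) :
    (l.map fun x => (q x : ℝ)).sum = (((l.map q).sum : ℚ) : ℝ) := by
  induction l with
  | nil => simp
  | cons a l ih => rw [List.map_cons, List.sum_cons, ih, List.map_cons, List.sum_cons]; push_cast; rfl

theorem I10_ge : (11416366 : ℝ) ≤ ∫ y in (0 : ℝ)..8, psi 0 y * y ^ 10 := by
  have hi : IntervalIntegrable (fun y => psi 0 y * y ^ 10) volume 0 (lend KE 0 (pz1.map psiP)) :=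
    ((psi_cont (by norm_num)).mul (continuous_pow 10)).intervalIntegrable _ _
  have h := int_eq_chain (K := KE) (f := fun y => psi 0 y * y ^ 10) (B := fun p => (iQ p : ℝ))
    (pz1.map psiP) 0 adj_pz1 (fun p hp => ?_) hi
  · rw [lend_pz1] at h
    rw [h, cast_sum]
    exact_mod_cast sum_i
  · have hp' : p ∈ psiL := by
      obtain ⟨x, hx, rfl⟩ := List.mem_map.1 hp
      exact List.mem_map_of_mem (pz1_sub hx)
    have hH : 0 < p.H := chain_pos chain_psi p hp'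
    have h1 : ∫ y in p.a KE..p.b KE, psi 0 y * y ^ 10 =
        ∫ y in p.a KE..p.b KE, p.f KE 64 0 y * y ^ 10 := by
      refine intervalIntegral.integral_congr_ae (Filter.Eventually.of_forall fun y hy => ?_)
      rw [uIoc_of_le (Pc.a_lt_b hH).le] at hy
      rw [psi, pw_eq_f _ chain_psi p hp' y hy.1 hy.2 0]
    rw [h1, Pc.integral_pow_mul hH 10 LL (by decide) (List.all_eq_true.1 dvd_all p hp)]
    simp only [iQ, Pc.h, KE, LL]
    push_cast
    ring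

/-! ### the boundary term at `8` -/

def x24 : Cell × PD := pz.getD 24 (⟨0, 0, 0, [], 0, [], 0, 0, 0, 0, 0⟩, ⟨[], 0, 0, 0, 0⟩)

theorem x24_mem : x24 ∈ pz := by
  have h : 24 < pz.length := by decide +kernel
  unfold x24
  rw [List.getD_eq_getElem _ _ h]
  exact List.getElem_mem h

theorem x24_H : x24.1.H = 1 := by decide +kernel
theorem x24_M : x24.1.M = 63 := by decide +kernel
theorem x24_eK : x24.1.eK = 387 := by decide +kernel
theorem x24_p0 : evI (dern 0 x24.2.P) 1 = 51877213011443712 := by decide +kernel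
theorem x24_p1 : evI (dern 1 x24.2.P) 1 = -16857226579599360 := by decide +kernel
theorem x24_p2 : evI (dern 2 x24.2.P) 1 = 3117666199292928 := by decide +kernel
theorem x24_k0 : evI (dern 0 x24.1.Ki) 1 = 1390961687121184686080 := by decide +kernel
theorem x24_k1 : evI (dern 1 x24.1.Ki) 1 = -9680387264816835067904 := by decide +kernel
theorem x24_k2 : evI (dern 2 x24.1.Ki) 1 = 670631398787798114304 := by decide +kernel

theorem x24_b : x24.1.gP.b KE = 8 := by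
  rw [b_KE]
  have : x24.1.gP.H * (x24.1.gP.M + 1) = 64 := by
    show x24.1.H * (x24.1.M + 1) = 64
    rw [x24_H, x24_M]
  rw [this]; norm_num

theorem x24_h : x24.1.gP.h KE = 1 / 8 := by rw [h_cast, x24_H]; norm_num

theorem psi_8 (r : ℕ) : psi r 8 = (evI (dern r x24.2.P) 1 : ℝ) * 8 ^ r / 2 ^ 64 := by
  have hH : 0 < (psiP x24).H := by show 0 < x24.1.H; rw [x24_H]; norm_num
  have hm : psiP x24 ∈ psiL := List.mem_map_of_mem x24_mem
  have hb : (psiP x24).b KE = 8 := x24_b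
  have hh : (psiP x24).h KE = 1 / 8 := x24_h
  have h := pw_eq_f (K := KE) (S := 64) (T := fun _ _ => 0) psiL chain_psi _ hm ((psiP x24).b KE)
    (Pc.a_lt_b hH) le_rfl r
  rw [Pc.f_b hH, hh, hb] at h
  rw [psi, h]
  simp only [psiP]
  rw [one_div, inv_pow]
  field_simp

theorem kf_8 (T : ℕ → ℝ → ℝ) (r : ℕ) :
    kf T r 8 = (evI (dern r x24.1.Ki) 1 : ℝ) * 8 ^ r / 2 ^ 77 := by
  have hH : 0 < x24.1.kP.H := by show 0 < x24.1.H; rw [x24_H]; norm_num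
  have hm : x24.1.kP ∈ cells.map Cell.kP := List.mem_map_of_mem (mem_cells_of_mem_pz x24_mem)
  have hb : x24.1.kP.b KE = 8 := x24_b
  have hh : x24.1.kP.h KE = 1 / 8 := x24_h
  have h := pw_eq_f (K := KE) (S := SE) (T := T) _ chain_k _ hm (x24.1.kP.b KE)
    (Pc.a_lt_b hH) le_rfl r
  rw [kP_f _ (by rw [x24_eK]; decide), hh, hb, x24_eK, x24_M] at h
  have e : (8 : ℝ) / (1 / 8) - ((63 : ℕ) : ℝ) = 1 := by norm_num
  rw [e, ev_one] at h
  rw [kf, h, one_div, inv_pow]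
  have : SE - 387 = 77 := by decide
  rw [this]
  field_simp

theorem W8_le (T : ℕ → ℝ → ℝ) :
    Wf (psi 0) (psi 1) (psi 2) (kf T 0) (kf T 1) (kf T 2) 8 ≤ -40047984 := by
  unfold Wf
  rw [psi_8, psi_8, psi_8, kf_8, kf_8, kf_8, x24_p0, x24_p1, x24_p2, x24_k0, x24_k1, x24_k2]
  norm_num

/-! ### errors -/

def dQ : ℚ := 1 / 2 ^ 26

def e1Q (x : Cell × PD) : ℚ :=
  ((x.2.sp : ℚ) / 10 ^ 9) * bQ x.1 ^ 8 * ((x.2.rb : ℚ) / 10 ^ 18)
  + dQ * (((x.2.eb : ℚ) / 10 ^ 12) * bQ x.1 ^ 10 * ((x.1.kb3 : ℚ) / 1000))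
  + dQ ^ 2 * (((x.2.sp : ℚ) / 10 ^ 9) * bQ x.1 ^ 10 * ((x.1.kb3 : ℚ) / 1000) ^ 2 /
    (2 * ((x.1.gl4 : ℚ) / 10 ^ 4) ^ 2 * (((x.1.gl4 : ℚ) / 10 ^ 4) / 2)))

def e2Q (x : Cell × PD) : ℚ :=
  ((x.2.sp : ℚ) / 10 ^ 9) * bQ x.1 ^ 8 * ((x.1.R20 : ℚ) / 10 ^ 20)

theorem sum_e1 : (pz1.map fun x => e1Q x * (x.1.H / 4)).sum ≤ 1 / 10 ^ 4 := by decide +kernel
theorem sum_e2 : (pz2.map fun x => e2Q x * (x.1.H / 4)).sum ≤ 1 / 10 ^ 3 := by decide +kernel

theorem kb_gl : pz.all (fun x => decide ((x.1.kb3 : ℚ) / 1000 * dQ ≤ ((x.1.gl4 : ℚ) / 10 ^ 4) / 2)) =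
    true := by decide +kernel

/-! ### the main estimate -/

/-- `δ = 2^-26` -/
noncomputable def dR : ℝ := 1 / 2 ^ 26

theorem dQ_cast : ((dQ : ℚ) : ℝ) = dR := by simp only [dQ, dR]; push_cast; norm_num

/-- `ψ y^8 resid` -/
noncomputable def PF (Tg Tk : ℕ → ℝ → ℝ) (c y : ℝ) : ℝ :=
  psi 0 y * (y ^ 8 * resid c y (gf Tg 0 y + (c - c0R) * kf Tk 0 y)
    (gf Tg 1 y + (c - c0R) * kf Tk 1 y) (gf Tg 2 y + (c - c0R) * kf Tk 2 y)
    (gf Tg 3 y + (c - c0R) * kf Tk 3 y))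

theorem PF_meas {Tg Tk : ℕ → ℝ → ℝ} (hg : ∀ r ≤ 3, Continuous (gf Tg r))
    (hk : ∀ r ≤ 3, Continuous (kf Tk r)) (c : ℝ) : Measurable (PF Tg Tk c) := by
  have m : ∀ r ≤ 3, Measurable (fun y => gf Tg r y + (c - c0R) * kf Tk r y) := fun r hr =>
    (hg r hr).measurable.add ((hk r hr).measurable.const_mul _)
  have m0 := m 0 (by norm_num)
  have m1 := m 1 (by norm_num)
  have m2 := m 2 (by norm_num)
  have m3 := m 3 (by norm_num)
  have mp := (psi_cont (show 0 ≤ 3 by norm_num)).measurable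
  unfold PF resid
  have id1 : Measurable (fun y : ℝ => y) := measurable_id
  exact mp.mul ((id1.pow_const 8).mul ((((((id1.pow_const 3).mul m3).add
    (((id1.pow_const 2).const_mul 21).mul m2)).add ((id1.const_mul 90).mul m1)).add
    ((measurable_const.sub m0).const_mul 90)).add (((id1.pow_const 2).div_const 2).mul
    (measurable_const.sub (measurable_const.div m0)))))

theorem main_core {Tg Tk : ℕ → ℝ → ℝ} (hg : ∀ r ≤ 3, Continuous (gf Tg r))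
    (hk : ∀ r ≤ 3, Continuous (kf Tk r))
    (hkd : ∀ r < 3, ∀ y, HasDerivAt (kf Tk r) (kf Tk (r + 1) y) y) {c s : ℝ}
    (hs : s = 1 ∨ s = -1) (hc : c = c0R + s * dR)
    (hres : ∀ x ∈ cells, ∀ y, x.gP.a KE < y → y ≤ x.gP.b KE → 8 < y →
      |resid c y (gf Tg 0 y + (c - c0R) * kf Tk 0 y)
        (gf Tg 1 y + (c - c0R) * kf Tk 1 y) (gf Tg 2 y + (c - c0R) * kf Tk 2 y)
        (gf Tg 3 y + (c - c0R) * kf Tk 3 y)| ≤ (x.R20 : ℝ) / 10 ^ 20) :
    3 / 4 ≤ s * -∫ y in (0 : ℝ)..16, PF Tg Tk c y := by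
  have hs1 : |s| = 1 := by rcases hs with h | h <;> simp [h]
  have hss : s * s = 1 := by rcases hs with h | h <;> simp [h]
  have hd0 : 0 < dR := by unfold dR; positivity
  have hc0 : (0.71 : ℝ) < c0R := by unfold c0R; norm_num [C0]
  have hc0' : c0R < 0.72 := by unfold c0R; norm_num [C0]
  have hd1 : dR < 1 / 1000 := by unfold dR; norm_num
  have hsd : |s * dR| = dR := by rw [abs_mul, hs1, one_mul, abs_of_pos hd0]
  have hcc : c - c0R = s * dR := by rw [hc]; ring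
  have hcpos : 0 < c := by
    have := abs_le.1 hsd.le
    rw [hc]; linarith
  have hcle : c ≤ c0R + dR := by
    have := abs_le.1 hsd.le
    rw [hc]; linarith
  set e : ℝ := s * dR with he
  have hmeas := PF_meas hg hk c
  -- the model on [0,8]
  set Wx : ℝ → ℝ := Wd (psi 0) (psi 2) (psi 3) (kf Tk 0) (kf Tk 1) (kf Tk 2) (kf Tk 3) with hWx
  set Φ : ℝ → ℝ := fun y => e * (psi 0 y * y ^ 10 / (2 * c * c0R) - Wx y) with hΦ
  have cψ0 := psi_cont (show 0 ≤ 3 by norm_num)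
  have cψ2 := psi_cont (show 2 ≤ 3 by norm_num)
  have cψ3 := psi_cont (show 3 ≤ 3 by norm_num)
  have ck0 := hk 0 (by norm_num)
  have ck1 := hk 1 (by norm_num)
  have ck2 := hk 2 (by norm_num)
  have ck3 := hk 3 (by norm_num)
  have hWc : Continuous Wx := by
    rw [hWx]; unfold Wd; fun_prop
  have hΦc : Continuous Φ := by
    rw [hΦ]
    exact continuous_const.mul ((((cψ0.mul (continuous_pow 10)).div_const _)).sub hWc)
  have hWint : ∫ y in (0 : ℝ)..8, Wx y =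
      Wf (psi 0) (psi 1) (psi 2) (kf Tk 0) (kf Tk 1) (kf Tk 2) 8 := by
    have := intervalIntegral.integral_eq_sub_of_hasDerivAt (a := (0 : ℝ)) (b := 8)
      (f := Wf (psi 0) (psi 1) (psi 2) (kf Tk 0) (kf Tk 1) (kf Tk 2)) (f' := Wx)
      (fun y _ => hasDerivAt_Wf (psi_deriv (by norm_num) y) (psi_deriv (by norm_num) y)
        (psi_deriv (by norm_num) y) (hkd 0 (by norm_num) y) (hkd 1 (by norm_num) y)
        (hkd 2 (by norm_num) y)) (hWc.intervalIntegrable _ _)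
    rw [this]
    have h0 : Wf (psi 0) (psi 1) (psi 2) (kf Tk 0) (kf Tk 1) (kf Tk 2) 0 = 0 := by
      unfold Wf; ring
    rw [h0, sub_zero]
  -- cells in [0,8]
  have hb1 : ∀ x ∈ pz1, ∀ y, (psiP x).a KE < y → y ≤ (psiP x).b KE →
      |(-PF Tg Tk c y) - Φ y| ≤ ((e1Q x : ℚ) : ℝ) := by
    intro x hx y h1 h2
    have hx' := pz1_sub hx
    have hmem := mem_cells_of_mem_pz hx'
    have hf := cell_facts Tg Tk hx' h1 h2
    have hy : 0 < y := y_nonneg_of_cell (pos_of_mem_pz hx') hmem h1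
    have hyb : y ≤ (bQ x.1 : ℚ) := by rw [bQ_cast]; exact h2
    have hkg : (x.1.kb3 : ℝ) / 1000 * dR ≤ ((x.1.gl4 : ℝ) / 10 ^ 4) / 2 := by
      have := List.all_eq_true.1 kb_gl x hx'
      simp only [decide_eq_true_eq] at this
      have h3 : (((x.1.kb3 : ℚ) / 1000 * dQ : ℚ) : ℝ) ≤ ((((x.1.gl4 : ℚ) / 10 ^ 4) / 2 : ℚ) : ℝ) := by
        exact_mod_cast this
      push_cast at h3
      rwa [dQ_cast] at h3
    have hgpos : 0 < gf Tg 0 y := hf.gl_pos.trans_le hf.g_ge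
    have hek : |e * kf Tk 0 y| ≤ ((x.1.gl4 : ℝ) / 10 ^ 4) / 2 := by
      rw [abs_mul, hsd]
      calc dR * |kf Tk 0 y| ≤ dR * ((x.1.kb3 : ℝ) / 1000) := by gcongr; exact hf.k_le
        _ ≤ _ := by linarith
    have hgk : ((x.1.gl4 : ℝ) / 10 ^ 4) / 2 ≤ gf Tg 0 y + e * kf Tk 0 y := by
      have := (abs_le.1 hek).1
      have := hf.g_ge
      linarith
    have hgl2 : 0 < ((x.1.gl4 : ℝ) / 10 ^ 4) / 2 := by have := hf.gl_pos; linarith
    have hgkpos : 0 < gf Tg 0 y + e * kf Tk 0 y := hgl2.trans_le hgk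
    have hal := alg_main (y := y) (ψ := psi 0 y) (ψ2 := psi 2 y) (ψ3 := psi 3 y) (g := gf Tg 0 y)
      (g1 := gf Tg 1 y) (g2 := gf Tg 2 y) (g3 := gf Tg 3 y) (k := kf Tk 0 y) (k1 := kf Tk 1 y)
      (k2 := kf Tk 2 y) (k3 := kf Tk 3 y) (c := c) (c0 := c0R) (e := e) hc (by linarith) hcpos.ne'
      hgpos.ne' hgkpos.ne'
    have hEq : (-PF Tg Tk c y) - Φ y = -(psi 0 y * (y ^ 8 * resid c0R y (gf Tg 0 y) (gf Tg 1 y)
        (gf Tg 2 y) (gf Tg 3 y))) + e * ((y * psi 3 y + 12 * psi 2 y - psi 0 y /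
        (2 * gf Tg 0 y ^ 2)) * (y ^ 10 * kf Tk 0 y))
        + e ^ 2 * (psi 0 y * y ^ 10 * kf Tk 0 y ^ 2 / (2 * gf Tg 0 y ^ 2 *
          (gf Tg 0 y + e * kf Tk 0 y))) := by
      rw [← hal]
      simp only [PF, hΦ, hWx, Wd, hcc]
    rw [hEq]
    have b1 : |psi 0 y * (y ^ 8 * resid c0R y (gf Tg 0 y) (gf Tg 1 y) (gf Tg 2 y) (gf Tg 3 y))| ≤
        ((x.2.sp : ℝ) / 10 ^ 9) * (bQ x.1 : ℚ) ^ 8 * ((x.2.rb : ℝ) / 10 ^ 18) := by
      rw [abs_mul, abs_mul, abs_of_nonneg (by positivity : (0 : ℝ) ≤ y ^ 8), ← mul_assoc]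
      have := hf.psi_le
      have := hf.r_le
      gcongr
    have b2 : |e * ((y * psi 3 y + 12 * psi 2 y - psi 0 y / (2 * gf Tg 0 y ^ 2)) *
        (y ^ 10 * kf Tk 0 y))| ≤ dR * (((x.2.eb : ℝ) / 10 ^ 12) * (bQ x.1 : ℚ) ^ 10 *
          ((x.1.kb3 : ℝ) / 1000)) := by
      rw [abs_mul, hsd, abs_mul, abs_mul, abs_of_nonneg (by positivity : (0 : ℝ) ≤ y ^ 10),
        ← mul_assoc |y * psi 3 y + 12 * psi 2 y - psi 0 y / (2 * gf Tg 0 y ^ 2)|]
      have := hf.e_le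
      have := hf.k_le
      gcongr
    have b3 : |e ^ 2 * (psi 0 y * y ^ 10 * kf Tk 0 y ^ 2 / (2 * gf Tg 0 y ^ 2 *
        (gf Tg 0 y + e * kf Tk 0 y)))| ≤ dR ^ 2 * (((x.2.sp : ℝ) / 10 ^ 9) * (bQ x.1 : ℚ) ^ 10 *
          ((x.1.kb3 : ℝ) / 1000) ^ 2 / (2 * ((x.1.gl4 : ℝ) / 10 ^ 4) ^ 2 *
            (((x.1.gl4 : ℝ) / 10 ^ 4) / 2))) := by
      rw [abs_mul, abs_div, abs_mul, abs_mul, abs_pow e, hsd,
        abs_of_nonneg (by positivity : (0 : ℝ) ≤ y ^ 10), abs_pow (kf Tk 0 y),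
        abs_of_pos (by positivity : (0 : ℝ) < 2 * gf Tg 0 y ^ 2 * (gf Tg 0 y + e * kf Tk 0 y))]
      have := hf.psi_le
      have := hf.k_le
      have := hf.g_ge
      have := hf.gl_pos
      gcongr
    have hcast : ((e1Q x : ℚ) : ℝ) = ((x.2.sp : ℝ) / 10 ^ 9) * (bQ x.1 : ℚ) ^ 8 *
        ((x.2.rb : ℝ) / 10 ^ 18) + dR * (((x.2.eb : ℝ) / 10 ^ 12) * (bQ x.1 : ℚ) ^ 10 *
          ((x.1.kb3 : ℝ) / 1000)) + dR ^ 2 * (((x.2.sp : ℝ) / 10 ^ 9) * (bQ x.1 : ℚ) ^ 10 *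
          ((x.1.kb3 : ℝ) / 1000) ^ 2 / (2 * ((x.1.gl4 : ℝ) / 10 ^ 4) ^ 2 *
            (((x.1.gl4 : ℝ) / 10 ^ 4) / 2))) := by
      rw [← dQ_cast]; simp only [e1Q]; push_cast; ring
    rw [hcast]
    refine (abs_add_le _ _).trans (add_le_add ((abs_add_le _ _).trans (add_le_add ?_ b2)) b3)
    rw [abs_neg]; exact b1
  have hI1 := int_chain psiP _ (hmeas.neg.sub hΦc.measurable) pz1 0 adj_pz1 hb1
  rw [lend_pz1] at hI1
  -- cells in [8,16]
  have hb2 : ∀ x ∈ pz2, ∀ y, (psiP x).a KE < y → y ≤ (psiP x).b KE →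
      |PF Tg Tk c y| ≤ ((e2Q x : ℚ) : ℝ) := by
    intro x hx y h1 h2
    have hx' := pz2_sub hx
    have hmem := mem_cells_of_mem_pz hx'
    have hf := cell_facts Tg Tk hx' h1 h2
    have hy : 0 < y := y_nonneg_of_cell (pos_of_mem_pz hx') hmem h1
    have hyb : y ≤ (bQ x.1 : ℚ) := by rw [bQ_cast]; exact h2
    have hy8 : 8 < y := by
      have h : pz2.all (fun x => decide (64 ≤ x.1.H * x.1.M - x.1.H) && decide (x.1.H ≤ x.1.H * x.1.M)) =
        true := by decide +kernel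
      have h3 := List.all_eq_true.1 h x hx
      simp only [Bool.and_eq_true, decide_eq_true_eq] at h3
      have h5 : 64 + x.1.H ≤ x.1.H * x.1.M := by omega
      have h4 : (64 : ℝ) + x.1.H ≤ (x.1.H : ℝ) * x.1.M := by exact_mod_cast h5
      have h6 : (psiP x).a KE = ((x.1.H : ℝ) * x.1.M - x.1.H) / 8 := by
        simp only [Pc.a, Pc.h, psiP, KE]; ring
      rw [h6] at h1
      linarith
    have hr := hres x.1 hmem y h1 h2 hy8
    unfold PF
    rw [abs_mul, abs_mul, abs_of_nonneg (by positivity : (0 : ℝ) ≤ y ^ 8), ← mul_assoc]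
    have := hf.psi_le
    simp only [e2Q]
    push_cast
    gcongr
  have hI2 := int_chain psiP _ hmeas pz2 8 adj_pz2 hb2
  rw [lend_pz2] at hI2
  -- sums
  have s1 : |∫ y in (0 : ℝ)..8, ((-PF Tg Tk c y) - Φ y)| ≤ 1 / 10 ^ 4 := by
    refine hI1.2.trans ?_
    have := sum_le_of_rat (l := pz1) (B := fun x => ((e1Q x : ℚ) : ℝ) * (2 * (psiP x).h KE))
      (q := fun x => e1Q x * (x.1.H / 4)) (R := 1 / 10 ^ 4) (fun x _ => ?_) sum_e1
    · refine this.trans (by norm_num)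
    · have : (psiP x).h KE = (x.1.H : ℝ) / 8 := h_cast x.1
      rw [this]
      push_cast
      apply le_of_eq
      ring
  have s2 : |∫ y in (8 : ℝ)..16, PF Tg Tk c y| ≤ 1 / 10 ^ 3 := by
    refine hI2.2.trans ?_
    have := sum_le_of_rat (l := pz2) (B := fun x => ((e2Q x : ℚ) : ℝ) * (2 * (psiP x).h KE))
      (q := fun x => e2Q x * (x.1.H / 4)) (R := 1 / 10 ^ 3) (fun x _ => ?_) sum_e2
    · refine this.trans (by norm_num)
    · have : (psiP x).h KE = (x.1.H : ℝ) / 8 := h_cast x.1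
      rw [this]
      push_cast
      apply le_of_eq
      ring
  -- assemble
  have hPhiI : IntervalIntegrable Φ volume 0 8 := hΦc.intervalIntegrable _ _
  have hPI : IntervalIntegrable (PF Tg Tk c) volume 0 8 := by
    have h1 := (hI1.1.add hPhiI).neg
    refine h1.congr (fun y _ => ?_)
    simp only [Pi.neg_apply, Pi.sub_apply]
    ring
  have split : ∫ y in (0 : ℝ)..16, PF Tg Tk c y =
      (∫ y in (0 : ℝ)..8, PF Tg Tk c y) + ∫ y in (8 : ℝ)..16, PF Tg Tk c y :=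
    (intervalIntegral.integral_add_adjacent_intervals hPI hI2.1).symm
  have d1 : ∫ y in (0 : ℝ)..8, ((-PF Tg Tk c y) - Φ y) =
      -(∫ y in (0 : ℝ)..8, PF Tg Tk c y) - ∫ y in (0 : ℝ)..8, Φ y := by
    have hneg : IntervalIntegrable (fun y => -PF Tg Tk c y) volume 0 8 := hPI.neg
    rw [intervalIntegral.integral_sub hneg hPhiI, intervalIntegral.integral_neg]
  have d2 : ∫ y in (0 : ℝ)..8, Φ y = e * ((∫ y in (0 : ℝ)..8, psi 0 y * y ^ 10) / (2 * c * c0R) -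
      Wf (psi 0) (psi 1) (psi 2) (kf Tk 0) (kf Tk 1) (kf Tk 2) 8) := by
    have hA : IntervalIntegrable (fun y => psi 0 y * y ^ 10 / (2 * c * c0R)) volume 0 8 :=
      ((cψ0.mul (continuous_pow 10)).div_const _).intervalIntegrable _ _
    rw [hΦ, intervalIntegral.integral_const_mul, intervalIntegral.integral_sub hA
      (hWc.intervalIntegrable _ _), hWint, intervalIntegral.integral_div]
  have hI10 := I10_ge
  have hW8 := W8_le Tk
  set I10 := ∫ y in (0 : ℝ)..8, psi 0 y * y ^ 10 with hI10d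
  set W8 := Wf (psi 0) (psi 1) (psi 2) (kf Tk 0) (kf Tk 1) (kf Tk 2) 8 with hW8d
  have hX : 51000000 ≤ I10 / (2 * c * c0R) - W8 := by
    have h1 : 2 * c * c0R ≤ 1.03824 := by nlinarith
    have h2 : (10990000 : ℝ) ≤ I10 / (2 * c * c0R) := by
      rw [le_div_iff₀ (by positivity)]; nlinarith
    linarith
  have hfin : s * -(∫ y in (0 : ℝ)..16, PF Tg Tk c y) =
      dR * (I10 / (2 * c * c0R) - W8) + s * (∫ y in (0 : ℝ)..8, ((-PF Tg Tk c y) - Φ y))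
        - s * ∫ y in (8 : ℝ)..16, PF Tg Tk c y := by
    rw [split, d1, d2, he]
    have : s * (s * dR * (I10 / (2 * c * c0R) - W8)) = dR * (I10 / (2 * c * c0R) - W8) := by
      rw [← mul_assoc, ← mul_assoc, hss, one_mul]
    linear_combination this
  rw [hfin]
  have t1 : |s * ∫ y in (0 : ℝ)..8, ((-PF Tg Tk c y) - Φ y)| ≤ 1 / 10 ^ 4 := by
    rw [abs_mul, hs1, one_mul]; exact s1
  have t2 : |s * ∫ y in (8 : ℝ)..16, PF Tg Tk c y| ≤ 1 / 10 ^ 3 := by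
    rw [abs_mul, hs1, one_mul]; exact s2
  have t3 : dR * 51000000 ≤ dR * (I10 / (2 * c * c0R) - W8) := by gcongr
  have t4 : (0.7599 : ℝ) ≤ dR * 51000000 := by unfold dR; norm_num
  have := (abs_le.1 t1).1
  have := (abs_le.1 t2).2
  linarith

end Crest.Agent.R213.E.C.Ps
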