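import Crest.Agent.R213.E.SignCore
import Crest.Agent.R213.E.EDefs

/-!
# Row 213, part E: `sign_of_cert` from `NLData` (helper310)
-/

set_option autoImplicit false

open Set MeasureTheory Filter Topology

noncomputable section

namespace Crest.Agent.R213.E

theorem Sg.NN_zero {g0 : ℝ → ℝ} {m : ℝ} (hm : 0 ≤ m) (G G1 G2 G3 : ℝ → ℝ → ℝ) {c y : ℝ} (hy : 0 < y) :
    NN g0 m G G1 G2 G3 c y 0 = -(y ^ 8 * resid c y (G c y) (G1 c y) (G2 c y) (G3 c y)) := by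
  have h1 : clamp m (0 / y ^ 10) = 0 := by
    unfold clamp
    rw [zero_div, min_eq_right hm, max_eq_right (by linarith)]
  unfold NN
  rw [if_pos hy, h1]
  ring

/-- `sign_of_cert` with `nlData_of_cert` as a hypothesis. -/
theorem sign_of_cert_of {k : Cst} {p R : ℝ → ℝ} {G G1 G2 G3 : ℝ → ℝ → ℝ} {ψ ψ1 ψ2 ψ3 : ℝ → ℝ}
    (hC : Cert k p R G G1 G2 G3 ψ ψ1 ψ2 ψ3)
    (hN : NLData k.b p (k.c0 - k.δ) (k.c0 + k.δ) k.η k.M (NN (G k.c0) k.m G G1 G2 G3)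
      (fun y => y ^ 8 * R y))
    {c κ : ℝ} (hc : c ∈ Icc (k.c0 - k.δ) (k.c0 + k.δ))
    {D D1 : ℝ → ℝ}
    (hR : Rep κ (fun t => NN (G k.c0) k.m G G1 G2 G3 c t (D t) - nn (G k.c0) t * D t) D D1)
    (hDi : IntegrableOn (fun y => (p y * D y) ^ 2) (Ioi 0))
    (hDM : ∫ y in Ioi (0 : ℝ), (p y * D y) ^ 2 ≤ (k.M / (1 - k.η)) ^ 2) :
    |10 * ψ 0 * κ + ∫ y in (0 : ℝ)..k.Y, ψ y * (y ^ 8 * resid c y (G c y) (G1 c y) (G2 c y) (G3 c y))|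
      ≤ (k.η * k.K1 + k.K2) * (k.M / (1 - k.η)) := by
  have hB : 0 ≤ k.M / (1 - k.η) := div_nonneg hC.M_nonneg (by linarith [hC.η_lt])
  have h := sign_core hC.wdata hN hc hC.Y_pos hR hDi hB hDM hC.ψ_d hC.ψ1_d hC.ψ2_d hC.ψ3_c
    hC.ψ_Y hC.ψ1_Y hC.ψ2_Y hC.K1_nonneg hC.K2_nonneg hC.K1_int hC.K1_le hC.K2_int hC.K2_le
  have e : ∫ y in (0 : ℝ)..k.Y, ψ y * NN (G k.c0) k.m G G1 G2 G3 c y 0 =
      -∫ y in (0 : ℝ)..k.Y, ψ y * (y ^ 8 * resid c y (G c y) (G1 c y) (G2 c y) (G3 c y)) := by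
    rw [← intervalIntegral.integral_neg]
    apply intervalIntegral.integral_congr_ae
    refine Eventually.of_forall fun y hy => ?_
    rw [uIoc_of_le hC.Y_pos.le] at hy
    rw [Sg.NN_zero hC.m_pos.le G G1 G2 G3 hy.1]
    ring
  rw [e, sub_neg_eq_add] at h
  exact h

end Crest.Agent.R213.E
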