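import Crest.Agent.R213.E.Pairing

/-!
# Row 213, part E: sign of `κ` (helper310)

`10 ψ(0) κ - ∫ ψ N(c,y,0) = ∫ ψ (N(c,y,D) - N(c,y,0)) + ∫ (yψ''' + 12ψ'' - nψ) D`, Cauchy–Schwarz.
-/

set_option autoImplicit false

open Set MeasureTheory Filter Topology

noncomputable section

namespace Crest.Agent.R213.E

namespace Sg

/-- Cauchy–Schwarz, squared-norm form. -/
theorem cs {μ : Measure ℝ} {f w : ℝ → ℝ} (hf : MemLp f 2 μ) (hw : MemLp w 2 μ) {A B : ℝ}
    (hA : 0 ≤ A) (hB : 0 ≤ B) (h1 : ∫ y, f y ^ 2 ∂μ ≤ A ^ 2) (h2 : ∫ y, w y ^ 2 ∂μ ≤ B ^ 2) :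
    ∫ y, |f y| * |w y| ∂μ ≤ A * B := by
  have h := integral_mul_norm_le_Lp_mul_Lq (μ := μ) (f := f) (g := w) (p := 2) (q := 2)
    Real.HolderConjugate.two_two (by simpa using hf) (by simpa using hw)
  have e1 : (fun y => ‖f y‖ ^ (2:ℝ)) = fun y => f y ^ 2 := by
    funext y
    rw [Real.norm_eq_abs, Real.rpow_two, sq_abs]
  have e2 : (fun y => ‖w y‖ ^ (2:ℝ)) = fun y => w y ^ 2 := by
    funext y
    rw [Real.norm_eq_abs, Real.rpow_two, sq_abs]
  rw [e1, e2] at h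
  have k1 : (∫ y, f y ^ 2 ∂μ) ^ ((1:ℝ) / 2) ≤ A := by
    rw [← Real.sqrt_eq_rpow]
    exact Real.sqrt_le_iff.2 ⟨hA, h1⟩
  have k2 : (∫ y, w y ^ 2 ∂μ) ^ ((1:ℝ) / 2) ≤ B := by
    rw [← Real.sqrt_eq_rpow]
    exact Real.sqrt_le_iff.2 ⟨hB, h2⟩
  refine le_trans h (mul_le_mul k1 k2 (Real.rpow_nonneg (integral_nonneg fun y => sq_nonneg _) _) hA)

theorem z_meas {κ : ℝ} {z D D1 : ℝ → ℝ} (hR : Rep κ z D D1) :
    AEStronglyMeasurable z (volume.restrict (Ioi 0)) := by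
  have hU : Ioi (0:ℝ) = ⋃ n : ℕ, Ioi (1 / ((n:ℝ) + 1)) := by
    ext x
    simp only [mem_Ioi, mem_iUnion]
    constructor
    · intro hx
      exact exists_nat_one_div_lt hx
    · rintro ⟨n, hn⟩
      exact lt_trans Nat.one_div_pos_of_nat hn
  rw [hU, aestronglyMeasurable_iUnion_iff]
  intro n
  have hp : (0:ℝ) < 1 / ((n:ℝ) + 1) := Nat.one_div_pos_of_nat
  have h1 := (hR.int _ hp).aestronglyMeasurable
  have h2 : AEStronglyMeasurable (fun t : ℝ => t ^ 10 * ((t ^ 10)⁻¹ * z t))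
      (volume.restrict (Ioi (1 / ((n:ℝ) + 1)))) :=
    (by fun_prop : AEStronglyMeasurable (fun t : ℝ => t ^ 10) _).mul h1
  refine h2.congr ?_
  filter_upwards [ae_restrict_mem measurableSet_Ioi] with t ht
  have ht0 : (0:ℝ) < t := lt_trans hp ht
  field_simp

theorem uu_pos {b : ℝ} (y : ℝ) : 0 < uu b y := by
  unfold uu
  positivity

theorem chi_pos {b : ℝ} (y : ℝ) : 0 < chi b y := pow_pos (uu_pos y) 3

theorem chi_meas (b : ℝ) : Measurable (chi b) := by
  unfold chi uu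
  fun_prop

theorem inv_chi (b y : ℝ) : (chi b y)⁻¹ = (1 + y ^ 2 / b ^ 2) ^ 3 := by
  unfold chi uu
  rw [← inv_pow, inv_inv]

end Sg

open Sg

theorem sign_core_gen {b n1 cq Cq : ℝ} {n p : ℝ → ℝ} (hW : WData b n1 cq Cq n p)
    {c1 c2 η M : ℝ} {N : ℝ → ℝ → ℝ → ℝ} {F : ℝ → ℝ} (hN : NLData b p c1 c2 η M N F)
    {c κ Y : ℝ} (hc : c ∈ Icc c1 c2) (hY : 0 < Y) {D D1 : ℝ → ℝ}
    (hR : Rep κ (fun t => N c t (D t) - n t * D t) D D1)
    (hDi : IntegrableOn (fun y => (p y * D y) ^ 2) (Ioi 0))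
    {B : ℝ} (hB : 0 ≤ B) (hDM : ∫ y in Ioi (0 : ℝ), (p y * D y) ^ 2 ≤ B ^ 2)
    {ψ ψ1 ψ2 ψ3 : ℝ → ℝ}
    (hψ : ∀ y ∈ Icc 0 Y, HasDerivWithinAt ψ (ψ1 y) (Icc 0 Y) y)
    (hψ1 : ∀ y ∈ Icc 0 Y, HasDerivWithinAt ψ1 (ψ2 y) (Icc 0 Y) y)
    (hψ2c : ContinuousOn ψ2 (Icc 0 Y)) {s : Set ℝ} (hs : s.Countable)
    (hψ2 : ∀ y ∈ Ioo 0 Y \ s, HasDerivAt ψ2 (ψ3 y) y)
    (hψ3 : IntervalIntegrable ψ3 volume 0 Y)
    (h0 : ψ Y = 0) (h1 : ψ1 Y = 0) (h2 : ψ2 Y = 0)
    {K1 K2 : ℝ} (hK1 : 0 ≤ K1) (hK2 : 0 ≤ K2)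
    (K1_int : IntervalIntegrable (fun y => (ψ y * p y / chi b y) ^ 2) volume 0 Y)
    (K1_le : ∫ y in (0 : ℝ)..Y, (ψ y * p y / chi b y) ^ 2 ≤ K1 ^ 2)
    (K2_int : IntervalIntegrable
      (fun y => ((y * ψ3 y + 12 * ψ2 y - n y * ψ y) / p y) ^ 2) volume 0 Y)
    (K2_le : ∫ y in (0 : ℝ)..Y, ((y * ψ3 y + 12 * ψ2 y - n y * ψ y) / p y) ^ 2 ≤ K2 ^ 2) :
    |10 * ψ 0 * κ - ∫ y in (0 : ℝ)..Y, ψ y * N c y 0| ≤ (η * K1 + K2) * B := by
  set z : ℝ → ℝ := fun t => N c t (D t) - n t * D t with hz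
  set μ : Measure ℝ := volume.restrict (Ioc 0 Y) with hμ
  have hmono : μ ≤ volume.restrict (Ioi 0) :=
    Measure.restrict_mono Ioc_subset_Ioi_self le_rfl
  have hmem : ∀ᵐ y ∂μ, y ∈ Ioc 0 Y := ae_restrict_mem measurableSet_Ioc
  -- measurability
  have hzm : AEStronglyMeasurable z μ := (z_meas hR).mono_measure hmono
  have hDc : ContinuousOn D (Ioi 0) := fun y hy => (hR.hD y hy).continuousAt.continuousWithinAt
  have hDm : AEStronglyMeasurable D μ :=
    (hDc.aestronglyMeasurable measurableSet_Ioi).mono_measure hmono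
  have hpm : AEStronglyMeasurable p μ := hW.p_meas.aestronglyMeasurable
  have hnm : AEStronglyMeasurable n μ := hW.n_meas.aestronglyMeasurable
  have hχm : AEStronglyMeasurable (chi b) μ := (chi_meas b).aestronglyMeasurable
  have hN0m : AEStronglyMeasurable (fun y => N c y 0) μ := (hN.meas c hc 0).aestronglyMeasurable
  set w : ℝ → ℝ := fun y => p y * D y with hw
  have hwm : AEStronglyMeasurable w μ := hpm.mul hDm
  have hcont : ∀ {f f1 : ℝ → ℝ}, (∀ y ∈ Icc 0 Y, HasDerivWithinAt f (f1 y) (Icc 0 Y) y) →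
      ContinuousOn f (Icc 0 Y) := fun h y hy => (h y hy).continuousWithinAt
  have hψc := hcont hψ
  have hψ1c := hcont hψ1
  have hcm : ∀ {f : ℝ → ℝ}, ContinuousOn f (Icc 0 Y) → AEStronglyMeasurable f μ := fun h =>
    (h.mono Ioc_subset_Icc_self).aestronglyMeasurable measurableSet_Ioc
  have hψm := hcm hψc
  have hψ2m := hcm hψ2c
  have hψ3m : AEStronglyMeasurable ψ3 μ :=
    ((intervalIntegrable_iff_integrableOn_Ioc_of_le hY.le).1 hψ3).aestronglyMeasurable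
  have hidm : AEStronglyMeasurable (fun y : ℝ => y) μ := measurable_id.aestronglyMeasurable
  have hgm : AEStronglyMeasurable (fun y => y * ψ3 y + 12 * ψ2 y - n y * ψ y) μ :=
    ((hidm.mul hψ3m).add (hψ2m.const_mul 12)).sub (hnm.mul hψm)
  -- L² facts
  have hwL : MemLp w 2 μ := by
    rw [memLp_two_iff_integrable_sq hwm]
    exact Integrable.mono_measure hDi hmono
  set f1 : ℝ → ℝ := fun y => ψ y * p y / chi b y with hf1
  set f2 : ℝ → ℝ := fun y => (y * ψ3 y + 12 * ψ2 y - n y * ψ y) / p y with hf2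
  have hf1m : AEStronglyMeasurable f1 μ := by
    have := (hψm.mul hpm).mul ((chi_meas b).inv.aestronglyMeasurable (μ := μ))
    exact this
  have hf2m : AEStronglyMeasurable f2 μ := by
    have := hgm.mul (hW.p_meas.inv.aestronglyMeasurable (μ := μ))
    exact this
  have hf1L : MemLp f1 2 μ := by
    rw [memLp_two_iff_integrable_sq hf1m]
    rw [intervalIntegrable_iff_integrableOn_Ioc_of_le hY.le] at K1_int
    exact K1_int
  have hf2L : MemLp f2 2 μ := by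
    rw [memLp_two_iff_integrable_sq hf2m]
    rw [intervalIntegrable_iff_integrableOn_Ioc_of_le hY.le] at K2_int
    exact K2_int
  rw [intervalIntegral.integral_of_le hY.le] at K1_le K2_le
  have hwB : ∫ y, w y ^ 2 ∂μ ≤ B ^ 2 := by
    refine le_trans ?_ hDM
    exact setIntegral_mono_set hDi (ae_of_all _ fun y => sq_nonneg _)
      (Ioc_subset_Ioi_self : Ioc 0 Y ⊆ Ioi 0).eventuallyLE
  -- integrability
  have hwI : Integrable w μ := hwL.integrable (by norm_num)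
  set CC : ℝ := (1 + Y) ^ 3 / cq with hCC
  have hCC0 : 0 ≤ CC := by have := hW.cq_pos; positivity
  have hpχ : ∀ y ∈ Ioc 0 Y, p y / chi b y ≤ CC := by
    intro y hy
    have h3 := hW.q_low y hy.1
    have hp := hW.p_pos y hy.1
    have hχ := chi_pos (b := b) y
    have hcq := hW.cq_pos
    rw [hCC, div_le_div_iff₀ hχ hcq]
    have h4 : cq * p y ≤ chi b y * (1 + y) ^ 3 := by
      have : chi b y / p y * (1 + y) ^ 3 * p y = chi b y * (1 + y) ^ 3 := by field_simp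
      rw [← this]
      exact mul_le_mul_of_nonneg_right h3 hp.le
    have h5 : (1 + y) ^ 3 ≤ (1 + Y) ^ 3 :=
      pow_le_pow_left₀ (by linarith [hy.1]) (by linarith [hy.2]) 3
    nlinarith [mul_le_mul_of_nonneg_left h5 hχ.le]
  set CD : ℝ := Cq * (1 + Y ^ 2 / b ^ 2) ^ 3 with hCD
  have hCq0 : 0 ≤ Cq := by
    have h3 := hW.q_up Y hY
    have : 0 < chi b Y / p Y := div_pos (chi_pos Y) (hW.p_pos Y hY)
    linarith
  have hCD0 : 0 ≤ CD := by positivity
  have hDw : ∀ y ∈ Ioc 0 Y, |D y| ≤ CD * |w y| := by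
    intro y hy
    have h3 := hW.q_up y hy.1
    have hp := hW.p_pos y hy.1
    have hχ := chi_pos (b := b) y
    have h4 : 1 ≤ CD * p y := by
      have h5 : chi b y ≤ Cq * p y := by rwa [div_le_iff₀ hp] at h3
      have h6 : chi b y * (1 + y ^ 2 / b ^ 2) ^ 3 = 1 := by
        rw [← inv_chi]; exact mul_inv_cancel₀ hχ.ne'
      have h7 : (1 + y ^ 2 / b ^ 2) ^ 3 ≤ (1 + Y ^ 2 / b ^ 2) ^ 3 := by
        apply pow_le_pow_left₀ (by positivity)
        have h8 : y ^ 2 ≤ Y ^ 2 := pow_le_pow_left₀ hy.1.le hy.2 2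
        have h9 : y ^ 2 / b ^ 2 ≤ Y ^ 2 / b ^ 2 := by gcongr
        linarith
      calc (1:ℝ) = chi b y * (1 + y ^ 2 / b ^ 2) ^ 3 := h6.symm
        _ ≤ (Cq * p y) * (1 + Y ^ 2 / b ^ 2) ^ 3 := by
            apply mul_le_mul h5 h7 (by positivity) (by positivity)
        _ = CD * p y := by rw [hCD]; ring
    rw [hw]
    simp only
    rw [abs_mul, abs_of_pos hp]
    calc |D y| = 1 * |D y| := (one_mul _).symm
      _ ≤ (CD * p y) * |D y| := mul_le_mul_of_nonneg_right h4 (abs_nonneg _)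
      _ = CD * (p y * |D y|) := by ring
  set E : ℝ → ℝ := fun y => N c y (D y) - N c y 0 with hE
  have hEb : ∀ y ∈ Ioc 0 Y, |E y| ≤ η * (p y / chi b y) * |w y| := by
    intro y hy
    have h3 := hN.lip c hc y hy.1 (D y) 0
    rw [sub_zero] at h3
    have hp := hW.p_pos y hy.1
    refine le_trans h3 (le_of_eq ?_)
    rw [hw]
    simp only
    rw [abs_mul, abs_of_pos hp]
    ring
  have hEm : AEStronglyMeasurable E μ := by
    have h3 := (hzm.add (hnm.mul hDm)).sub hN0m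
    refine h3.congr (Eventually.of_forall fun y => ?_)
    simp only [hz, hE, Pi.add_apply, Pi.sub_apply, Pi.mul_apply]
    ring
  have hEI : Integrable E μ := by
    refine Integrable.mono' (hwI.abs.const_mul (η * CC)) hEm ?_
    filter_upwards [hmem] with y hy
    rw [Real.norm_eq_abs]
    refine le_trans (hEb y hy) ?_
    apply mul_le_mul_of_nonneg_right _ (abs_nonneg _)
    exact mul_le_mul_of_nonneg_left (hpχ y hy) hN.η_nonneg
  have hDI : Integrable D μ := by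
    refine Integrable.mono' (hwI.abs.const_mul CD) hDm ?_
    filter_upwards [hmem] with y hy
    rw [Real.norm_eq_abs]
    exact hDw y hy
  have hnDI : Integrable (fun y => n y * D y) μ := by
    refine Integrable.mono' (hDI.abs.const_mul n1) (hnm.mul hDm) ?_
    filter_upwards [hmem] with y hy
    rw [Real.norm_eq_abs, abs_mul, abs_of_nonneg (hW.n_nonneg y hy.1)]
    exact mul_le_mul_of_nonneg_right (hW.n_le y hy.1) (abs_nonneg _)
  have hFI : Integrable F μ := by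
    set g : ℝ → ℝ := fun y => chi b y / p y * F y with hg
    have hgm : Measurable g := ((chi_meas b).div hW.p_meas).mul hN.F_meas
    have hgL : MemLp g 2 μ := by
      rw [memLp_two_iff_integrable_sq hgm.aestronglyMeasurable]
      exact Integrable.mono_measure hN.F_int hmono
    have hgI : Integrable g μ := hgL.integrable (by norm_num)
    refine Integrable.mono' (hgI.abs.const_mul CC) hN.F_meas.aestronglyMeasurable ?_
    filter_upwards [hmem] with y hy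
    have hp := hW.p_pos y hy.1
    have hχ := chi_pos (b := b) y
    have h3 : F y = p y / chi b y * g y := by
      rw [hg]; simp only; field_simp
    rw [Real.norm_eq_abs]
    calc |F y| = p y / chi b y * |g y| := by
          rw [h3, abs_mul, abs_of_pos (div_pos hp hχ)]
      _ ≤ CC * |g y| := mul_le_mul_of_nonneg_right (hpχ y hy) (abs_nonneg _)
  have hN0I : Integrable (fun y => N c y 0) μ := by
    refine Integrable.mono' hFI.abs hN0m ?_
    filter_upwards [hmem] with y hy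
    rw [Real.norm_eq_abs]
    exact le_trans (hN.F_bd c hc y hy.1) (le_abs_self _)
  have hzI : Integrable z μ := by
    have h3 := (hN0I.add hEI).sub hnDI
    refine h3.congr (Eventually.of_forall fun y => ?_)
    simp only [hz, hE, Pi.add_apply, Pi.sub_apply]
    ring
  -- multiply by functions continuous on `[0,Y]`
  have hcmul : ∀ {f g : ℝ → ℝ}, ContinuousOn f (Icc 0 Y) → Integrable g μ →
      Integrable (fun y => f y * g y) μ := by
    intro f g hf hg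
    obtain ⟨C, hC⟩ := isCompact_Icc.exists_bound_of_continuousOn hf
    refine Integrable.mono' (hg.abs.const_mul C) ((hcm hf).mul hg.aestronglyMeasurable) ?_
    filter_upwards [hmem] with y hy
    rw [norm_mul, Real.norm_eq_abs (g y)]
    exact mul_le_mul_of_nonneg_right (hC y (Ioc_subset_Icc_self hy)) (abs_nonneg _)
  have hpair := pairing hR hY hψ hψ1 hψ2c hs hψ2 hψ3 h0 h1 h2
    ((intervalIntegrable_iff_integrableOn_Ioc_of_le hY.le).2 hzI)
  rw [intervalIntegral.integral_of_le hY.le] at hpair ⊢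
  have hI1 : Integrable (fun y => ψ y * z y + (y * ψ3 y + 12 * ψ2 y) * D y) μ := by
    have hf2w : Integrable (fun y => f2 y * w y) μ := hf2L.integrable_mul hwL
    have h3 := ((hcmul hψc hzI).add hf2w).add (hcmul hψc hnDI)
    refine h3.congr ?_
    filter_upwards [hmem] with y hy
    have hp := hW.p_pos y hy.1
    simp only [hf2, hw, Pi.add_apply]
    field_simp
    ring
  have hI2 : Integrable (fun y => ψ y * N c y 0) μ := hcmul hψc hN0I
  have hdiff : 10 * ψ 0 * κ - ∫ y in Ioc 0 Y, ψ y * N c y 0 =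
      ∫ y, (ψ y * z y + (y * ψ3 y + 12 * ψ2 y) * D y) - ψ y * N c y 0 ∂μ := by
    rw [integral_sub hI1 hI2, hpair]
  rw [hdiff]
  have hbd : ∀ᵐ y ∂μ, ‖(ψ y * z y + (y * ψ3 y + 12 * ψ2 y) * D y) - ψ y * N c y 0‖ ≤
      η * (|f1 y| * |w y|) + |f2 y| * |w y| := by
    filter_upwards [hmem] with y hy
    have hp := hW.p_pos y hy.1
    have hχ := chi_pos (b := b) y
    have e1 : (ψ y * z y + (y * ψ3 y + 12 * ψ2 y) * D y) - ψ y * N c y 0 =
        ψ y * E y + f2 y * w y := by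
      simp only [hz, hE, hf2, hw]
      field_simp
      ring
    rw [e1, Real.norm_eq_abs]
    refine le_trans (abs_add_le _ _) ?_
    rw [abs_mul, abs_mul]
    have e2 : |ψ y| * |E y| ≤ η * (|f1 y| * |w y|) := by
      calc |ψ y| * |E y| ≤ |ψ y| * (η * (p y / chi b y) * |w y|) :=
            mul_le_mul_of_nonneg_left (hEb y hy) (abs_nonneg _)
        _ = η * (|f1 y| * |w y|) := by
            have e9 : |f1 y| = |ψ y| * p y / chi b y := by
              rw [hf1]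
              simp only
              rw [abs_div, abs_mul, abs_of_pos hp, abs_of_pos hχ]
            rw [e9]
            ring
    linarith
  have hIa : Integrable (fun y => |f1 y| * |w y|) μ := by
    have := hf1L.abs.integrable_mul hwL.abs
    exact this
  have hIb : Integrable (fun y => |f2 y| * |w y|) μ := by
    have := hf2L.abs.integrable_mul hwL.abs
    exact this
  have h3 := norm_integral_le_of_norm_le ((hIa.const_mul η).add hIb) hbd
  rw [Real.norm_eq_abs] at h3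
  refine le_trans h3 ?_
  have e3 : ∫ y, ((fun y => η * (|f1 y| * |w y|)) + fun y => |f2 y| * |w y|) y ∂μ =
      η * ∫ y, |f1 y| * |w y| ∂μ + ∫ y, |f2 y| * |w y| ∂μ := by
    rw [← integral_const_mul, ← integral_add (hIa.const_mul η) hIb]
    rfl
  have e4 := cs hf1L hwL hK1 hB K1_le hwB
  have e5 := cs hf2L hwL hK2 hB K2_le hwB
  calc _ = η * ∫ y, |f1 y| * |w y| ∂μ + ∫ y, |f2 y| * |w y| ∂μ := e3
    _ ≤ η * (K1 * B) + K2 * B := add_le_add (mul_le_mul_of_nonneg_left e4 hN.η_nonneg) e5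
    _ = (η * K1 + K2) * B := by ring

theorem sign_core {b n1 cq Cq : ℝ} {n p : ℝ → ℝ} (hW : WData b n1 cq Cq n p)
    {c1 c2 η M : ℝ} {N : ℝ → ℝ → ℝ → ℝ} {F : ℝ → ℝ} (hN : NLData b p c1 c2 η M N F)
    {c κ Y : ℝ} (hc : c ∈ Icc c1 c2) (hY : 0 < Y) {D D1 : ℝ → ℝ}
    (hR : Rep κ (fun t => N c t (D t) - n t * D t) D D1)
    (hDi : IntegrableOn (fun y => (p y * D y) ^ 2) (Ioi 0))
    {B : ℝ} (hB : 0 ≤ B) (hDM : ∫ y in Ioi (0 : ℝ), (p y * D y) ^ 2 ≤ B ^ 2)
    {ψ ψ1 ψ2 ψ3 : ℝ → ℝ}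
    (hψ : ∀ y ∈ Icc 0 Y, HasDerivWithinAt ψ (ψ1 y) (Icc 0 Y) y)
    (hψ1 : ∀ y ∈ Icc 0 Y, HasDerivWithinAt ψ1 (ψ2 y) (Icc 0 Y) y)
    (hψ2 : ∀ y ∈ Icc 0 Y, HasDerivWithinAt ψ2 (ψ3 y) (Icc 0 Y) y)
    (hψ3 : ContinuousOn ψ3 (Icc 0 Y))
    (h0 : ψ Y = 0) (h1 : ψ1 Y = 0) (h2 : ψ2 Y = 0)
    {K1 K2 : ℝ} (hK1 : 0 ≤ K1) (hK2 : 0 ≤ K2)
    (K1_int : IntervalIntegrable (fun y => (ψ y * p y / chi b y) ^ 2) volume 0 Y)
    (K1_le : ∫ y in (0 : ℝ)..Y, (ψ y * p y / chi b y) ^ 2 ≤ K1 ^ 2)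
    (K2_int : IntervalIntegrable
      (fun y => ((y * ψ3 y + 12 * ψ2 y - n y * ψ y) / p y) ^ 2) volume 0 Y)
    (K2_le : ∫ y in (0 : ℝ)..Y, ((y * ψ3 y + 12 * ψ2 y - n y * ψ y) / p y) ^ 2 ≤ K2 ^ 2) :
    |10 * ψ 0 * κ - ∫ y in (0 : ℝ)..Y, ψ y * N c y 0| ≤ (η * K1 + K2) * B :=
  sign_core_gen hW hN hc hY hR hDi hB hDM hψ hψ1
    (fun y hy => (hψ2 y hy).continuousWithinAt) (s := ∅) Set.countable_empty
    (fun y hy => by
      have hy' : y ∈ Ioo 0 Y := by simpa using hy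
      exact (hψ2 y (Ioo_subset_Icc_self hy')).hasDerivAt (Icc_mem_nhds hy'.1 hy'.2))
    ((hψ3.mono (by rw [uIcc_of_le hY.le])).intervalIntegrable) h0 h1 h2 hK1 hK2
    K1_int K1_le K2_int K2_le

end Crest.Agent.R213.E
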