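import Crest.Agent.R213.E.SolOfCert
import Crest.Agent.R213.E.CertFam
import Crest.Agent.R213.E.CTailData

/-! Row 213, PART E: cell facts → Soliton (helper9). -/

set_option autoImplicit false

noncomputable section

namespace Crest.Agent.R213.E

theorem soliton_of_cells (H : CellFacts) : ∃ (c A : ℝ) (g gh : ℝ → ℝ), Soliton c A g gh := by
  obtain ⟨k, p, R, G, G1, G2, G3, ψ, ψ1, ψ2, ψ3, hC⟩ := cert_of_cells C.tail_ok H
  exact soliton_of_cert hC

end Crest.Agent.R213.E
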