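import Crest.Agent.R213.E.SolOfMid
import Crest.Agent.R213.E.BootSm
import Crest.Agent.R213.E.Inf

/-! Row 213, PART E: `Mid` + `g → c` → `Soliton` (helper9). -/

set_option autoImplicit false

open Set MeasureTheory Filter Topology

noncomputable section

namespace Crest.Agent.R213.E

theorem soliton_of_mid_lim {c : ℝ} {g g1 g2 g3 : ℝ → ℝ} (hM : Mid c g g1 g2 g3)
    (hlim : Tendsto g atTop (𝓝 c)) : ∃ (c A : ℝ) (g gh : ℝ → ℝ), Soliton c A g gh := by
  have hc : 0 < c := by linarith [hM.c_lo]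
  have hpos : ∀ y, 0 < y → 0 < g y := fun y hy => by linarith [hM.lower y hy]
  have hs := BootSm.contDiffOn_of_ode hM.C3 hM.ode hpos
  exact soliton_of_mid hM (Inf.exists_gh (Y := 0) hc hs hM.C3.d1 hM.C3.d2 hM.C3.d3
    (fun y hy => hM.ode y hy) hlim)

end Crest.Agent.R213.E
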