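import Crest.Agent.R213.E.MidOfCert
import Crest.Agent.R213.E.SolOfMid2

/-! Row 213, PART E: `Cert → Soliton` (helper9). -/

set_option autoImplicit false

open Set MeasureTheory Filter Topology

noncomputable section

namespace Crest.Agent.R213.E

/-- the certificate implies the existence of the soliton profile -/
theorem soliton_of_cert {k : Cst} {p R : ℝ → ℝ} {G G1 G2 G3 : ℝ → ℝ → ℝ} {ψ ψ1 ψ2 ψ3 : ℝ → ℝ}
    (hC : Cert k p R G G1 G2 G3 ψ ψ1 ψ2 ψ3) :
    ∃ (c A : ℝ) (g gh : ℝ → ℝ), Soliton c A g gh := by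
  obtain ⟨c, g, g1, g2, g3, hM, hlim⟩ := mid_of_cert hC
  exact soliton_of_mid_lim hM hlim

end Crest.Agent.R213.E
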