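import Crest.Agent.R213.E.ZeroFix

/-!
# Row 213, part E: behaviour of the profile at `y = 0` (E-ZERO)

`zero_main`: a positive smooth solution of the soliton equation on `(0,∞)` which is bounded and bounded
below near `0` extends to a `C^∞` function on `ℝ`, with value `1` and derivative `α` at `0`, where
`g y = 1 + α y + VO (-(1/c - 1/g)/2) y`.
-/

set_option autoImplicit false

open Set Filter Topology MeasureTheory intervalIntegral
open scoped NNReal

noncomputable section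

namespace Crest.Agent.R213.EZ

lemma ker_nonneg {r : ℝ} (hr : r ∈ Icc (0 : ℝ) 1) : 0 ≤ ker r := by
  have h0 := hr.1
  have h1 := hr.2
  have e : ker r = (1 - r) ^ 2 * ((1 + 2 * r + 3 * r ^ 2 + 4 * r ^ 3 + 5 * r ^ 4 + 6 * r ^ 5 +
      7 * r ^ 6 + 8 * r ^ 7 + 9 * r ^ 8 + 10 * r ^ 9) / 110) := by
    unfold ker; ring
  rw [e]; positivity

lemma ker_int : ∫ r in (0 : ℝ)..1, ker r = 1 / 132 := by
  have h1 : IntervalIntegrable (fun r : ℝ => (1 : ℝ) / 110) volume 0 1 := by simp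
  have h2 : IntervalIntegrable (fun r : ℝ => r ^ 10 / 10) volume 0 1 :=
    (by fun_prop : Continuous fun r : ℝ => r ^ 10 / 10).intervalIntegrable _ _
  have h3 : IntervalIntegrable (fun r : ℝ => r ^ 11 / 11) volume 0 1 :=
    (by fun_prop : Continuous fun r : ℝ => r ^ 11 / 11).intervalIntegrable _ _
  unfold ker
  rw [intervalIntegral.integral_add (h1.sub h2) h3, intervalIntegral.integral_sub h1 h2]
  simp only [intervalIntegral.integral_div, integral_pow, intervalIntegral.integral_const]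
  norm_num

/-- bound of the average. -/
lemma avg_bdd {φ : ℝ → ℝ} {Y M : ℝ} (hb : ∀ y ∈ Ioo 0 Y, |φ y| ≤ M) {y : ℝ} (hy : y ∈ Ioo 0 Y) :
    |∫ r in (0 : ℝ)..1, ker r * φ (r * y)| ≤ M := by
  have hM : 0 ≤ M := (abs_nonneg _).trans (hb y hy)
  have := intervalIntegral.norm_integral_le_of_norm_le_const (a := 0) (b := 1) (C := M)
    (f := fun r => ker r * φ (r * y)) (by
      intro r hr
      rw [uIoc_of_le zero_le_one] at hr
      rw [Real.norm_eq_abs, abs_mul]
      have hm : r * y ∈ Ioo 0 Y := ⟨mul_pos hr.1 hy.1, by nlinarith [hr.1, hr.2, hy.1, hy.2]⟩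
      calc |ker r| * |φ (r * y)| ≤ 1 / 4 * M :=
            mul_le_mul (ker_abs ⟨hr.1.le, hr.2⟩) (hb _ hm) (abs_nonneg _) (by norm_num)
        _ ≤ M := by linarith)
  simpa using this

lemma eq_zero_of_le_mul {κ K b : ℝ} (hb : 0 < b) (h : ∀ y ∈ Ioo 0 b, |κ| ≤ K * y) : κ = 0 := by
  have h1 : Tendsto (fun y : ℝ => K * y) (𝓝[>] 0) (𝓝 (K * 0)) :=
    ((continuous_const.mul continuous_id).tendsto 0).mono_left nhdsWithin_le_nhds
  rw [mul_zero] at h1
  have h2 : ∀ᶠ y in 𝓝[>] (0 : ℝ), |κ| ≤ K * y := by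
    filter_upwards [Ioo_mem_nhdsGT hb] with y hy using h y hy
  have : |κ| ≤ 0 := ge_of_tendsto h1 h2
  exact abs_eq_zero.1 (le_antisymm this (abs_nonneg _))

/-- the singular coefficients vanish for bounded solutions. -/
lemma kill {u I : ℝ → ℝ} {α κ9 κ10 b C M : ℝ} (hb : 0 < b) (hb1 : b ≤ 1)
    (hu : ∀ y ∈ Ioo 0 b, |u y| ≤ C) (hI : ∀ y ∈ Ioo 0 b, |I y| ≤ M)
    (he : ∀ y ∈ Ioo 0 b, u y = α * y + κ9 / y ^ 9 + κ10 / y ^ 10 + y ^ 2 * I y) :
    κ9 = 0 ∧ κ10 = 0 := by
  have hpow : ∀ y ∈ Ioo 0 b, ∀ n : ℕ, y ^ (n + 1) ≤ y := fun y hy n => by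
    have : y ^ n ≤ 1 := pow_le_one₀ hy.1.le (hy.2.le.trans hb1)
    rw [pow_succ]; nlinarith [hy.1]
  have hC : ∀ y ∈ Ioo 0 b, 0 ≤ C := fun y hy => (abs_nonneg _).trans (hu y hy)
  have hM : ∀ y ∈ Ioo 0 b, 0 ≤ M := fun y hy => (abs_nonneg _).trans (hI y hy)
  have h10 : κ10 = 0 := by
    refine eq_zero_of_le_mul (K := C + |α| + |κ9| + M) hb fun y hy => ?_
    have hy0 : y ≠ 0 := hy.1.ne'
    have e : κ10 = y ^ 10 * u y - α * y ^ 11 - κ9 * y - y ^ 12 * I y := by
      rw [he y hy]; field_simp; ring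
    have t1 : |y ^ 10 * u y| ≤ C * y := by
      rw [abs_mul, abs_of_pos (pow_pos hy.1 10), mul_comm]
      exact mul_le_mul (hu y hy) (hpow y hy 9) (pow_nonneg hy.1.le 10) (hC y hy)
    have t2 : |α * y ^ 11| ≤ |α| * y := by
      rw [abs_mul, abs_of_pos (pow_pos hy.1 11)]
      exact mul_le_mul_of_nonneg_left (hpow y hy 10) (abs_nonneg _)
    have t3 : |κ9 * y| = |κ9| * y := by rw [abs_mul, abs_of_pos hy.1]
    have t4 : |y ^ 12 * I y| ≤ M * y := by
      rw [abs_mul, abs_of_pos (pow_pos hy.1 12), mul_comm]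
      exact mul_le_mul (hI y hy) (hpow y hy 11) (pow_nonneg hy.1.le 12) (hM y hy)
    rw [e]
    have a1 := abs_sub (y ^ 10 * u y - α * y ^ 11 - κ9 * y) (y ^ 12 * I y)
    have a2 := abs_sub (y ^ 10 * u y - α * y ^ 11) (κ9 * y)
    have a3 := abs_sub (y ^ 10 * u y) (α * y ^ 11)
    nlinarith
  refine ⟨?_, h10⟩
  refine eq_zero_of_le_mul (K := C + |α| + M) hb fun y hy => ?_
  have hy0 : y ≠ 0 := hy.1.ne'
  have e : κ9 = y ^ 9 * u y - α * y ^ 10 - y ^ 11 * I y := by
    rw [he y hy, h10]; field_simp; ring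
  have t1 : |y ^ 9 * u y| ≤ C * y := by
    rw [abs_mul, abs_of_pos (pow_pos hy.1 9), mul_comm]
    exact mul_le_mul (hu y hy) (hpow y hy 8) (pow_nonneg hy.1.le 9) (hC y hy)
  have t2 : |α * y ^ 10| ≤ |α| * y := by
    rw [abs_mul, abs_of_pos (pow_pos hy.1 10)]
    exact mul_le_mul_of_nonneg_left (hpow y hy 9) (abs_nonneg _)
  have t4 : |y ^ 11 * I y| ≤ M * y := by
    rw [abs_mul, abs_of_pos (pow_pos hy.1 11), mul_comm]
    exact mul_le_mul (hI y hy) (hpow y hy 10) (pow_nonneg hy.1.le 11) (hM y hy)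
  rw [e]
  have a2 := abs_sub (y ^ 9 * u y - α * y ^ 10) (y ^ 11 * I y)
  have a3 := abs_sub (y ^ 9 * u y) (α * y ^ 10)
  nlinarith

lemma smooth_chain {g : ℝ → ℝ} (hg : ContDiffOn ℝ (⊤ : ℕ∞) g (Ioi 0)) (n : ℕ) :
    ContDiffOn ℝ (⊤ : ℕ∞) (iteratedDeriv n g) (Ioi 0) ∧
    ∀ y ∈ Ioi (0 : ℝ), HasDerivAt (iteratedDeriv n g) (iteratedDeriv (n + 1) g y) y := by
  have key : ∀ n : ℕ, ContDiffOn ℝ (⊤ : ℕ∞) (iteratedDeriv n g) (Ioi 0) := by
    intro n
    induction n with
    | zero => simpa using hg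
    | succ n ih =>
      rw [iteratedDeriv_succ]
      exact ((contDiffOn_infty_iff_deriv_of_isOpen isOpen_Ioi).1 ih).2
  refine ⟨key n, fun y hy => ?_⟩
  rw [iteratedDeriv_succ]
  exact (((key n).differentiableOn (by simp)).differentiableAt (Ioi_mem_nhds hy)).hasDerivAt

/-- **E-ZERO, representation**: a positive solution on `(0,∞)`, bounded and bounded below near `0`. -/
theorem zero_rep {c : ℝ} {g : ℝ → ℝ} (hg : ContDiffOn ℝ (⊤ : ℕ∞) g (Ioi 0))
    (hpos : ∀ y, 0 < y → 0 < g y)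
    (hode : ∀ y, 0 < y → y ^ 3 * iteratedDeriv 3 g y + 21 * y ^ 2 * iteratedDeriv 2 g y
      + 90 * y * deriv g y + 90 * (1 - g y) + y ^ 2 / 2 * (1 / c - 1 / g y) = 0)
    {y0 δ C : ℝ} (hy0 : 0 < y0) (hδ : 0 < δ) (hlo : ∀ y ∈ Ioo 0 y0, δ ≤ g y)
    (hup : ∀ y ∈ Ioo 0 y0, g y ≤ C) :
    ∃ α : ℝ, ∀ y, 0 < y →
      g y = 1 + α * y + VO (fun z => -(1 / 2) * (1 / c - 1 / g z)) y := by
  set φ : ℝ → ℝ := fun z => -(1 / 2) * (1 / c - 1 / g z) with hφ
  have hgc : ContinuousOn g (Ioi 0) := hg.continuousOn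
  have hφc : ContinuousOn φ (Ioi 0) := by
    have : ContinuousOn (fun z => 1 / g z) (Ioi 0) :=
      continuousOn_const.div hgc (fun z hz => (hpos z hz).ne')
    exact continuousOn_const.mul (continuousOn_const.sub this)
  -- boundedness on `(0,Y)`
  have hbd : ∀ Y : ℝ, ∃ M, ∀ y ∈ Ioo 0 Y, |φ y| ≤ M := by
    intro Y
    obtain ⟨M1, hM1⟩ := (isCompact_Icc (a := y0 / 2) (b := Y)).exists_bound_of_continuousOn
      (hφc.mono fun z hz => lt_of_lt_of_le (by linarith : (0 : ℝ) < y0 / 2) hz.1)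
    refine ⟨max M1 (1 / 2 * (|1 / c| + 1 / δ)), fun y hy => ?_⟩
    rcases lt_or_ge y (y0 / 2) with h | h
    · refine le_trans ?_ (le_max_right _ _)
      have hgy : δ ≤ g y := hlo y ⟨hy.1, by linarith⟩
      have h1 : |1 / g y| ≤ 1 / δ := by
        rw [abs_of_pos (one_div_pos.2 (hpos y hy.1))]
        exact one_div_le_one_div_of_le hδ hgy
      simp only [hφ]
      rw [abs_mul, show |(-(1 / 2) : ℝ)| = 1 / 2 by norm_num [abs_of_neg]]
      have := abs_sub (1 / c) (1 / g y)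
      nlinarith
    · exact (by simpa using hM1 y ⟨h, hy.2.le⟩ : |φ y| ≤ M1).trans (le_max_left _ _)
  have h0 := fun y (hy : y ∈ Ioi (0 : ℝ)) => ((smooth_chain hg 0).2 y hy)
  have h1 := fun y (hy : y ∈ Ioi (0 : ℝ)) => ((smooth_chain hg 1).2 y hy)
  have h2 := fun y (hy : y ∈ Ioi (0 : ℝ)) => ((smooth_chain hg 2).2 y hy)
  simp only [iteratedDeriv_zero, zero_add, iteratedDeriv_one] at h0
  simp only [iteratedDeriv_one, Nat.reduceAdd] at h1
  simp only [Nat.reduceAdd] at h2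
  -- the representation on `(0,Y)`
  have hrep : ∀ Y : ℝ, 0 < Y → ∃ α : ℝ, ∀ y ∈ Ioo 0 Y, g y = 1 + α * y + VO φ y := by
    intro Y hY
    obtain ⟨M, hM⟩ := hbd Y
    obtain ⟨α, κ9, κ10, -, -, -, he⟩ := rep (u := fun y => g y - 1) (u1 := deriv g)
      (u2 := iteratedDeriv 2 g) (u3 := iteratedDeriv 3 g) (φ := φ) (Y := Y) (M := M)
      (fun y hy => (h0 y hy.1).sub_const 1) (fun y hy => h1 y hy.1) (fun y hy => h2 y hy.1)
      (hφc.mono fun z hz => hz.1) hM (fun y hy => by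
        have := hode y hy.1
        simp only [hφ]
        linear_combination this)
    set b := min 1 (min Y y0)
    have hbpos : 0 < b := lt_min one_pos (lt_min hY hy0)
    obtain ⟨e9, e10⟩ := kill (u := fun y => g y - 1)
      (I := fun y => ∫ r in (0 : ℝ)..1, ker r * φ (r * y)) (α := α) (κ9 := κ9) (κ10 := κ10)
      (b := b) (C := |C| + 1) (M := M) hbpos (min_le_left _ _)
      (fun y hy => by
        have hy' : y ∈ Ioo 0 y0 :=
          ⟨hy.1, hy.2.trans_le ((min_le_right _ _).trans (min_le_right _ _))⟩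
        have h3 := hup y hy'
        have h4 := hpos y hy.1
        have h5 := le_abs_self C
        rw [abs_le]; constructor <;> linarith)
      (fun y hy => avg_bdd hM
        ⟨hy.1, hy.2.trans_le ((min_le_right _ _).trans (min_le_left _ _))⟩)
      (fun y hy => he y ⟨hy.1, hy.2.trans_le ((min_le_right _ _).trans (min_le_left _ _))⟩)
    refine ⟨α, fun y hy => ?_⟩
    have := he y hy
    rw [e9, e10] at this
    simp only [zero_div, add_zero] at this
    unfold VO
    linear_combination this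
  obtain ⟨α, hα⟩ := hrep 1 one_pos
  refine ⟨α, fun y hy => ?_⟩
  obtain ⟨β, hβ⟩ := hrep (y + 1) (by linarith)
  have : β - α = 0 := by
    refine eq_zero_of_le_mul (K := 0) (b := min 1 (y + 1)) (lt_min one_pos (by linarith)) ?_
    intro z hz
    have e1 := hα z ⟨hz.1, hz.2.trans_le (min_le_left _ _)⟩
    have e2 := hβ z ⟨hz.1, hz.2.trans_le (min_le_right _ _)⟩
    have : (β - α) * z = 0 := by linear_combination e1 - e2
    rcases mul_eq_zero.1 this with h | h
    · rw [h]; simp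
    · exact absurd h hz.1.ne'
  have hab : β = α := by linarith
  rw [← hab]
  exact hβ y ⟨hy, by linarith⟩

/-- `α < 0` as soon as `g` is somewhere below `1 - y²/(264 c)`. -/
theorem alpha_neg {c α : ℝ} {g : ℝ → ℝ} (hgc : ContinuousOn g (Ioi 0))
    (hpos : ∀ y, 0 < y → 0 < g y) {y0 δ : ℝ} (hy0 : 0 < y0) (hδ : 0 < δ)
    (hlo : ∀ y ∈ Ioo 0 y0, δ ≤ g y)
    {y : ℝ} (hy : 0 < y) (he : g y = 1 + α * y + VO (fun z => -(1 / 2) * (1 / c - 1 / g z)) y)
    (hsmall : g y < 1 - y ^ 2 / (264 * c)) : α < 0 := by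
  -- integrability of `ker r / g (r y)`
  have hcont : ContinuousOn (fun r => ker r * (1 / g (r * y))) (Ioc 0 1) := by
    refine ker_cont.continuousOn.mul (continuousOn_const.div (hgc.comp (by fun_prop) ?_) ?_)
    · intro r hr; exact mul_pos hr.1 hy
    · intro r hr; exact (hpos _ (mul_pos hr.1 hy)).ne'
  have hbd : ∃ M, ∀ z ∈ Ioc 0 y, |1 / g z| ≤ M := by
    obtain ⟨M1, hM1⟩ := (isCompact_Icc (a := y0 / 2) (b := y)).exists_bound_of_continuousOn
      ((continuousOn_const.div hgc (fun z hz => (hpos z hz).ne')).mono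
        (fun z hz => lt_of_lt_of_le (by linarith : (0 : ℝ) < y0 / 2) hz.1) :
        ContinuousOn (fun z => 1 / g z) _)
    refine ⟨max M1 (1 / δ), fun z hz => ?_⟩
    rcases lt_or_ge z (y0 / 2) with h | h
    · refine le_trans ?_ (le_max_right _ _)
      rw [abs_of_pos (one_div_pos.2 (hpos z hz.1))]
      exact one_div_le_one_div_of_le hδ (hlo z ⟨hz.1, by linarith⟩)
    · exact (by simpa using hM1 z ⟨h, hz.2⟩ : |1 / g z| ≤ M1).trans (le_max_left _ _)
  obtain ⟨M, hM⟩ := hbd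
  have hint : IntervalIntegrable (fun r => ker r * (1 / g (r * y))) volume 0 1 := by
    rw [intervalIntegrable_iff_integrableOn_Ioc_of_le zero_le_one]
    refine Integrable.of_bound (C := 1 / 4 * M) (hcont.aestronglyMeasurable measurableSet_Ioc) ?_
    refine (ae_restrict_iff' measurableSet_Ioc).2 (Eventually.of_forall fun r hr => ?_)
    rw [norm_mul]
    have hm : r * y ∈ Ioc 0 y := ⟨mul_pos hr.1 hy, by nlinarith [hr.1, hr.2]⟩
    exact mul_le_mul (by simpa using ker_abs ⟨hr.1.le, hr.2⟩) (by simpa using hM _ hm)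
      (norm_nonneg _) (by norm_num)
  have hk : IntervalIntegrable (fun r => ker r * (1 / c)) volume 0 1 :=
    (by have := ker_cont; fun_prop : Continuous fun r => ker r * (1 / c)).intervalIntegrable _ _
  have e : VO (fun z => -(1 / 2) * (1 / c - 1 / g z)) y =
      y ^ 2 * (-(1 / 2)) * (1 / c * (1 / 132) - ∫ r in (0 : ℝ)..1, ker r * (1 / g (r * y))) := by
    unfold VO
    have : ∫ r in (0 : ℝ)..1, ker r * (-(1 / 2) * (1 / c - 1 / g (r * y))) =
        -(1 / 2) * ((∫ r in (0 : ℝ)..1, ker r * (1 / c)) -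
          ∫ r in (0 : ℝ)..1, ker r * (1 / g (r * y))) := by
      rw [← intervalIntegral.integral_sub hk hint, ← intervalIntegral.integral_const_mul]
      congr 1; ext r; ring
    rw [this, intervalIntegral.integral_mul_const, ker_int]
    ring
  have hnn : 0 ≤ ∫ r in (0 : ℝ)..1, ker r * (1 / g (r * y)) := by
    rw [intervalIntegral.integral_of_le zero_le_one]
    refine setIntegral_nonneg measurableSet_Ioc fun r hr => ?_
    exact mul_nonneg (ker_nonneg ⟨hr.1.le, hr.2⟩)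
      (one_div_pos.2 (hpos _ (mul_pos hr.1 hy))).le
  rw [e] at he
  have h1 : α * y < 0 := by
    have hy2 : 0 < y ^ 2 := pow_pos hy 2
    have h2 : y ^ 2 * (1 / c) * (1 / 264) = y ^ 2 / (264 * c) := by
      rcases eq_or_ne c 0 with rfl | hc
      · simp
      · field_simp
    nlinarith [mul_nonneg hy2.le hnn]
  by_contra hα
  push Not at hα
  nlinarith [mul_nonneg hα hy.le]

/-- smooth truncation of `v ↦ 1/(1+v)`. -/
lemma exists_trunc : ∃ f : ℝ → ℝ, ContDiff ℝ (⊤ : ℕ∞) f ∧ (∃ K : ℝ≥0, LipschitzWith K f) ∧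
    (∃ B : ℝ, ∀ v, |f v| ≤ B) ∧ ∀ v, |v| ≤ 1 / 2 → f v = 1 / (1 + v) := by
  let χ : ContDiffBump (0 : ℝ) := ⟨1 / 2, 3 / 4, by norm_num, by norm_num⟩
  have hχ : ContDiff ℝ (⊤ : ℕ∞) (χ : ℝ → ℝ) := χ.contDiff
  have hηpos : ∀ v : ℝ, 1 / 4 ≤ 1 + v * χ v := by
    intro v
    have h0 := χ.nonneg' v
    have h1 := χ.le_one (x := v)
    rcases lt_or_ge |v| (3 / 4) with h | h
    · have := abs_lt.1 h
      nlinarith
    · have : χ v = 0 := χ.zero_of_le_dist (by simpa [Real.dist_eq] using h)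
      rw [this]; norm_num
  have hη : ContDiff ℝ (⊤ : ℕ∞) (fun v : ℝ => 1 / (1 + v * χ v)) := by
    refine contDiff_const.div (contDiff_const.add (contDiff_id.mul hχ)) ?_
    intro v; have := hηpos v; linarith
  have hsub : ContDiff ℝ (⊤ : ℕ∞) (fun v : ℝ => 1 / (1 + v * χ v) - 1) := hη.sub contDiff_const
  have hcs : HasCompactSupport (fun v : ℝ => 1 / (1 + v * χ v) - 1) := by
    refine χ.hasCompactSupport.mono ?_
    intro v hv hv'
    apply hv
    simp only [hv', mul_zero, add_zero, div_one, sub_self]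
  obtain ⟨K, hK⟩ := hsub.lipschitzWith_of_hasCompactSupport hcs (by simp)
  refine ⟨fun v => 1 / (1 + v * χ v), hη, ⟨K, ?_⟩, ⟨4, fun v => ?_⟩, fun v hv => ?_⟩
  · refine LipschitzWith.of_dist_le_mul fun x y => ?_
    have := hK.dist_le_mul x y
    simpa [Real.dist_eq] using this
  · have := hηpos v
    rw [abs_of_pos (by positivity)]
    rw [div_le_iff₀ (by linarith)]; linarith
  · have : χ v = 1 := χ.one_of_mem_closedBall (by
      rw [Metric.mem_closedBall, Real.dist_eq, sub_zero]; exact hv)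
    simp only [this, mul_one]

/-- **E-ZERO, smooth extension.** -/
theorem zero_ext {c α : ℝ} {g : ℝ → ℝ} (hg : ContDiffOn ℝ (⊤ : ℕ∞) g (Ioi 0))
    {y0 δ : ℝ} (hy0 : 0 < y0) (hδ : 0 < δ) (hlo : ∀ y ∈ Ioo 0 y0, δ ≤ g y)
    (he : ∀ y, 0 < y → g y = 1 + α * y + VO (fun z => -(1 / 2) * (1 / c - 1 / g z)) y) :
    ∃ G : ℝ → ℝ, ContDiff ℝ (⊤ : ℕ∞) G ∧ (∀ y, 0 < y → G y = g y) ∧ G 0 = 1 ∧
      deriv G 0 = α := by
  classical
  obtain ⟨f, hf, ⟨K, hK⟩, ⟨B, hB⟩, hf1⟩ := exists_trunc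
  have hB0 : 0 ≤ B := (abs_nonneg _).trans (hB 0)
  set Ψ : ℝ → ℝ := fun v => -(1 / 2) * (1 / c - f v) with hΨdef
  have hΨ : ContDiff ℝ (⊤ : ℕ∞) Ψ := contDiff_const.mul (contDiff_const.sub hf)
  have hΨK : LipschitzWith K Ψ := by
    refine LipschitzWith.of_dist_le_mul fun x y => ?_
    have h1 := hK.dist_le_mul x y
    rw [Real.dist_eq] at h1 ⊢
    have e : Ψ x - Ψ y = 1 / 2 * (f x - f y) := by simp only [hΨdef]; ring
    rw [e, abs_mul, abs_of_pos (by norm_num : (0 : ℝ) < 1 / 2)]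
    have := abs_nonneg (f x - f y)
    linarith
  have hΨB : ∀ v, |Ψ v| ≤ 1 / 2 * (|1 / c| + B) := by
    intro v
    simp only [hΨdef]
    rw [abs_mul, show |(-(1 / 2) : ℝ)| = 1 / 2 by norm_num [abs_of_neg]]
    have h1 := abs_sub (1 / c) (f v)
    have h2 := hB v
    nlinarith
  -- choice of `ε`
  set φ : ℝ → ℝ := fun z => -(1 / 2) * (1 / c - 1 / g z) with hφ
  set M : ℝ := 1 / 2 * (|1 / c| + 1 / δ) with hMdef
  have hM0 : 0 ≤ M := by positivity
  have hφb : ∀ y ∈ Ioo 0 y0, |φ y| ≤ M := by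
    intro y hy
    have hgy := hlo y hy
    have h1 : |1 / g y| ≤ 1 / δ := by
      rw [abs_of_pos (one_div_pos.2 (hδ.trans_le hgy))]
      exact one_div_le_one_div_of_le hδ hgy
    simp only [hφ]
    rw [abs_mul, show |(-(1 / 2) : ℝ)| = 1 / 2 by norm_num [abs_of_neg]]
    have := abs_sub (1 / c) (1 / g y)
    rw [hMdef]
    nlinarith
  set ε : ℝ := min (min 1 (y0 / 2)) (1 / (2 * (|α| + M + K + 1))) with hε
  have hden : 0 < 2 * (|α| + M + K + 1) := by
    have := K.coe_nonneg; have := abs_nonneg α; positivity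
  have hεpos : 0 < ε := lt_min (lt_min one_pos (by linarith)) (by positivity)
  have hε1 : ε ≤ 1 := (min_le_left _ _).trans (min_le_left _ _)
  have hεy0 : ε < y0 := ((min_le_left _ _).trans (min_le_right _ _)).trans_lt (by linarith)
  have hεd : ε * (2 * (|α| + M + K + 1)) ≤ 1 := by
    have : ε ≤ 1 / (2 * (|α| + M + K + 1)) := min_le_right _ _
    rwa [le_div_iff₀ hden] at this
  have hεK : ε ^ 2 * K ≤ 1 := by
    have hK0 := K.coe_nonneg
    have ha := abs_nonneg α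
    have p1 := mul_nonneg hεpos.le ha
    have p2 := mul_nonneg hεpos.le hM0
    have p3 := mul_nonneg hεpos.le hK0
    have h1 : ε * K ≤ 1 := by nlinarith
    nlinarith
  -- `u = g - 1`
  have hu : ∀ y ∈ Ioc 0 ε, |g y - 1| ≤ 1 / 2 := by
    intro y hy
    have hy' : y ∈ Ioo 0 y0 := ⟨hy.1, hy.2.trans_lt hεy0⟩
    have h1 := avg_bdd hφb hy'
    rw [he y hy.1]
    unfold VO
    have hK0 := K.coe_nonneg
    have ha := abs_nonneg α
    have e : 1 + α * y + y ^ 2 * (∫ r in (0 : ℝ)..1, ker r * φ (r * y)) - 1 =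
        α * y + y ^ 2 * (∫ r in (0 : ℝ)..1, ker r * φ (r * y)) := by ring
    rw [e]
    have t1 : |α * y| ≤ |α| * ε := by
      rw [abs_mul, abs_of_pos hy.1]; exact mul_le_mul_of_nonneg_left hy.2 ha
    have t2 : |y ^ 2 * (∫ r in (0 : ℝ)..1, ker r * φ (r * y))| ≤ ε * M := by
      rw [abs_mul, abs_of_nonneg (sq_nonneg y)]
      refine mul_le_mul ?_ h1 (abs_nonneg _) hεpos.le
      nlinarith [hy.1, hy.2]
    have t3 := abs_add_le (α * y) (y ^ 2 * (∫ r in (0 : ℝ)..1, ker r * φ (r * y)))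
    nlinarith [mul_nonneg hεpos.le hK0]
  have hgc : ContinuousOn g (Ioi 0) := hg.continuousOn
  obtain ⟨v, hvc, hve⟩ := exists_fix (K := K) hΨ.continuous hΨK hΨB α hεpos hεK
  obtain ⟨Mv, hMv⟩ := (isCompact_Icc (a := (0 : ℝ)) (b := ε)).exists_bound_of_continuousOn
    hvc.continuousOn
  have hagree : ∀ y ∈ Ioc 0 ε, g y - 1 = v y := by
    refine fix_unique (Ψ := Ψ) (K := K) (α := α) (M := max (1 / 2) Mv) hΨ.continuous hΨK hεK
      (u := fun y => g y - 1) ((hgc.mono fun z hz => hz.1).sub continuousOn_const)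
      hvc.continuousOn (fun y hy => (hu y hy).trans (le_max_left _ _))
      (fun y hy => (by simpa using hMv y ⟨hy.1.le, hy.2⟩ : |v y| ≤ Mv).trans (le_max_right _ _))
      ?_ (fun y hy => hve y ⟨by linarith [hy.1], hy.2⟩)
    intro y hy
    have h1 := he y hy.1
    have h2 : VO φ y = VO (fun z => Ψ (g z - 1)) y := by
      unfold VO
      congr 1
      rw [intervalIntegral.integral_of_le zero_le_one, intervalIntegral.integral_of_le zero_le_one]
      refine setIntegral_congr_fun measurableSet_Ioc fun r hr => ?_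
      have hm : r * y ∈ Ioc 0 ε := ⟨mul_pos hr.1 hy.1, by nlinarith [hr.1, hr.2, hy.1, hy.2]⟩
      have h3 := hf1 (g (r * y) - 1) (hu _ hm)
      simp only [hφ, hΨdef]
      rw [h3]
      congr 4
      ring
    rw [← h2]
    linear_combination h1
  have hvs : ContDiffOn ℝ (⊤ : ℕ∞) v (Ioo (-ε) ε) :=
    boot hΨ hvc.continuousOn (fun y hy => hve y ⟨hy.1.le, hy.2.le⟩)
  -- cutoff
  set χ : ℝ → ℝ := fun y => Real.smoothTransition (3 * y / ε + 2) with hχ
  have hχs : ContDiff ℝ (⊤ : ℕ∞) χ := by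
    refine Real.smoothTransition.contDiff.comp ?_
    fun_prop
  have hχ1 : ∀ y, -(ε / 3) ≤ y → χ y = 1 := by
    intro y hy
    refine Real.smoothTransition.one_of_one_le ?_
    have : -1 ≤ 3 * y / ε := by
      rw [le_div_iff₀ hεpos]; linarith
    linarith
  have hχ0 : ∀ y, y ≤ -(2 * ε / 3) → χ y = 0 := by
    intro y hy
    refine Real.smoothTransition.zero_of_nonpos ?_
    have : 3 * y / ε ≤ -2 := by
      rw [div_le_iff₀ hεpos]; linarith
    linarith
  set G : ℝ → ℝ := fun y => if 0 < y then g y else 1 + χ y * v y with hG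
  have hG1 : ∀ y ∈ Ioo (-(ε / 3)) ε, G y = 1 + v y := by
    intro y hy
    simp only [hG]
    split_ifs with h
    · have := hagree y ⟨h, hy.2.le⟩
      linarith
    · rw [hχ1 y hy.1.le]; ring
  have hGev : G =ᶠ[𝓝 0] fun y => 1 + v y := by
    filter_upwards [Ioo_mem_nhds (by linarith : -(ε / 3) < (0 : ℝ)) hεpos] with y hy using hG1 y hy
  refine ⟨G, ?_, fun y hy => by simp [hG, hy], ?_, ?_⟩
  · rw [contDiff_iff_contDiffAt]
    intro y
    rcases lt_or_ge 0 y with h | h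
    · have : G =ᶠ[𝓝 y] g := by
        filter_upwards [Ioi_mem_nhds h] with z hz
        simp only [hG]
        rw [if_pos (show (0 : ℝ) < z from hz)]
      exact (hg.contDiffAt (Ioi_mem_nhds h)).congr_of_eventuallyEq this
    rcases lt_or_ge (-(ε / 3)) y with h' | h'
    · have hmem : y ∈ Ioo (-(ε / 3)) ε := ⟨h', by linarith⟩
      have : G =ᶠ[𝓝 y] fun y => 1 + v y := by
        filter_upwards [isOpen_Ioo.mem_nhds hmem] with z hz using hG1 z hz
      refine ContDiffAt.congr_of_eventuallyEq ?_ this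
      exact contDiffAt_const.add (hvs.contDiffAt (isOpen_Ioo.mem_nhds
        ⟨by linarith, by linarith⟩))
    · have hy0' : y < 0 := by linarith
      rcases lt_or_ge (-ε) y with h'' | h''
      · have : G =ᶠ[𝓝 y] fun y => 1 + χ y * v y := by
          filter_upwards [Iio_mem_nhds hy0'] with z hz
          simp only [hG]
          rw [if_neg (not_lt.2 (le_of_lt (show z < 0 from hz)))]
        refine ContDiffAt.congr_of_eventuallyEq ?_ this
        exact contDiffAt_const.add (hχs.contDiffAt.mul (hvs.contDiffAt (isOpen_Ioo.mem_nhds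
          ⟨h'', by linarith⟩)))
      · have : G =ᶠ[𝓝 y] fun _ => 1 := by
          filter_upwards [Iio_mem_nhds (by linarith : y < -(2 * ε / 3))] with z hz
          have hz' : z < -(2 * ε / 3) := hz
          simp only [hG]
          rw [if_neg (by linarith : ¬ 0 < z), hχ0 z hz'.le]
          ring
        exact contDiffAt_const.congr_of_eventuallyEq this
  · have := hG1 0 ⟨by linarith, hεpos⟩
    rw [this, hve 0 ⟨by linarith, hεpos.le⟩]
    simp [VO]
  · rw [hGev.deriv_eq]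
    have hc : ContinuousOn (fun z => Ψ (v z)) (Ioo (-ε) ε) :=
      (hΨ.continuous.comp hvc).continuousOn
    have h1 := hasDerivAt_VO hc (y := 0) ⟨by linarith, hεpos⟩
    rw [zero_mul] at h1
    have h2 : HasDerivAt (fun y => α * y + VO (fun z => Ψ (v z)) y) (α * 1 + 0) 0 :=
      ((hasDerivAt_id 0).const_mul α).add h1
    have h3 : v =ᶠ[𝓝 0] fun y => α * y + VO (fun z => Ψ (v z)) y := by
      filter_upwards [Icc_mem_nhds (by linarith : -ε < (0 : ℝ)) hεpos] with y hy using hve y hy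
    have h4 : HasDerivAt v (α * 1 + 0) 0 := h2.congr_of_eventuallyEq h3
    rw [(h4.const_add 1).deriv]; ring

end Crest.Agent.R213.EZ
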