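import Crest.Agent.R213.Defs
import Crest.Agent.R213.E.ZeroMain

/-!
# Row 213, part E: final glue: a classical positive solution on `(0,∞)` with the right behaviour at both
ends gives a `Soliton`.
-/

set_option autoImplicit false

open Set Filter Topology MeasureTheory

noncomputable section

namespace Crest.Agent.R213.E

/-- `HasDerivAt` chain on `y > 0` gives the iterated derivatives. -/
lemma iter_of_chain {g g1 g2 g3 : ℝ → ℝ} (h1 : ∀ y, 0 < y → HasDerivAt g (g1 y) y)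
    (h2 : ∀ y, 0 < y → HasDerivAt g1 (g2 y) y) (h3 : ∀ y, 0 < y → HasDerivAt g2 (g3 y) y)
    {y : ℝ} (hy : 0 < y) :
    deriv g y = g1 y ∧ iteratedDeriv 2 g y = g2 y ∧ iteratedDeriv 3 g y = g3 y := by
  have e1 : ∀ y, 0 < y → deriv g y = g1 y := fun y hy => (h1 y hy).deriv
  have e2 : ∀ y, 0 < y → iteratedDeriv 2 g y = g2 y := by
    intro y hy
    rw [show (2 : ℕ) = 1 + 1 from rfl, iteratedDeriv_succ, iteratedDeriv_one]
    have : deriv g =ᶠ[𝓝 y] g1 := by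
      filter_upwards [Ioi_mem_nhds hy] with x hx using e1 x hx
    rw [this.deriv_eq]; exact (h2 y hy).deriv
  refine ⟨e1 y hy, e2 y hy, ?_⟩
  rw [show (3 : ℕ) = 2 + 1 from rfl, iteratedDeriv_succ]
  have : iteratedDeriv 2 g =ᶠ[𝓝 y] g2 := by
    filter_upwards [Ioi_mem_nhds hy] with x hx using e2 x hx
  rw [this.deriv_eq]; exact (h3 y hy).deriv

/-- **Glue at `0` and `∞`.** -/
theorem soliton_of {c : ℝ} (hc : 0 < c) {g g1 g2 g3 : ℝ → ℝ}
    (h1 : ∀ y, 0 < y → HasDerivAt g (g1 y) y) (h2 : ∀ y, 0 < y → HasDerivAt g1 (g2 y) y)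
    (h3 : ∀ y, 0 < y → HasDerivAt g2 (g3 y) y) (hpos : ∀ y, 0 < y → 0 < g y)
    (hode : ∀ y, 0 < y → y ^ 3 * g3 y + 21 * y ^ 2 * g2 y + 90 * y * g1 y + 90 * (1 - g y)
      + y ^ 2 / 2 * (1 / c - 1 / g y) = 0)
    (hs : ContDiffOn ℝ (⊤ : ℕ∞) g (Ioi 0))
    (hinf : ∃ gh : ℝ → ℝ, ContDiffOn ℝ (⊤ : ℕ∞) gh (Ici 0) ∧
      (∀ y, 0 < y → g y = gh (1 / y ^ 2)) ∧ gh 0 = c)
    {y0 δ C : ℝ} (hy0 : 0 < y0) (hδ : 0 < δ) (hlo : ∀ y ∈ Ioo 0 y0, δ ≤ g y)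
    (hup : ∀ y ∈ Ioo 0 y0, g y ≤ C)
    {y4 : ℝ} (hy4 : 0 < y4) (hsmall : g y4 < 1 - y4 ^ 2 / (264 * c)) :
    ∃ (A : ℝ) (g' gh : ℝ → ℝ), Soliton c A g' gh := by
  have hode' : ∀ y, 0 < y → y ^ 3 * iteratedDeriv 3 g y + 21 * y ^ 2 * iteratedDeriv 2 g y
      + 90 * y * deriv g y + 90 * (1 - g y) + y ^ 2 / 2 * (1 / c - 1 / g y) = 0 := by
    intro y hy
    obtain ⟨e1, e2, e3⟩ := iter_of_chain h1 h2 h3 hy
    rw [e1, e2, e3]; exact hode y hy
  obtain ⟨α, hα⟩ := EZ.zero_rep hs hpos hode' hy0 hδ hlo hup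
  obtain ⟨G, hG, hGg, hG0, hG1⟩ := EZ.zero_ext hs hy0 hδ hlo hα
  have hαneg : α < 0 := EZ.alpha_neg hs.continuousOn hpos hy0 hδ hlo hy4 (hα y4 hy4) hsmall
  obtain ⟨gh, hgh, hlink, hgh0⟩ := hinf
  refine ⟨-α, G, gh, ?_⟩
  refine
    { c_pos := hc
      A_pos := by linarith
      smooth := hG
      smooth_inf := hgh
      link := fun y hy => by rw [hGg y hy]; exact hlink y hy
      g_zero := hG0
      deriv_zero := by rw [hG1]; ring
      gh_zero := hgh0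
      pos := ?_
      ode := ?_ }
  · intro y hy
    rcases hy.lt_or_eq with h | h
    · rw [hGg y h]; exact hpos y h
    · rw [← h, hG0]; exact one_pos
  · intro y hy
    have hev : G =ᶠ[𝓝 y] g := by
      filter_upwards [Ioi_mem_nhds hy] with x hx using hGg x hx
    have hev1 : deriv G =ᶠ[𝓝 y] deriv g := hev.deriv
    rw [hev.iteratedDeriv_eq 3, hev.iteratedDeriv_eq 2, hev.deriv_eq, hGg y hy]
    exact hode' y hy

end Crest.Agent.R213.E
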