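import Crest.Agent.R213.E.EDefs
import Crest.Agent.R213.E.SolitonOf

/-! Row 213, PART E: `Mid` + regularity at infinity → `Soliton` (helper9). -/

set_option autoImplicit false

open Set MeasureTheory Filter Topology

noncomputable section

namespace Crest.Agent.R213.E

/-- `Mid` and the smooth function of `1/y²` give the soliton. -/
theorem soliton_of_mid {c : ℝ} {g g1 g2 g3 : ℝ → ℝ} (hM : Mid c g g1 g2 g3)
    (hinf : ∃ gh : ℝ → ℝ, ContDiffOn ℝ (⊤ : ℕ∞) gh (Ici 0) ∧ gh 0 = c ∧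
      ∀ y, 0 < y → g y = gh (1 / y ^ 2)) :
    ∃ (c A : ℝ) (g gh : ℝ → ℝ), Soliton c A g gh := by
  obtain ⟨gh, hgh, h0, hl⟩ := hinf
  have hc : 0 < c := by linarith [hM.c_lo]
  have hs : ContDiffOn ℝ (⊤ : ℕ∞) g (Ioi 0) := by
    have h1 : ContDiffOn ℝ (⊤ : ℕ∞) (fun y : ℝ => gh (1 / y ^ 2)) (Ioi 0) := by
      refine hgh.comp (ContDiffOn.div contDiffOn_const (contDiffOn_id.pow 2) ?_) ?_
      · intro y hy; exact pow_ne_zero 2 (ne_of_gt hy)
      · intro y hy
        have hy' : (0 : ℝ) < y := hy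
        show (0 : ℝ) ≤ 1 / y ^ 2
        positivity
    exact h1.congr fun y hy => hl y hy
  obtain ⟨A, g', gh', h⟩ := soliton_of hc hM.C3.d1 hM.C3.d2 hM.C3.d3
    (fun y hy => by linarith [hM.lower y hy]) (fun y hy => hM.ode y hy) hs ⟨gh, hgh, hl, h0⟩
    (y0 := 1) (δ := 1 / 10) (C := 2) one_pos (by norm_num) (fun y hy => hM.lower y hy.1)
    (fun y hy => hM.upper y hy.1) (y4 := 1) one_pos (by
      have h1 := hM.at_one
      have h2 : (1 : ℝ) ^ 2 / (264 * c) ≤ 1 / 100 := by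
        rw [one_pow, div_le_div_iff₀ (by positivity) (by norm_num)]
        linarith [hM.c_lo]
      linarith)
  exact ⟨c, A, g', gh', h⟩

end Crest.Agent.R213.E
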