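import Crest.Agent.R213.E.EDefs

/-!
# Row 213, part E, E-CERT: step data and weighted integrals (helper587)

`b = 4`.  Cells `(0,2]`, then the list `l` of cells `(a, b]` (first `a = 2`), then the tail `y > Y`.
-/

set_option autoImplicit false

open Set MeasureTheory Filter Topology

noncomputable section

namespace Crest.Agent.R213.E.St

/-- one cell `(a, b]`, `a` = right end of the previous cell (first one: `2`):
`be ≤ bet0/y² + n`, `|resid| ≤ R`, `lo ≤ g0`, `|G c - G c0| ≤ dg`. -/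
structure SC where
  b : ℚ
  be : ℚ
  R : ℚ
  lo : ℚ
  dg : ℚ

/-- all step data: zone `(0,2]`: `be0 ≤ bet0/y² + n`, `|resid| ≤ eps y²`, `lo0`, `dg0`;
cells `l` of `(2,Y]`; tail `y > Y`: `p = cp/y³`, `|resid| ≤ Rt (Y/y)^6`, `lot`, `dgt`. -/
structure SD where
  be0 : ℚ
  eps : ℚ
  lo0 : ℚ
  dg0 : ℚ
  l : List SC
  Y : ℚ
  cp : ℚ
  Rt : ℚ
  lot : ℚ
  dgt : ℚ

/-- value on the first cell with `y ≤ b` -/
def pick (F : SC → ℚ) : List SC → ℝ → ℝ
  | [], _ => 0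
  | c :: l, y => if y ≤ c.b then (F c : ℝ) else pick F l y

/-- the weight `p` -/
def SD.p (s : SD) (y : ℝ) : ℝ :=
  if y ≤ 2 then √(chi 4 y * s.be0)
  else if y ≤ s.Y then √(chi 4 y * pick SC.be s.l y)
  else s.cp / y ^ 3

/-- the residual bound `R` -/
def SD.R (s : SD) (y : ℝ) : ℝ :=
  if y ≤ 2 then s.eps * y ^ 2
  else if y ≤ s.Y then pick SC.R s.l y
  else s.Rt * (s.Y / y) ^ 6

/-- right ends increase from `a` to `Y` -/
def ends : ℚ → List SC → ℚ → Bool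
  | a, [], Y => decide (a = Y)
  | a, c :: l, Y => decide (a < c.b) && ends c.b l Y

/-- cells with their left ends -/
def cells : ℚ → List SC → List (ℚ × SC)
  | _, [] => []
  | a, c :: l => (a, c) :: cells c.b l

lemma ends_le {a Y : ℚ} {l : List SC} (h : ends a l Y = true) : a ≤ Y := by
  induction l generalizing a with
  | nil => simp [ends] at h; exact h.le
  | cons c l ih => simp [ends] at h; have := ih h.2; exact h.1.le.trans this

lemma cells_lt {a Y : ℚ} {l : List SC} (h : ends a l Y = true) :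
    ∀ q ∈ cells a l, a ≤ q.1 ∧ q.1 < q.2.b ∧ q.2.b ≤ Y := by
  induction l generalizing a with
  | nil => simp [cells]
  | cons c l ih =>
    simp only [ends, Bool.and_eq_true, decide_eq_true_eq] at h
    intro q hq
    simp only [cells, List.mem_cons] at hq
    rcases hq with rfl | hq
    · exact ⟨le_rfl, h.1, ends_le h.2⟩
    · have := ih h.2 q hq
      exact ⟨h.1.le.trans this.1, this.2.1, this.2.2⟩

lemma exists_cell {a Y : ℚ} {l : List SC} (h : ends a l Y = true) {y : ℝ} (hy : a < y)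
    (hy2 : y ≤ Y) :
    ∃ q ∈ cells a l, (q.1 : ℝ) < y ∧ y ≤ q.2.b ∧ ∀ F : SC → ℚ, pick F l y = F q.2 := by
  induction l generalizing a with
  | nil => simp [ends] at h; subst h; exact absurd hy (not_lt.2 hy2)
  | cons c l ih =>
    simp only [ends, Bool.and_eq_true, decide_eq_true_eq] at h
    by_cases hc : y ≤ c.b
    · exact ⟨(a, c), by simp [cells], hy, hc, fun F => by simp [pick, hc]⟩
    · push Not at hc
      obtain ⟨q, hq, h1, h2, h3⟩ := ih h.2 hc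
      exact ⟨q, by simp [cells, hq], h1, h2, fun F => by simp [pick, hc.not_ge, h3]⟩

/-- value of `pick` on a given cell -/
lemma pick_cell {a Y : ℚ} {l : List SC} (h : ends a l Y = true) {q : ℚ × SC} (hq : q ∈ cells a l)
    {y : ℝ} (h1 : (q.1 : ℝ) < y) (h2 : y ≤ q.2.b) (F : SC → ℚ) : pick F l y = F q.2 := by
  induction l generalizing a with
  | nil => simp [cells] at hq
  | cons c l ih =>
    simp only [ends, Bool.and_eq_true, decide_eq_true_eq] at h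
    simp only [cells, List.mem_cons] at hq
    rcases hq with rfl | hq
    · simp [pick, h2]
    · have h3 := (cells_lt h.2 q hq).1
      have h4 : (c.b : ℝ) < y := lt_of_le_of_lt (by exact_mod_cast h3) h1
      simp only [pick, if_neg h4.not_ge]
      exact ih h.2 hq

lemma pick_measurable (F : SC → ℚ) (l : List SC) : Measurable (pick F l) := by
  induction l with
  | nil => exact measurable_const
  | cons c l ih => exact Measurable.ite measurableSet_Iic measurable_const ih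

/-! ### the weight `χ` -/

lemma uu_eq (y : ℝ) : uu 4 y = 16 / (16 + y ^ 2) := by
  unfold uu
  have : (16 : ℝ) + y ^ 2 ≠ 0 := by positivity
  field_simp
  ring

lemma uu_pos (y : ℝ) : 0 < uu 4 y := by rw [uu_eq]; positivity

lemma chi_pos (y : ℝ) : 0 < chi 4 y := pow_pos (uu_pos y) 3

lemma chi_le_one (y : ℝ) : chi 4 y ≤ 1 := by
  unfold chi
  apply pow_le_one₀ (uu_pos y).le
  rw [uu_eq, div_le_one (by positivity)]
  nlinarith [sq_nonneg y]

lemma uu_continuous : Continuous (uu 4) := by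
  have : uu 4 = fun y => 16 / (16 + y ^ 2) := funext uu_eq
  rw [this]
  exact continuous_const.div (by fun_prop) (fun y => by positivity)

lemma chi_continuous : Continuous (chi 4) := by
  unfold chi; exact uu_continuous.pow 3

lemma chi_anti {a y : ℝ} (ha : 0 ≤ a) (h : a ≤ y) : chi 4 y ≤ (16 / (16 + a ^ 2)) ^ 3 := by
  unfold chi
  rw [uu_eq]
  apply pow_le_pow_left₀ (by positivity)
  apply div_le_div_of_nonneg_left (by norm_num) (by positivity)
  nlinarith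

lemma chi_anti' {b y : ℝ} (hy : 0 ≤ y) (h : y ≤ b) : (16 / (16 + b ^ 2)) ^ 3 ≤ chi 4 y := by
  unfold chi
  rw [uu_eq]
  apply pow_le_pow_left₀ (by positivity)
  apply div_le_div_of_nonneg_left (by norm_num) (by positivity)
  nlinarith

/-- `χ y⁶` is increasing -/
lemma chi_pow6 {b y : ℝ} (hy : 0 < y) (h : y ≤ b) :
    chi 4 y * y ^ 6 ≤ (16 * b ^ 2 / (16 + b ^ 2)) ^ 3 := by
  unfold chi
  rw [uu_eq]
  have e : (16 / (16 + y ^ 2)) ^ 3 * y ^ 6 = (16 * y ^ 2 / (16 + y ^ 2)) ^ 3 := by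
    field_simp
  rw [e]
  apply pow_le_pow_left₀ (by positivity)
  rw [div_le_div_iff₀ (by positivity) (by positivity)]
  nlinarith [pow_le_pow_left₀ hy.le h 2]

lemma chi_pow6' {a y : ℝ} (ha : 0 ≤ a) (h : a ≤ y) :
    (16 * a ^ 2 / (16 + a ^ 2)) ^ 3 ≤ chi 4 y * y ^ 6 := by
  have e : (16 / (16 + y ^ 2)) ^ 3 * y ^ 6 = (16 * y ^ 2 / (16 + y ^ 2)) ^ 3 := by
    field_simp
  unfold chi
  rw [uu_eq, e]
  apply pow_le_pow_left₀ (by positivity)
  rw [div_le_div_iff₀ (by positivity) (by positivity)]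
  nlinarith [pow_le_pow_left₀ ha h 2]

lemma chi_pow6_lt (y : ℝ) : chi 4 y * y ^ 6 ≤ 4096 := by
  have e : (16 / (16 + y ^ 2)) ^ 3 * y ^ 6 = (16 * y ^ 2 / (16 + y ^ 2)) ^ 3 := by
    field_simp
  unfold chi
  rw [uu_eq, e]
  have : 16 * y ^ 2 / (16 + y ^ 2) ≤ 16 := by
    rw [div_le_iff₀ (by positivity)]; nlinarith [sq_nonneg y]
  calc (16 * y ^ 2 / (16 + y ^ 2)) ^ 3 ≤ 16 ^ 3 := pow_le_pow_left₀ (by positivity) this 3
    _ = 4096 := by norm_num

/-- `χ y² ≤ 64/27` -/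
lemma chi_pow2 (y : ℝ) : chi 4 y * y ^ 2 ≤ 64 / 27 := by
  unfold chi
  rw [uu_eq, div_pow, div_mul_eq_mul_div, div_le_div_iff₀ (by positivity) (by norm_num)]
  have h : 0 ≤ (y ^ 2 - 8) ^ 2 * (y ^ 2 + 64) := by positivity
  nlinarith [h]

/-- `χ y⁴ ≤ 1024·4/27` -/
lemma sqrt_chi_pos (y : ℝ) : 0 < √(chi 4 y) := Real.sqrt_pos.2 (chi_pos y)

/-! ### checks -/

/-- rational upper bound of `∫ χ y^16` over the cell `(a,b]` -/
def IB (a b : ℚ) : ℚ :=
  min ((16 / (16 + a ^ 2)) ^ 3 * ((b ^ 17 - a ^ 17) / 17))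
    ((16 * b ^ 2 / (16 + b ^ 2)) ^ 3 * ((b ^ 11 - a ^ 11) / 11))

/-- sum of the cell contributions to `M²` -/
def sumB : ℚ → List SC → ℚ
  | _, [] => 0
  | a, c :: l => c.R ^ 2 / c.be * IB a c.b + sumB c.b l

/-- upper bound of `∫ (χ/p y^8 R)²` -/
def SD.M2 (s : SD) : ℚ :=
  s.eps ^ 2 / s.be0 * (2 ^ 21 / 21) + sumB 2 s.l
    + (4096 * s.Rt * s.Y ^ 6 / s.cp) ^ 2 / s.Y

/-- positivity and order -/
def SD.ok (s : SD) : Prop :=
  0 < s.be0 ∧ 0 ≤ s.eps ∧ 0 < s.cp ∧ 0 ≤ s.Rt ∧ ends 2 s.l s.Y = true ∧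
    ∀ c ∈ s.l, 0 < c.be ∧ 0 ≤ c.R

lemma mem_of_cells {a : ℚ} {l : List SC} {q : ℚ × SC} (h : q ∈ cells a l) : q.2 ∈ l := by
  induction l generalizing a with
  | nil => simp [cells] at h
  | cons c l ih =>
    simp only [cells, List.mem_cons] at h
    rcases h with rfl | h
    · simp
    · exact List.mem_cons_of_mem _ (ih h)

variable {s : SD}

lemma SD.ok.Y_gt (h : s.ok) : 2 ≤ s.Y := ends_le h.2.2.2.2.1

lemma SD.ok.Y_gtR (h : s.ok) : (2 : ℝ) ≤ s.Y := by exact_mod_cast h.Y_gt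

lemma SD.ok.q_ge (h : s.ok) {q : ℚ × SC} (hq : q ∈ cells 2 s.l) : (2 : ℝ) ≤ q.1 := by
  exact_mod_cast (cells_lt h.2.2.2.2.1 q hq).1

lemma p_near (y : ℝ) (hy : y ≤ 2) : s.p y = √(chi 4 y * s.be0) := by
  simp [SD.p, hy]

lemma p_cell (h : s.ok) {q : ℚ × SC} (hq : q ∈ cells 2 s.l) {y : ℝ} (h1 : (q.1 : ℝ) < y)
    (h2 : y ≤ q.2.b) : s.p y = √(chi 4 y * q.2.be) := by
  have h3 := cells_lt h.2.2.2.2.1 q hq
  have h4 : ¬ y ≤ 2 := by
    push Not; exact lt_of_le_of_lt (by exact_mod_cast h3.1) h1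
  have h5 : y ≤ s.Y := h2.trans (by exact_mod_cast h3.2.2)
  rw [SD.p, if_neg h4, if_pos h5, pick_cell h.2.2.2.2.1 hq h1 h2]

lemma p_far (h : s.ok) {y : ℝ} (hy : (s.Y : ℝ) < y) : s.p y = s.cp / y ^ 3 := by
  have h2 : (2 : ℝ) ≤ s.Y := h.Y_gtR
  rw [SD.p, if_neg (by linarith), if_neg (by linarith)]

lemma R_near (y : ℝ) (hy : y ≤ 2) : s.R y = s.eps * y ^ 2 := by simp [SD.R, hy]

lemma R_cell (h : s.ok) {q : ℚ × SC} (hq : q ∈ cells 2 s.l) {y : ℝ} (h1 : (q.1 : ℝ) < y)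
    (h2 : y ≤ q.2.b) : s.R y = q.2.R := by
  have h3 := cells_lt h.2.2.2.2.1 q hq
  have h4 : ¬ y ≤ 2 := by
    push Not; exact lt_of_le_of_lt (by exact_mod_cast h3.1) h1
  have h5 : y ≤ s.Y := h2.trans (by exact_mod_cast h3.2.2)
  rw [SD.R, if_neg h4, if_pos h5, pick_cell h.2.2.2.2.1 hq h1 h2]

lemma R_far (h : s.ok) {y : ℝ} (hy : (s.Y : ℝ) < y) : s.R y = s.Rt * (s.Y / y) ^ 6 := by
  have h2 : (2 : ℝ) ≤ s.Y := h.Y_gtR
  rw [SD.R, if_neg (by linarith), if_neg (by linarith)]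

/-- case distinction over the three zones -/
lemma zones (h : s.ok) {Q : ℝ → Prop} (h1 : ∀ y, 0 < y → y ≤ 2 → Q y)
    (h2 : ∀ q ∈ cells 2 s.l, ∀ y : ℝ, (q.1 : ℝ) < y → y ≤ q.2.b → Q y)
    (h3 : ∀ y : ℝ, (s.Y : ℝ) < y → Q y) : ∀ y, 0 < y → Q y := by
  intro y hy
  by_cases a1 : y ≤ 2
  · exact h1 y hy a1
  · push Not at a1
    by_cases a2 : y ≤ s.Y
    · obtain ⟨q, hq, b1, b2, _⟩ := exists_cell h.2.2.2.2.1 (by exact_mod_cast a1) a2
      exact h2 q hq y b1 b2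
    · exact h3 y (not_le.1 a2)

lemma p_measurable : Measurable s.p := by
  unfold SD.p
  refine Measurable.ite measurableSet_Iic ?_ (Measurable.ite measurableSet_Iic ?_ ?_)
  · exact (chi_continuous.measurable.mul_const _).sqrt
  · exact (chi_continuous.measurable.mul (pick_measurable _ _)).sqrt
  · exact measurable_const.div (measurable_id.pow_const 3)

lemma R_measurable : Measurable s.R := by
  unfold SD.R
  refine Measurable.ite measurableSet_Iic ?_ (Measurable.ite measurableSet_Iic ?_ ?_)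
  · exact (measurable_id.pow_const 2).const_mul _
  · exact pick_measurable _ _
  · exact ((measurable_const.div measurable_id).pow_const 6).const_mul _

lemma p_pos (h : s.ok) : ∀ y, 0 < y → 0 < s.p y := by
  refine zones h (Q := fun y => 0 < s.p y) ?_ ?_ ?_
  · intro y _ hy2
    rw [p_near y hy2]
    have : (0 : ℝ) < s.be0 := by exact_mod_cast h.1
    have := mul_pos (chi_pos y) this
    positivity
  · intro q hq y h1 h2
    rw [p_cell h hq h1 h2]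
    have hb : (0 : ℝ) < q.2.be := by exact_mod_cast (h.2.2.2.2.2 _ (mem_of_cells hq)).1
    have := mul_pos (chi_pos y) hb
    positivity
  · intro y hy
    rw [p_far h hy]
    have hc : (0 : ℝ) < s.cp := by exact_mod_cast h.2.2.1
    have : 0 < y := by linarith [h.Y_gtR]
    positivity

lemma R_nonneg (h : s.ok) : ∀ y, 0 < y → 0 ≤ s.R y := by
  refine zones h (Q := fun y => 0 ≤ s.R y) ?_ ?_ ?_
  · intro y _ hy2
    rw [R_near y hy2]
    have : (0 : ℝ) ≤ s.eps := by exact_mod_cast h.2.1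
    positivity
  · intro q hq y h1 h2
    rw [R_cell h hq h1 h2]
    exact_mod_cast (h.2.2.2.2.2 _ (mem_of_cells hq)).2
  · intro y hy
    rw [R_far h hy]
    have : (0 : ℝ) ≤ s.Rt := by exact_mod_cast h.2.2.2.1
    have h2 := h.Y_gtR
    have : 0 < y := by linarith
    positivity

/-! ### squares -/

lemma p2_near (h : s.ok) (y : ℝ) (hy : y ≤ 2) : s.p y ^ 2 = chi 4 y * s.be0 := by
  rw [p_near y hy, Real.sq_sqrt]
  have : (0 : ℝ) < s.be0 := by exact_mod_cast h.1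
  exact (mul_pos (chi_pos y) this).le

lemma p2_cell (h : s.ok) {q : ℚ × SC} (hq : q ∈ cells 2 s.l) {y : ℝ} (h1 : (q.1 : ℝ) < y)
    (h2 : y ≤ q.2.b) : s.p y ^ 2 = chi 4 y * q.2.be := by
  have hb : (0 : ℝ) < q.2.be := by exact_mod_cast (h.2.2.2.2.2 _ (mem_of_cells hq)).1
  rw [p_cell h hq h1 h2, Real.sq_sqrt]
  exact (mul_pos (chi_pos y) hb).le

/-- `(χ/p)²` -/
lemma q2_near (h : s.ok) (y : ℝ) (hy : y ≤ 2) : (chi 4 y / s.p y) ^ 2 = chi 4 y / s.be0 := by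
  have hb : (0 : ℝ) < s.be0 := by exact_mod_cast h.1
  rw [div_pow, p2_near h y hy]
  have := (chi_pos y).ne'
  field_simp

lemma q2_cell (h : s.ok) {q : ℚ × SC} (hq : q ∈ cells 2 s.l) {y : ℝ} (h1 : (q.1 : ℝ) < y)
    (h2 : y ≤ q.2.b) : (chi 4 y / s.p y) ^ 2 = chi 4 y / q.2.be := by
  have hb : (0 : ℝ) < q.2.be := by exact_mod_cast (h.2.2.2.2.2 _ (mem_of_cells hq)).1
  rw [div_pow, p2_cell h hq h1 h2]
  have := (chi_pos y).ne'
  field_simp

/-! ### the integral -/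

/-- the integrand -/
def SD.f (s : SD) (y : ℝ) : ℝ := (chi 4 y / s.p y * (y ^ 8 * s.R y)) ^ 2

lemma f_measurable : Measurable s.f := by
  unfold SD.f
  exact ((chi_continuous.measurable.div p_measurable).mul
    ((measurable_id.pow_const 8).mul R_measurable)).pow_const 2

lemma f_nonneg (y : ℝ) : 0 ≤ s.f y := by unfold SD.f; positivity

/-- integrability and bound on a bounded interval from a continuous majorant -/
lemma int_of_le {f g : ℝ → ℝ} (hf : Measurable f) (h0 : ∀ y, 0 ≤ f y) {a b : ℝ} (hab : a ≤ b)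
    (hg : Continuous g) (hfg : ∀ y ∈ Ioc a b, f y ≤ g y) :
    IntegrableOn f (Ioc a b) ∧ ∫ y in Ioc a b, f y ≤ ∫ y in a..b, g y := by
  have hgi : IntegrableOn g (Ioc a b) := (hg.integrableOn_Icc).mono_set Ioc_subset_Icc_self
  have hfi : IntegrableOn f (Ioc a b) := by
    refine Integrable.mono' hgi hf.aestronglyMeasurable ?_
    refine (ae_restrict_iff' measurableSet_Ioc).2 (Eventually.of_forall fun y hy => ?_)
    rw [Real.norm_eq_abs, abs_of_nonneg (h0 y)]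
    exact hfg y hy
  refine ⟨hfi, ?_⟩
  rw [intervalIntegral.integral_of_le hab]
  exact setIntegral_mono_on hfi hgi measurableSet_Ioc hfg

lemma int_pow (a b C : ℝ) (n : ℕ) :
    ∫ y in a..b, C * y ^ n = C * ((b ^ (n + 1) - a ^ (n + 1)) / (n + 1)) := by
  rw [intervalIntegral.integral_const_mul, integral_pow]

lemma f_near (h : s.ok) :
    IntegrableOn s.f (Ioc 0 2) ∧
      ∫ y in Ioc (0 : ℝ) 2, s.f y ≤ (s.eps : ℝ) ^ 2 / s.be0 * (2 ^ 21 / 21) := by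
  have hb : (0 : ℝ) < s.be0 := by exact_mod_cast h.1
  have := int_of_le (f := s.f) (g := fun y => (s.eps : ℝ) ^ 2 / s.be0 * y ^ 20)
    f_measurable f_nonneg (a := 0) (b := 2) (by norm_num) (by fun_prop) ?_
  · refine ⟨this.1, this.2.trans (le_of_eq ?_)⟩
    rw [int_pow]; norm_num
  · intro y hy
    unfold SD.f
    rw [mul_pow, q2_near h y hy.2, R_near y hy.2]
    have e : chi 4 y / (s.be0 : ℝ) * (y ^ 8 * (s.eps * y ^ 2)) ^ 2 =
        chi 4 y * ((s.eps : ℝ) ^ 2 / s.be0 * y ^ 20) := by ring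
    rw [e]
    have h2 : 0 ≤ (s.eps : ℝ) ^ 2 / s.be0 * y ^ 20 := by positivity
    calc chi 4 y * ((s.eps : ℝ) ^ 2 / s.be0 * y ^ 20) ≤ 1 * ((s.eps : ℝ) ^ 2 / s.be0 * y ^ 20) :=
          mul_le_mul_of_nonneg_right (chi_le_one y) h2
      _ = _ := one_mul _

lemma f_cell (h : s.ok) {q : ℚ × SC} (hq : q ∈ cells 2 s.l) :
    IntegrableOn s.f (Ioc (q.1 : ℝ) q.2.b) ∧
      ∫ y in Ioc (q.1 : ℝ) q.2.b, s.f y ≤ ((q.2.R ^ 2 / q.2.be * IB q.1 q.2.b : ℚ) : ℝ) := by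
  have hb : (0 : ℝ) < q.2.be := by exact_mod_cast (h.2.2.2.2.2 _ (mem_of_cells hq)).1
  have hlt := cells_lt h.2.2.2.2.1 q hq
  have hab : (q.1 : ℝ) ≤ q.2.b := by exact_mod_cast hlt.2.1.le
  have hf : ∀ y ∈ Ioc (q.1 : ℝ) q.2.b, s.f y = (q.2.R : ℝ) ^ 2 / q.2.be * (chi 4 y * y ^ 16) := by
    intro y hy
    unfold SD.f
    rw [mul_pow, q2_cell h hq hy.1 hy.2, R_cell h hq hy.1 hy.2]
    ring
  have hC : 0 ≤ (q.2.R : ℝ) ^ 2 / q.2.be := by positivity
  have A := int_of_le (f := s.f)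
    (g := fun y => (q.2.R : ℝ) ^ 2 / q.2.be * (16 / (16 + (q.1 : ℝ) ^ 2)) ^ 3 * y ^ 16)
    f_measurable f_nonneg hab (by fun_prop) (by
      intro y hy
      have hy0 : 0 < y := by linarith [hy.1, h.q_ge hq]
      rw [hf y hy]
      have := chi_anti (a := (q.1 : ℝ)) (by linarith [h.q_ge hq]) hy.1.le
      calc (q.2.R : ℝ) ^ 2 / q.2.be * (chi 4 y * y ^ 16)
          ≤ (q.2.R : ℝ) ^ 2 / q.2.be * ((16 / (16 + (q.1 : ℝ) ^ 2)) ^ 3 * y ^ 16) := by
            apply mul_le_mul_of_nonneg_left _ hC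
            exact mul_le_mul_of_nonneg_right this (by positivity)
        _ = _ := by ring)
  have B := int_of_le (f := s.f)
    (g := fun y => (q.2.R : ℝ) ^ 2 / q.2.be * (16 * (q.2.b : ℝ) ^ 2 / (16 + (q.2.b : ℝ) ^ 2)) ^ 3
      * y ^ 10)
    f_measurable f_nonneg hab (by fun_prop) (by
      intro y hy
      have hy0 : 0 < y := by linarith [hy.1, h.q_ge hq]
      rw [hf y hy]
      have := chi_pow6 hy0 hy.2
      calc (q.2.R : ℝ) ^ 2 / q.2.be * (chi 4 y * y ^ 16)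
          = (q.2.R : ℝ) ^ 2 / q.2.be * ((chi 4 y * y ^ 6) * y ^ 10) := by ring
        _ ≤ (q.2.R : ℝ) ^ 2 / q.2.be *
              ((16 * (q.2.b : ℝ) ^ 2 / (16 + (q.2.b : ℝ) ^ 2)) ^ 3 * y ^ 10) := by
            apply mul_le_mul_of_nonneg_left _ hC
            exact mul_le_mul_of_nonneg_right this (by positivity)
        _ = _ := by ring)
  refine ⟨A.1, ?_⟩
  rw [int_pow] at A B
  have hA := A.2
  have hB := B.2
  have key : ((q.2.R ^ 2 / q.2.be * IB q.1 q.2.b : ℚ) : ℝ) =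
      (q.2.R : ℝ) ^ 2 / q.2.be * min ((16 / (16 + (q.1 : ℝ) ^ 2)) ^ 3 *
        (((q.2.b : ℝ) ^ 17 - (q.1 : ℝ) ^ 17) / 17))
        ((16 * (q.2.b : ℝ) ^ 2 / (16 + (q.2.b : ℝ) ^ 2)) ^ 3 *
        (((q.2.b : ℝ) ^ 11 - (q.1 : ℝ) ^ 11) / 11)) := by
    unfold IB
    push_cast
    rfl
  rw [key]
  rcases min_choice ((16 / (16 + (q.1 : ℝ) ^ 2)) ^ 3 *
        (((q.2.b : ℝ) ^ 17 - (q.1 : ℝ) ^ 17) / 17))
        ((16 * (q.2.b : ℝ) ^ 2 / (16 + (q.2.b : ℝ) ^ 2)) ^ 3 *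
        (((q.2.b : ℝ) ^ 11 - (q.1 : ℝ) ^ 11) / 11)) with hm | hm
  · rw [hm]
    refine hA.trans (le_of_eq ?_)
    norm_num
    ring
  · rw [hm]
    refine hB.trans (le_of_eq ?_)
    norm_num
    ring

lemma f_cells {a : ℚ} {l : List SC} {Y : ℚ} {f : ℝ → ℝ} (he : ends a l Y = true)
    (hc : ∀ q ∈ cells a l, IntegrableOn f (Ioc (q.1 : ℝ) q.2.b) ∧
      ∫ y in Ioc (q.1 : ℝ) q.2.b, f y ≤ ((q.2.R ^ 2 / q.2.be * IB q.1 q.2.b : ℚ) : ℝ)) :
    IntegrableOn f (Ioc (a : ℝ) Y) ∧ ∫ y in Ioc (a : ℝ) Y, f y ≤ ((sumB a l : ℚ) : ℝ) := by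
  induction l generalizing a with
  | nil =>
    simp [ends] at he
    subst he
    simp [sumB]
  | cons c l ih =>
    simp only [ends, Bool.and_eq_true, decide_eq_true_eq] at he
    have h1 := hc (a, c) (by simp [cells])
    have h2 := ih he.2 (fun q hq => hc q (by simp [cells, hq]))
    have h3 : Ioc (a : ℝ) Y = Ioc (a : ℝ) c.b ∪ Ioc (c.b : ℝ) Y :=
      (Ioc_union_Ioc_eq_Ioc (by exact_mod_cast he.1.le) (by exact_mod_cast ends_le he.2)).symm
    have hd : Disjoint (Ioc (a : ℝ) c.b) (Ioc (c.b : ℝ) Y) := by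
      rw [Set.disjoint_left]
      intro y hy hy'
      exact absurd hy.2 (not_le.2 hy'.1)
    rw [h3]
    refine ⟨h1.1.union h2.1, ?_⟩
    rw [setIntegral_union hd measurableSet_Ioc h1.1 h2.1]
    have := add_le_add h1.2 h2.2
    refine this.trans (le_of_eq ?_)
    simp only [sumB]
    push_cast
    rfl

lemma f_far (h : s.ok) :
    IntegrableOn s.f (Ioi (s.Y : ℝ)) ∧
      ∫ y in Ioi (s.Y : ℝ), s.f y ≤ (4096 * (s.Rt : ℝ) * s.Y ^ 6 / s.cp) ^ 2 / s.Y := by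
  have hY : (2 : ℝ) ≤ s.Y := h.Y_gtR
  have hc : (0 : ℝ) < s.cp := by exact_mod_cast h.2.2.1
  have hR : (0 : ℝ) ≤ s.Rt := by exact_mod_cast h.2.2.2.1
  set C : ℝ := 4096 * (s.Rt : ℝ) * s.Y ^ 6 / s.cp with hC
  have hC0 : 0 ≤ C := by positivity
  have hle : ∀ y ∈ Ioi (s.Y : ℝ), s.f y ≤ C ^ 2 * y ^ (-2 : ℝ) := by
    intro y hy
    have hy' : (s.Y : ℝ) < y := hy
    have hy0 : 0 < y := by linarith
    unfold SD.f
    rw [p_far h hy', R_far h hy']
    have e : chi 4 y / (s.cp / y ^ 3) * (y ^ 8 * (s.Rt * (s.Y / y) ^ 6)) =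
        (chi 4 y * y ^ 6) * ((s.Rt : ℝ) * s.Y ^ 6 / s.cp) * y⁻¹ := by
      field_simp
    rw [e]
    have h1 : (chi 4 y * y ^ 6) * ((s.Rt : ℝ) * s.Y ^ 6 / s.cp) * y⁻¹ ≤ C * y⁻¹ := by
      apply mul_le_mul_of_nonneg_right _ (by positivity)
      rw [hC]
      calc (chi 4 y * y ^ 6) * ((s.Rt : ℝ) * s.Y ^ 6 / s.cp)
          ≤ 4096 * ((s.Rt : ℝ) * s.Y ^ 6 / s.cp) :=
            mul_le_mul_of_nonneg_right (chi_pow6_lt y) (by positivity)
        _ = _ := by ring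
    have h0 : 0 ≤ (chi 4 y * y ^ 6) * ((s.Rt : ℝ) * s.Y ^ 6 / s.cp) * y⁻¹ := by
      have := (chi_pos y).le
      positivity
    have h2 : y ^ (-2 : ℝ) = (y⁻¹) ^ 2 := by
      rw [Real.rpow_neg hy0.le, inv_pow]
      norm_num
    rw [h2, ← mul_pow]
    exact pow_le_pow_left₀ h0 h1 2
  have hgi : IntegrableOn (fun y : ℝ => C ^ 2 * y ^ (-2 : ℝ)) (Ioi (s.Y : ℝ)) :=
    (integrableOn_Ioi_rpow_of_lt (by norm_num) (by linarith)).const_mul _
  have hfi : IntegrableOn s.f (Ioi (s.Y : ℝ)) := by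
    refine Integrable.mono' hgi f_measurable.aestronglyMeasurable ?_
    refine (ae_restrict_iff' measurableSet_Ioi).2 (Eventually.of_forall fun y hy => ?_)
    rw [Real.norm_eq_abs, abs_of_nonneg (f_nonneg y)]
    exact hle y hy
  refine ⟨hfi, (setIntegral_mono_on hfi hgi measurableSet_Ioi hle).trans (le_of_eq ?_)⟩
  rw [MeasureTheory.integral_const_mul, integral_Ioi_rpow_of_lt (by norm_num) (by linarith)]
  norm_num
  rw [Real.rpow_neg_one]
  rfl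

/-- `R_int` and `R_M` -/
theorem R_M (h : s.ok) {M : ℝ} (hM : ((s.M2 : ℚ) : ℝ) ≤ M ^ 2) :
    IntegrableOn (fun y => (chi 4 y / s.p y * (y ^ 8 * s.R y)) ^ 2) (Ioi 0) ∧
    ∫ y in Ioi (0 : ℝ), (chi 4 y / s.p y * (y ^ 8 * s.R y)) ^ 2 ≤ M ^ 2 := by
  have hY : (2 : ℝ) ≤ s.Y := h.Y_gtR
  have h1 := f_near h
  have h2 := f_cells (f := s.f) h.2.2.2.2.1 (fun q hq => f_cell h hq)
  have h3 := f_far h
  have e1 : Ioi (0 : ℝ) = Ioc 0 2 ∪ (Ioc (2 : ℝ) s.Y ∪ Ioi (s.Y : ℝ)) := by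
    rw [Ioc_union_Ioi_eq_Ioi hY, Ioc_union_Ioi_eq_Ioi (by norm_num)]
  have d1 : Disjoint (Ioc (2 : ℝ) s.Y) (Ioi (s.Y : ℝ)) := by
    rw [Set.disjoint_left]
    intro y hy hy'
    exact absurd hy.2 (not_le.2 hy')
  have d2 : Disjoint (Ioc (0 : ℝ) 2) (Ioc (2 : ℝ) s.Y ∪ Ioi (s.Y : ℝ)) := by
    rw [Ioc_union_Ioi_eq_Ioi hY, Set.disjoint_left]
    intro y hy hy'
    exact absurd hy.2 (not_le.2 hy')
  have c2 : (((2 : ℚ) : ℝ)) = 2 := by norm_num
  rw [c2] at h2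
  have i23 : IntegrableOn s.f (Ioc (2 : ℝ) s.Y ∪ Ioi (s.Y : ℝ)) := h2.1.union h3.1
  change IntegrableOn s.f (Ioi 0) ∧ ∫ y in Ioi (0 : ℝ), s.f y ≤ M ^ 2
  rw [e1]
  refine ⟨h1.1.union i23, ?_⟩
  rw [setIntegral_union d2 (measurableSet_Ioc.union measurableSet_Ioi) h1.1 i23,
    setIntegral_union d1 measurableSet_Ioi h2.1 h3.1]
  have h4 := add_le_add h1.2 (add_le_add h2.2 h3.2)
  refine h4.trans (le_trans (le_of_eq ?_) hM)
  unfold SD.M2
  push_cast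
  ring

end Crest.Agent.R213.E.St
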