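import Crest.Agent.R213.E.EDefs

/-! Row 213, PART E: the tail integrability of `Mid` from the certificate (helper798). -/

set_option autoImplicit false

open Set MeasureTheory Filter Topology

noncomputable section

namespace Crest.Agent.R213.E

/-- general form. -/
theorem tail_int_gen {c C a0 : ℝ} {p g D : ℝ → ℝ} (ha : 0 < a0)
    (hp : ∀ y, 1 ≤ y → a0 ≤ p y * y ^ 3)
    (hg : ContinuousOn g (Ioi 1)) (hD : ContinuousOn D (Ioi 1))
    (ht : ∀ y, 1 ≤ y → |g y - S3 c y| ≤ C / y ^ 8)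
    (hDi : IntegrableOn (fun y => (p y * D y) ^ 2) (Ioi 1)) :
    IntegrableOn (fun y => y ^ 14 * (g y + D y / y ^ 10 - S3 c y) ^ 2) (Ioi 1) := by
  have h2 : IntegrableOn (fun y : ℝ => y ^ (-2 : ℝ)) (Ioi 1) :=
    integrableOn_Ioi_rpow_of_lt (by norm_num) one_pos
  have hdom : IntegrableOn (fun y : ℝ => 2 * C ^ 2 * y ^ (-2 : ℝ) + 2 / a0 ^ 2 * (p y * D y) ^ 2)
      (Ioi 1) := (h2.const_mul _).add (hDi.const_mul _)
  have hne : ∀ y ∈ Ioi (1 : ℝ), y ≠ 0 := fun y hy => (lt_trans one_pos hy).ne'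
  have hS : ContinuousOn (fun y => S3 c y) (Ioi 1) := by
    unfold S3
    have e : ∀ (b : ℝ) (n : ℕ), ContinuousOn (fun y : ℝ => b / y ^ n) (Ioi 1) := fun b n =>
      continuousOn_const.div (continuousOn_id.pow n) fun y hy => pow_ne_zero n (hne y hy)
    exact (((continuousOn_const.add (e _ 2)).add (e _ 4)).add (e _ 6))
  have hcont : ContinuousOn (fun y => y ^ 14 * (g y + D y / y ^ 10 - S3 c y) ^ 2) (Ioi 1) :=
    (continuousOn_id.pow 14).mul (((hg.add (hD.div (continuousOn_id.pow 10)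
      fun y hy => pow_ne_zero 10 (hne y hy))).sub hS).pow 2)
  refine Integrable.mono' hdom (hcont.aestronglyMeasurable measurableSet_Ioi) ?_
  refine (ae_restrict_mem measurableSet_Ioi).mono fun y hy => ?_
  have hy1 : (1 : ℝ) < y := hy
  have hy0 : 0 < y := lt_trans one_pos hy1
  rw [Real.norm_eq_abs, abs_of_nonneg (by positivity)]
  have hr : y ^ (-2 : ℝ) = 1 / y ^ 2 := by
    rw [Real.rpow_neg hy0.le, one_div]
    norm_num
  rw [hr]
  set a := g y - S3 c y with ha'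
  have h8 : 0 < y ^ 8 := by positivity
  have hC : 0 ≤ C / y ^ 8 := le_trans (abs_nonneg _) (ht y hy1.le)
  have e1 : a ^ 2 ≤ (C / y ^ 8) ^ 2 := by
    rw [← sq_abs a]
    exact pow_le_pow_left₀ (abs_nonneg _) (ht y hy1.le) 2
  have e2 : y ^ 14 * (C / y ^ 8) ^ 2 = C ^ 2 * (1 / y ^ 2) := by
    field_simp
  have e3 : y ^ 14 * (D y / y ^ 10) ^ 2 ≤ 1 / a0 ^ 2 * (p y * D y) ^ 2 := by
    have h3 : a0 / y ^ 3 ≤ p y := by
      rw [div_le_iff₀ (by positivity)]; exact hp y hy1.le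
    have h4 : (a0 / y ^ 3) ^ 2 ≤ p y ^ 2 := pow_le_pow_left₀ (by positivity) h3 2
    have h5 : y ^ 14 * (D y / y ^ 10) ^ 2 = 1 / a0 ^ 2 * ((a0 / y ^ 3) ^ 2 * D y ^ 2) := by
      field_simp
    rw [h5, mul_pow]
    exact mul_le_mul_of_nonneg_left (mul_le_mul_of_nonneg_right h4 (sq_nonneg _)) (by positivity)
  have e4 : (g y + D y / y ^ 10 - S3 c y) ^ 2 ≤ 2 * a ^ 2 + 2 * (D y / y ^ 10) ^ 2 := by
    have : g y + D y / y ^ 10 - S3 c y = a + D y / y ^ 10 := by rw [ha']; ring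
    rw [this]
    nlinarith [sq_nonneg (a - D y / y ^ 10)]
  calc y ^ 14 * (g y + D y / y ^ 10 - S3 c y) ^ 2
      ≤ y ^ 14 * (2 * a ^ 2 + 2 * (D y / y ^ 10) ^ 2) :=
        mul_le_mul_of_nonneg_left e4 (by positivity)
    _ = 2 * (y ^ 14 * a ^ 2) + 2 * (y ^ 14 * (D y / y ^ 10) ^ 2) := by ring
    _ ≤ 2 * (y ^ 14 * (C / y ^ 8) ^ 2) + 2 * (1 / a0 ^ 2 * (p y * D y) ^ 2) := by
        have := mul_le_mul_of_nonneg_left e1 (by positivity : (0 : ℝ) ≤ y ^ 14)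
        linarith
    _ = 2 * C ^ 2 * (1 / y ^ 2) + 2 / a0 ^ 2 * (p y * D y) ^ 2 := by rw [e2]; ring

/-- the tail field of `Mid` from the certificate and the `L²` bound of `nl_exists`. -/
theorem tail_int {k : Cst} {p R : ℝ → ℝ} {G G1 G2 G3 : ℝ → ℝ → ℝ} {ψ ψ1 ψ2 ψ3 : ℝ → ℝ}
    (hC : Cert k p R G G1 G2 G3 ψ ψ1 ψ2 ψ3) {c : ℝ} (hc : c ∈ Icc (k.c0 - k.δ) (k.c0 + k.δ))
    {D : ℝ → ℝ} (hD : ContinuousOn D (Ioi 0))
    (hDi : IntegrableOn (fun y => (p y * D y) ^ 2) (Ioi 0)) :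
    IntegrableOn (fun y => y ^ 14 * (G c y + D y / y ^ 10 - S3 c y) ^ 2) (Ioi 1) := by
  obtain ⟨C, ht⟩ := hC.tail c hc
  obtain ⟨a, ha, hp⟩ := hC.p_tail
  have hsub : Ioi (1 : ℝ) ⊆ Ioi 0 := Ioi_subset_Ioi zero_le_one
  exact tail_int_gen ha hp
    (fun y hy => ((hC.G_C3 c hc).d1 y (hsub hy)).continuousAt.continuousWithinAt)
    (hD.mono hsub) ht (hDi.mono_set hsub)

end Crest.Agent.R213.E
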