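import Crest.Agent.R213.E.ZeroLin
import Crest.Agent.R213.ParamInt

/-!
# Row 213, part E: Volterra operator at `0`: gain of one derivative, bootstrap
-/

set_option autoImplicit false

open Set Filter Topology MeasureTheory intervalIntegral

noncomputable section

namespace Crest.Agent.R213.EZ

/-- the kernel of `d/dy (y² ∫ ker φ) = y ∫ ker1 φ`. -/
def ker1 (r : ℝ) : ℝ := 1 / 110 + 9 / 10 * r ^ 10 - 10 / 11 * r ^ 11

lemma ker1_cont : Continuous ker1 := by unfold ker1; fun_prop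

/-- the Volterra operator. -/
def VO (φ : ℝ → ℝ) (y : ℝ) : ℝ := y ^ 2 * ∫ r in (0 : ℝ)..1, ker r * φ (r * y)

lemma mul_mem_sym {ε y r : ℝ} (hy : y ∈ Ioo (-ε) ε) (hr : r ∈ Icc (0 : ℝ) 1) :
    r * y ∈ Ioo (-ε) ε := by
  rcases le_total 0 y with h | h
  · exact ⟨by nlinarith [hy.1, hy.2, hr.1, hr.2, mul_nonneg hr.1 h],
      by nlinarith [hy.1, hy.2, hr.1, hr.2, mul_nonneg hr.1 h]⟩
  · exact ⟨by nlinarith [hy.1, hy.2, hr.1, hr.2, mul_nonneg hr.1 (neg_nonneg.2 h)],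
      by nlinarith [hy.1, hy.2, hr.1, hr.2, mul_nonneg hr.1 (neg_nonneg.2 h)]⟩

/-- parametric integrals keep `C^n`. -/
lemma contDiffOn_avg {φ w : ℝ → ℝ} {ε : ℝ} (n : ℕ) (hw : ContDiff ℝ n w)
    (hφ : ContDiffOn ℝ n φ (Ioo (-ε) ε)) :
    ContDiffOn ℝ n (fun y => ∫ r in (0 : ℝ)..1, w r * φ (r * y)) (Ioo (-ε) ε) := by
  have h := ParamInt.contDiffOn_param_nat (E := ℝ) (V := ℝ) (convex_Ioo (-ε) ε) (uniqueDiffOn_Ioo (-ε) ε)
    (zero_lt_one' ℝ) n (g := fun p : ℝ × ℝ => w p.2 * φ (p.2 * p.1)) (by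
      refine ContDiffOn.mul (hw.comp contDiff_snd).contDiffOn ?_
      refine hφ.comp (by fun_prop) ?_
      rintro ⟨y, r⟩ ⟨hy, hr⟩
      exact mul_mem_sym hy hr)
  exact h

lemma cont_avg {φ w : ℝ → ℝ} {ε : ℝ} (hw : Continuous w) (hφ : ContinuousOn φ (Ioo (-ε) ε)) :
    ContinuousOn (fun y => ∫ r in (0 : ℝ)..1, w r * φ (r * y)) (Ioo (-ε) ε) := by
  have h := contDiffOn_avg (φ := φ) (w := w) (ε := ε) 0 (by exact_mod_cast (contDiff_zero (𝕜 := ℝ)).2 hw)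
    (by exact_mod_cast (contDiffOn_zero (𝕜 := ℝ)).2 hφ)
  exact h.continuousOn

lemma intervalIntegrable_sym {φ : ℝ → ℝ} {ε y : ℝ} (hφ : ContinuousOn φ (Ioo (-ε) ε))
    (hy : y ∈ Ioo (-ε) ε) : IntervalIntegrable φ volume 0 y := by
  apply ContinuousOn.intervalIntegrable
  refine hφ.mono ?_
  have h0 : (0 : ℝ) ∈ Ioo (-ε) ε := ⟨by linarith [hy.1, hy.2], by linarith [hy.1, hy.2]⟩
  exact (convex_Ioo (-ε) ε).ordConnected.uIcc_subset h0 hy

lemma hasDerivAt_prim_sym {φ : ℝ → ℝ} {ε y : ℝ} (hφ : ContinuousOn φ (Ioo (-ε) ε))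
    (hy : y ∈ Ioo (-ε) ε) : HasDerivAt (fun y => ∫ z in (0 : ℝ)..y, φ z) (φ y) y := by
  refine intervalIntegral.integral_hasDerivAt_right (intervalIntegrable_sym hφ hy) ?_ ?_
  · exact hφ.stronglyMeasurableAtFilter isOpen_Ioo y hy
  · exact hφ.continuousAt (isOpen_Ioo.mem_nhds hy)

lemma int_ker_split {φ : ℝ → ℝ} {ε y : ℝ} (hφ : ContinuousOn φ (Ioo (-ε) ε))
    (hy : y ∈ Ioo (-ε) ε) (a b d : ℝ) :
    ∫ r in (0 : ℝ)..1, (a + b * r ^ 10 + d * r ^ 11) * φ (r * y) =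
      a * (∫ r in (0 : ℝ)..1, φ (r * y)) + b * (∫ r in (0 : ℝ)..1, r ^ 10 * φ (r * y)) +
      d * (∫ r in (0 : ℝ)..1, r ^ 11 * φ (r * y)) := by
  have hc : ContinuousOn (fun r => φ (r * y)) (uIcc 0 1) := by
    rw [uIcc_of_le zero_le_one]
    exact hφ.comp (by fun_prop) (fun r hr => mul_mem_sym hy hr)
  have i0 : IntervalIntegrable (fun r => φ (r * y)) volume 0 1 := hc.intervalIntegrable
  have i10 : IntervalIntegrable (fun r => r ^ 10 * φ (r * y)) volume 0 1 :=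
    ContinuousOn.intervalIntegrable (ContinuousOn.mul (by fun_prop) hc)
  have i11 : IntervalIntegrable (fun r => r ^ 11 * φ (r * y)) volume 0 1 :=
    ContinuousOn.intervalIntegrable (ContinuousOn.mul (by fun_prop) hc)
  rw [← intervalIntegral.integral_const_mul, ← intervalIntegral.integral_const_mul,
    ← intervalIntegral.integral_const_mul, ← intervalIntegral.integral_add (i0.const_mul _)
      (i10.const_mul _), ← intervalIntegral.integral_add ((i0.const_mul _).add (i10.const_mul _))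
      (i11.const_mul _)]
  congr 1; ext r; ring

/-- `(y² ∫ ker φ)' = y ∫ ker1 φ`. -/
theorem hasDerivAt_VO {φ : ℝ → ℝ} {ε : ℝ} (hφ : ContinuousOn φ (Ioo (-ε) ε)) {y : ℝ}
    (hy : y ∈ Ioo (-ε) ε) :
    HasDerivAt (VO φ) (y * ∫ r in (0 : ℝ)..1, ker1 r * φ (r * y)) y := by
  rcases eq_or_ne y 0 with rfl | hy0
  · -- at `0`
    rw [zero_mul]
    have hc : ContinuousAt (fun y => ∫ r in (0 : ℝ)..1, ker r * φ (r * y)) 0 :=
      (cont_avg ker_cont hφ).continuousAt (isOpen_Ioo.mem_nhds hy)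
    have : HasDerivAt (fun y : ℝ => y * (y * ∫ r in (0 : ℝ)..1, ker r * φ (r * y)))
        (0 * ∫ r in (0 : ℝ)..1, ker r * φ (r * 0)) 0 := by
      have hd : HasDerivAt (fun y : ℝ => y * (y * ∫ r in (0 : ℝ)..1, ker r * φ (r * y)))
        ((0 : ℝ) * ∫ r in (0 : ℝ)..1, ker r * φ (r * 0)) 0 := by
        rw [hasDerivAt_iff_tendsto_slope]
        have h1 : Tendsto (fun y : ℝ => y * ∫ r in (0 : ℝ)..1, ker r * φ (r * y)) (𝓝[≠] 0)
            (𝓝 (0 * ∫ r in (0 : ℝ)..1, ker r * φ (r * 0))) :=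
          ((continuousAt_id.mul hc).tendsto).mono_left nhdsWithin_le_nhds
        refine h1.congr' ?_
        filter_upwards [self_mem_nhdsWithin] with z hz
        have hz' : z ≠ 0 := hz
        rw [slope_def_field]
        field_simp
        ring
      exact hd
    rw [zero_mul] at this
    refine this.congr_of_eventuallyEq (Eventually.of_forall fun z => ?_)
    simp only [VO]; ring
  · -- away from `0`
    have hev : VO φ =ᶠ[𝓝 y] fun y => (1 / 110) * (y * ∫ z in (0 : ℝ)..y, φ z) -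
        (1 / 10) * ((∫ z in (0 : ℝ)..y, z ^ 10 * φ z) / y ^ 9) +
        (1 / 11) * ((∫ z in (0 : ℝ)..y, z ^ 11 * φ z) / y ^ 10) := by
      filter_upwards [isOpen_Ioo.mem_nhds hy, isOpen_ne.mem_nhds hy0] with z hz hz0
      have hz0' : z ≠ 0 := hz0
      have s0 := scale_int φ hz0' 0
      simp only [pow_zero, one_mul, zero_add, pow_one] at s0
      rw [s0, scale_int φ hz0' 10, scale_int φ hz0' 11]
      have := int_ker_split hφ hz (1 / 110) (-1 / 10) (1 / 11)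
      have e : ∫ r in (0 : ℝ)..1, ker r * φ (r * z) =
          ∫ r in (0 : ℝ)..1, (1 / 110 + -1 / 10 * r ^ 10 + 1 / 11 * r ^ 11) * φ (r * z) := by
        congr 1; ext r; unfold ker; ring
      unfold VO
      rw [e, this]
      field_simp
      ring
    refine HasDerivAt.congr_of_eventuallyEq ?_ hev
    have hc10 : ContinuousOn (fun z => z ^ 10 * φ z) (Ioo (-ε) ε) := by fun_prop
    have hc11 : ContinuousOn (fun z => z ^ 11 * φ z) (Ioo (-ε) ε) := by fun_prop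
    have d0 := ((hasDerivAt_id y).mul (hasDerivAt_prim_sym hφ hy)).const_mul (1 / 110)
    have d1 := ((hasDerivAt_prim_sym hc10 hy).div ((hasDerivAt_id y).pow 9)
      (pow_ne_zero 9 hy0)).const_mul (1 / 10)
    have d2 := ((hasDerivAt_prim_sym hc11 hy).div ((hasDerivAt_id y).pow 10)
      (pow_ne_zero 10 hy0)).const_mul (1 / 11)
    refine ((d0.sub d1).add d2).congr_deriv ?_
    have e : ∫ r in (0 : ℝ)..1, ker1 r * φ (r * y) =
        ∫ r in (0 : ℝ)..1, (1 / 110 + 9 / 10 * r ^ 10 + -10 / 11 * r ^ 11) * φ (r * y) := by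
      congr 1; ext r; unfold ker1; ring
    rw [e, int_ker_split hφ hy]
    have s0 := scale_int φ hy0 0
    simp only [pow_zero, one_mul, zero_add, pow_one] at s0
    simp only [id, Pi.pow_apply]
    rw [s0, scale_int φ hy0 10, scale_int φ hy0 11]
    field_simp
    ring

/-- `φ ∈ C^n ⇒ VO φ ∈ C^{n+1}`. -/
theorem contDiffOn_VO {φ : ℝ → ℝ} {ε : ℝ} (n : ℕ) (hφ : ContDiffOn ℝ n φ (Ioo (-ε) ε)) :
    ContDiffOn ℝ (n + 1 : ℕ) (VO φ) (Ioo (-ε) ε) := by
  have hc := hφ.continuousOn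
  have hd : ∀ y ∈ Ioo (-ε) ε, deriv (VO φ) y = y * ∫ r in (0 : ℝ)..1, ker1 r * φ (r * y) :=
    fun y hy => (hasDerivAt_VO hc hy).deriv
  push_cast
  rw [contDiffOn_succ_iff_deriv_of_isOpen isOpen_Ioo]
  refine ⟨fun y hy => (hasDerivAt_VO hc hy).differentiableAt.differentiableWithinAt,
    by simp, ?_⟩
  have h1 : ContDiffOn ℝ n (fun y => y * ∫ r in (0 : ℝ)..1, ker1 r * φ (r * y)) (Ioo (-ε) ε) :=
    contDiffOn_id.mul (contDiffOn_avg n (by unfold ker1; fun_prop) hφ)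
  exact h1.congr hd

/-- Bootstrap: a continuous solution of `u = αy + VO (Ψ ∘ u)` on `(-ε,ε)` is `C^∞`. -/
theorem boot {u Ψ : ℝ → ℝ} {ε α : ℝ} (hΨ : ContDiff ℝ (⊤ : ℕ∞) Ψ)
    (hu : ContinuousOn u (Ioo (-ε) ε))
    (he : ∀ y ∈ Ioo (-ε) ε, u y = α * y + VO (fun z => Ψ (u z)) y) :
    ContDiffOn ℝ (⊤ : ℕ∞) u (Ioo (-ε) ε) := by
  rw [contDiffOn_infty]
  intro n
  induction n with
  | zero => exact_mod_cast (contDiffOn_zero (𝕜 := ℝ)).2 hu
  | succ n ih =>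
    have h1 : ContDiffOn ℝ n (fun z => Ψ (u z)) (Ioo (-ε) ε) :=
      (hΨ.of_le (by exact_mod_cast le_top)).comp_contDiffOn ih
    have h2 : ContDiffOn ℝ (n + 1 : ℕ) (fun y => α * y + VO (fun z => Ψ (u z)) y) (Ioo (-ε) ε) :=
      (contDiffOn_const.mul contDiffOn_id).add (contDiffOn_VO n h1)
    exact h2.congr he

end Crest.Agent.R213.EZ
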