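import Crest.Agent.R213.E.ZeroBoot

/-!
# Row 213, part E: contraction on `[-ε, ε]` and smooth extension through `0`
-/

set_option autoImplicit false

open Set Filter Topology MeasureTheory intervalIntegral
open scoped BoundedContinuousFunction NNReal

noncomputable section

namespace Crest.Agent.R213.EZ

lemma ker_abs {r : ℝ} (hr : r ∈ Icc (0 : ℝ) 1) : |ker r| ≤ 1 / 4 := by
  have h10 : r ^ 10 ≤ 1 := pow_le_one₀ hr.1 hr.2
  have h11 : r ^ 11 ≤ 1 := pow_le_one₀ hr.1 hr.2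
  have h10' : 0 ≤ r ^ 10 := pow_nonneg hr.1 10
  have h11' : 0 ≤ r ^ 11 := pow_nonneg hr.1 11
  unfold ker
  rw [abs_le]; constructor <;> linarith

/-- clip to `[-ε, ε]`. -/
def clip (ε y : ℝ) : ℝ := max (-ε) (min ε y)

lemma clip_cont (ε : ℝ) : Continuous (clip ε) := by unfold clip; fun_prop

lemma clip_eq {ε y : ℝ} (hy : y ∈ Icc (-ε) ε) : clip ε y = y := by
  unfold clip; rw [min_eq_right hy.2, max_eq_right hy.1]

lemma clip_mem {ε : ℝ} (hε : 0 ≤ ε) (y : ℝ) : clip ε y ∈ Icc (-ε) ε := by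
  unfold clip
  exact ⟨le_max_left _ _, max_le (by linarith) (min_le_left _ _)⟩

lemma clip_sq {ε : ℝ} (hε : 0 ≤ ε) (y : ℝ) : clip ε y ^ 2 ≤ ε ^ 2 := by
  have := clip_mem hε y
  exact sq_le_sq' (by linarith [this.1]) this.2

/-- the integral operator inside. -/
def IO (Ψ : ℝ → ℝ) (ε : ℝ) (u : ℝ → ℝ) (y : ℝ) : ℝ :=
  ∫ r in (0 : ℝ)..1, ker r * Ψ (u (r * clip ε y))

lemma IO_cont {Ψ : ℝ → ℝ} (hΨ : Continuous Ψ) (ε : ℝ) {u : ℝ → ℝ} (hu : Continuous u) :
    Continuous (IO Ψ ε u) := by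
  unfold IO
  refine intervalIntegral.continuous_parametric_intervalIntegral_of_continuous' ?_ 0 1
  have := clip_cont ε
  have := ker_cont
  fun_prop

lemma IO_bdd {Ψ : ℝ → ℝ} {B : ℝ} (hB : ∀ v, |Ψ v| ≤ B) (ε : ℝ) (u : ℝ → ℝ) (y : ℝ) :
    |IO Ψ ε u y| ≤ B := by
  have hB0 : 0 ≤ B := (abs_nonneg _).trans (hB 0)
  have := intervalIntegral.norm_integral_le_of_norm_le_const (a := 0) (b := 1) (C := B)
    (f := fun r => ker r * Ψ (u (r * clip ε y))) (by
      intro r hr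
      rw [uIoc_of_le zero_le_one] at hr
      rw [Real.norm_eq_abs, abs_mul]
      calc |ker r| * |Ψ (u (r * clip ε y))| ≤ 1 / 4 * B :=
            mul_le_mul (ker_abs ⟨hr.1.le, hr.2⟩) (hB _) (abs_nonneg _) (by norm_num)
        _ ≤ B := by linarith)
  simpa [IO] using this

lemma IO_diff {Ψ : ℝ → ℝ} (hΨ : Continuous Ψ) {K : ℝ≥0} (hK : LipschitzWith K Ψ) (ε : ℝ)
    {u v : ℝ → ℝ} (hu : Continuous u) (hv : Continuous v) {M : ℝ}
    (hM : ∀ y, |u y - v y| ≤ M) (y : ℝ) :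
    |IO Ψ ε u y - IO Ψ ε v y| ≤ K * M / 4 := by
  have hM0 : 0 ≤ M := (abs_nonneg _).trans (hM 0)
  have hcu : Continuous fun r => ker r * Ψ (u (r * clip ε y)) := by
    have := ker_cont; fun_prop
  have hcv : Continuous fun r => ker r * Ψ (v (r * clip ε y)) := by
    have := ker_cont; fun_prop
  unfold IO
  rw [← intervalIntegral.integral_sub (hcu.intervalIntegrable _ _) (hcv.intervalIntegrable _ _)]
  have := intervalIntegral.norm_integral_le_of_norm_le_const (a := 0) (b := 1) (C := K * M / 4)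
    (f := fun r => ker r * Ψ (u (r * clip ε y)) - ker r * Ψ (v (r * clip ε y))) (by
      intro r hr
      rw [uIoc_of_le zero_le_one] at hr
      rw [Real.norm_eq_abs, ← mul_sub, abs_mul]
      have h1 : |Ψ (u (r * clip ε y)) - Ψ (v (r * clip ε y))| ≤ K * M := by
        have := hK.dist_le_mul (u (r * clip ε y)) (v (r * clip ε y))
        rw [Real.dist_eq, Real.dist_eq] at this
        exact this.trans (mul_le_mul_of_nonneg_left (hM _) K.coe_nonneg)
      calc |ker r| * |Ψ (u (r * clip ε y)) - Ψ (v (r * clip ε y))| ≤ 1 / 4 * (K * M) :=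
            mul_le_mul (ker_abs ⟨hr.1.le, hr.2⟩) h1 (abs_nonneg _) (by norm_num)
        _ = K * M / 4 := by ring)
  simpa using this

/-- Existence of a continuous solution on `[-ε, ε]`. -/
theorem exists_fix {Ψ : ℝ → ℝ} (hΨ : Continuous Ψ) {K : ℝ≥0} (hK : LipschitzWith K Ψ) {B : ℝ}
    (hB : ∀ v, |Ψ v| ≤ B) (α : ℝ) {ε : ℝ} (hε : 0 < ε) (hεK : ε ^ 2 * K ≤ 1) :
    ∃ u : ℝ → ℝ, Continuous u ∧
      ∀ y ∈ Icc (-ε) ε, u y = α * y + VO (fun z => Ψ (u z)) y := by
  classical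
  let T : (ℝ →ᵇ ℝ) → (ℝ →ᵇ ℝ) := fun u =>
    BoundedContinuousFunction.ofNormedAddCommGroup
      (fun y => α * clip ε y + clip ε y ^ 2 * IO Ψ ε u y)
      (by
        have := clip_cont ε
        have := IO_cont hΨ ε u.continuous
        fun_prop)
      (|α| * ε + ε ^ 2 * B) (by
        intro y
        have h1 : |clip ε y| ≤ ε := abs_le.2 ⟨(clip_mem hε.le y).1, (clip_mem hε.le y).2⟩
        have hB0 : 0 ≤ B := (abs_nonneg _).trans (hB 0)
        calc ‖α * clip ε y + clip ε y ^ 2 * IO Ψ ε u y‖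
            ≤ ‖α * clip ε y‖ + ‖clip ε y ^ 2 * IO Ψ ε u y‖ := norm_add_le _ _
          _ ≤ |α| * ε + ε ^ 2 * B := by
            rw [Real.norm_eq_abs, Real.norm_eq_abs, abs_mul, abs_mul,
              abs_of_nonneg (sq_nonneg (clip ε y))]
            exact add_le_add (mul_le_mul_of_nonneg_left h1 (abs_nonneg _))
              (mul_le_mul (clip_sq hε.le y) (IO_bdd hB ε u y) (abs_nonneg _) (sq_nonneg _)))
  have hT : ContractingWith (1 / 4) T := by
    refine ⟨by norm_num, LipschitzWith.of_dist_le_mul fun u v => ?_⟩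
    rw [BoundedContinuousFunction.dist_le (by positivity)]
    intro y
    have hd : ∀ z, |u z - v z| ≤ dist u v := fun z => by
      have := BoundedContinuousFunction.dist_coe_le_dist (f := u) (g := v) z
      rwa [Real.dist_eq] at this
    have h2 := IO_diff hΨ hK ε u.continuous v.continuous hd y
    show dist (α * clip ε y + clip ε y ^ 2 * IO Ψ ε u y)
      (α * clip ε y + clip ε y ^ 2 * IO Ψ ε v y) ≤ _
    rw [Real.dist_eq]
    have e : α * clip ε y + clip ε y ^ 2 * IO Ψ ε u y -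
      (α * clip ε y + clip ε y ^ 2 * IO Ψ ε v y) =
        clip ε y ^ 2 * (IO Ψ ε u y - IO Ψ ε v y) := by ring
    rw [e, abs_mul, abs_of_nonneg (sq_nonneg (clip ε y))]
    have hdn : 0 ≤ dist u v := dist_nonneg
    calc clip ε y ^ 2 * |IO Ψ ε u y - IO Ψ ε v y| ≤ ε ^ 2 * (K * dist u v / 4) :=
          mul_le_mul (clip_sq hε.le y) h2 (abs_nonneg _) (sq_nonneg _)
      _ = (ε ^ 2 * K) * dist u v / 4 := by ring
      _ ≤ 1 * dist u v / 4 := by
          have := mul_le_mul_of_nonneg_right hεK hdn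
          linarith
      _ = ((1 / 4 : ℝ≥0) : ℝ) * dist u v := by push_cast; ring
  have hfix : T (ContractingWith.fixedPoint T hT) = ContractingWith.fixedPoint T hT :=
    hT.fixedPoint_isFixedPt
  obtain ⟨u, hu⟩ : ∃ u : ℝ →ᵇ ℝ, T u = u := ⟨_, hfix⟩
  refine ⟨fun y => u y, u.continuous, ?_⟩
  intro y hy
  have h : T u y = u y := congrArg (fun f : ℝ →ᵇ ℝ => f y) hu
  have h' : α * clip ε y + clip ε y ^ 2 * IO Ψ ε u y = u y := h
  unfold IO at h'
  rw [clip_eq hy] at h'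
  exact h'.symm

/-- Uniqueness on `(0, ε]` in the class of bounded continuous solutions. -/
theorem fix_unique {Ψ : ℝ → ℝ} (hΨ : Continuous Ψ) {K : ℝ≥0} (hK : LipschitzWith K Ψ) {α ε : ℝ}
    (hεK : ε ^ 2 * K ≤ 1) {u v : ℝ → ℝ} {M : ℝ}
    (hu : ContinuousOn u (Ioc 0 ε)) (hv : ContinuousOn v (Ioc 0 ε))
    (hbu : ∀ y ∈ Ioc 0 ε, |u y| ≤ M) (hbv : ∀ y ∈ Ioc 0 ε, |v y| ≤ M)
    (heu : ∀ y ∈ Ioc 0 ε, u y = α * y + VO (fun z => Ψ (u z)) y)
    (hev : ∀ y ∈ Ioc 0 ε, v y = α * y + VO (fun z => Ψ (v z)) y) :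
    ∀ y ∈ Ioc 0 ε, u y = v y := by
  have hstep : ∀ D : ℝ, (∀ y ∈ Ioc 0 ε, |u y - v y| ≤ D) → ∀ y ∈ Ioc 0 ε, |u y - v y| ≤ D / 4 := by
    intro D hD y hy
    have hD0 : 0 ≤ D := (abs_nonneg _).trans (hD y hy)
    have hmem : ∀ r ∈ Ioc (0 : ℝ) 1, r * y ∈ Ioc 0 ε := fun r hr =>
      ⟨mul_pos hr.1 hy.1, by nlinarith [hr.1, hr.2, hy.1, hy.2]⟩
    have hint : ∀ w : ℝ → ℝ, ContinuousOn w (Ioc 0 ε) → (∀ y ∈ Ioc 0 ε, |w y| ≤ M) →
        IntervalIntegrable (fun r => ker r * Ψ (w (r * y))) volume 0 1 := by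
      intro w hw hbw
      rw [intervalIntegrable_iff_integrableOn_Ioc_of_le zero_le_one]
      obtain ⟨C, hC⟩ := (isCompact_Icc (a := -M) (b := M)).exists_bound_of_continuousOn
        hΨ.continuousOn
      refine Integrable.of_bound (C := 1 / 4 * C) ?_ ?_
      · have hcc : ContinuousOn (fun r => ker r * Ψ (w (r * y))) (Ioc 0 1) :=
          ker_cont.continuousOn.mul (hΨ.comp_continuousOn (hw.comp (by fun_prop) hmem))
        exact hcc.aestronglyMeasurable measurableSet_Ioc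
      · refine (ae_restrict_iff' measurableSet_Ioc).2 (Eventually.of_forall fun r hr => ?_)
        rw [norm_mul]
        exact mul_le_mul (by simpa using ker_abs ⟨hr.1.le, hr.2⟩)
          (hC _ (abs_le.1 (hbw _ (hmem r hr)))) (norm_nonneg _) (by norm_num)
    rw [heu y hy, hev y hy]
    unfold VO
    have e : α * y + y ^ 2 * (∫ r in (0 : ℝ)..1, ker r * Ψ (u (r * y))) -
        (α * y + y ^ 2 * ∫ r in (0 : ℝ)..1, ker r * Ψ (v (r * y))) =
        y ^ 2 * ((∫ r in (0 : ℝ)..1, ker r * Ψ (u (r * y))) -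
          ∫ r in (0 : ℝ)..1, ker r * Ψ (v (r * y))) := by ring
    rw [e, ← intervalIntegral.integral_sub (hint u hu hbu) (hint v hv hbv), abs_mul,
      abs_of_nonneg (sq_nonneg y)]
    have h2 := intervalIntegral.norm_integral_le_of_norm_le_const (a := 0) (b := 1)
      (C := K * D / 4)
      (f := fun r => ker r * Ψ (u (r * y)) - ker r * Ψ (v (r * y))) (by
        intro r hr
        rw [uIoc_of_le zero_le_one] at hr
        rw [Real.norm_eq_abs, ← mul_sub, abs_mul]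
        have h1 : |Ψ (u (r * y)) - Ψ (v (r * y))| ≤ K * D := by
          have := hK.dist_le_mul (u (r * y)) (v (r * y))
          rw [Real.dist_eq, Real.dist_eq] at this
          exact this.trans (mul_le_mul_of_nonneg_left (hD _ (hmem r hr)) K.coe_nonneg)
        calc |ker r| * |Ψ (u (r * y)) - Ψ (v (r * y))| ≤ 1 / 4 * (K * D) :=
              mul_le_mul (ker_abs ⟨hr.1.le, hr.2⟩) h1 (abs_nonneg _) (by norm_num)
          _ = K * D / 4 := by ring)
    have h3 : |∫ r in (0 : ℝ)..1, (ker r * Ψ (u (r * y)) - ker r * Ψ (v (r * y)))| ≤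
        K * D / 4 := by simpa using h2
    have hy2 : y ^ 2 ≤ ε ^ 2 := pow_le_pow_left₀ hy.1.le hy.2 2
    calc y ^ 2 * |∫ r in (0 : ℝ)..1, (ker r * Ψ (u (r * y)) - ker r * Ψ (v (r * y)))|
        ≤ ε ^ 2 * (K * D / 4) := mul_le_mul hy2 h3 (abs_nonneg _) (sq_nonneg _)
      _ = (ε ^ 2 * K) * D / 4 := by ring
      _ ≤ 1 * D / 4 := by
          have := mul_le_mul_of_nonneg_right hεK hD0
          linarith
      _ = D / 4 := by ring
  have hall : ∀ n : ℕ, ∀ y ∈ Ioc 0 ε, |u y - v y| ≤ (2 * M) * (1 / 4) ^ n := by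
    intro n
    induction n with
    | zero =>
      intro y hy
      have h1 := hbu y hy
      have h2 := hbv y hy
      have h3 := abs_sub (u y) (v y)
      simp only [pow_zero, mul_one]
      linarith
    | succ n ih =>
      intro y hy
      have := hstep _ ih y hy
      rw [pow_succ]; linarith
  intro y hy
  have hlim : Tendsto (fun n : ℕ => (2 * M) * (1 / 4 : ℝ) ^ n) atTop (𝓝 ((2 * M) * 0)) :=
    (tendsto_pow_atTop_nhds_zero_of_lt_one (by norm_num) (by norm_num)).const_mul _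
  rw [mul_zero] at hlim
  have : |u y - v y| ≤ 0 := ge_of_tendsto' hlim (fun n => hall n y hy)
  exact sub_eq_zero.1 (abs_eq_zero.1 (le_antisymm this (abs_nonneg _)))

end Crest.Agent.R213.EZ
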