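import Mathlib

/-!
# Row 213, part E: linear theory at `y = 0`

`P(θ) = (θ-1)(θ+9)(θ+10)`, `θ = y d/dy`; in ordinary derivatives
`P(θ) u = y³u''' + 21y²u'' + 90yu' - 90u`.
-/

set_option autoImplicit false

open Set Filter Topology MeasureTheory intervalIntegral

noncomputable section

namespace Crest.Agent.R213.EZ

/-- the kernel `1/110 - r¹⁰/10 + r¹¹/11`. -/
def ker (r : ℝ) : ℝ := 1 / 110 - r ^ 10 / 10 + r ^ 11 / 11

lemma ker_cont : Continuous ker := by unfold ker; fun_prop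

/-- scaling substitution. -/
lemma scale_int (φ : ℝ → ℝ) {y : ℝ} (hy : y ≠ 0) (n : ℕ) :
    ∫ z in (0 : ℝ)..y, z ^ n * φ z = y ^ (n + 1) * ∫ r in (0 : ℝ)..1, r ^ n * φ (r * y) := by
  have h := intervalIntegral.integral_comp_mul_right (a := 0) (b := 1)
    (fun z => z ^ n * φ z) hy
  simp only [zero_mul, one_mul, smul_eq_mul] at h
  have h2 : ∫ r in (0 : ℝ)..1, (r * y) ^ n * φ (r * y) =
      y ^ n * ∫ r in (0 : ℝ)..1, r ^ n * φ (r * y) := by
    rw [← intervalIntegral.integral_const_mul]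
    congr 1; ext r; ring
  rw [h2] at h
  have : y * (y ^ n * ∫ r in (0 : ℝ)..1, r ^ n * φ (r * y)) = ∫ z in (0 : ℝ)..y, z ^ n * φ z := by
    rw [h]; field_simp
  rw [← this]; ring

/-- bounded and continuous on `(0,Y)` implies interval integrable on `[0,y]`, `y < Y`. -/
lemma intervalIntegrable_of_bdd {φ : ℝ → ℝ} {Y M : ℝ} (hc : ContinuousOn φ (Ioo 0 Y))
    (hb : ∀ y ∈ Ioo 0 Y, |φ y| ≤ M) {y : ℝ} (hy : y ∈ Ioo 0 Y) :
    IntervalIntegrable φ volume 0 y := by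
  rw [intervalIntegrable_iff_integrableOn_Ioo_of_le hy.1.le]
  have hsub : Ioo 0 y ⊆ Ioo 0 Y := fun z hz => ⟨hz.1, hz.2.trans hy.2⟩
  refine Integrable.of_bound (C := M) ?_ ?_
  · exact (hc.mono hsub).aestronglyMeasurable measurableSet_Ioo
  · refine (ae_restrict_iff' measurableSet_Ioo).2 (Eventually.of_forall fun z hz => ?_)
    simpa using hb z (hsub hz)

lemma hasDerivAt_prim {φ : ℝ → ℝ} {Y M : ℝ} (hc : ContinuousOn φ (Ioo 0 Y))
    (hb : ∀ y ∈ Ioo 0 Y, |φ y| ≤ M) {y : ℝ} (hy : y ∈ Ioo 0 Y) :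
    HasDerivAt (fun y => ∫ z in (0 : ℝ)..y, φ z) (φ y) y := by
  refine intervalIntegral.integral_hasDerivAt_right (intervalIntegrable_of_bdd hc hb hy) ?_ ?_
  · exact hc.stronglyMeasurableAtFilter isOpen_Ioo y hy
  · exact hc.continuousAt (isOpen_Ioo.mem_nhds hy)

/-- a function with zero derivative on `(0,Y)` is constant there. -/
lemma const_of_deriv {f : ℝ → ℝ} {Y : ℝ} (h : ∀ y ∈ Ioo 0 Y, HasDerivAt f 0 y) :
    ∃ C, ∀ y ∈ Ioo 0 Y, f y = C := by
  by_cases hY : (Ioo 0 Y).Nonempty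
  · obtain ⟨y0, hy0⟩ := hY
    refine ⟨f y0, fun y hy => ?_⟩
    have hd : DifferentiableOn ℝ f (Ioo 0 Y) := fun z hz => (h z hz).differentiableAt.differentiableWithinAt
    exact isOpen_Ioo.is_const_of_deriv_eq_zero isPreconnected_Ioo hd
      (fun z hz => (h z hz).deriv) hy hy0
  · exact ⟨0, fun y hy => absurd ⟨y, hy⟩ hY⟩

/-- **Representation** of solutions of `P(θ)u = y²φ` on `(0,Y)` with `φ` bounded. -/
theorem rep {u u1 u2 u3 φ : ℝ → ℝ} {Y M : ℝ}
    (h0 : ∀ y ∈ Ioo 0 Y, HasDerivAt u (u1 y) y) (h1 : ∀ y ∈ Ioo 0 Y, HasDerivAt u1 (u2 y) y)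
    (h2 : ∀ y ∈ Ioo 0 Y, HasDerivAt u2 (u3 y) y)
    (hc : ContinuousOn φ (Ioo 0 Y)) (hb : ∀ y ∈ Ioo 0 Y, |φ y| ≤ M)
    (hode : ∀ y ∈ Ioo 0 Y,
      y ^ 3 * u3 y + 21 * y ^ 2 * u2 y + 90 * y * u1 y - 90 * u y = y ^ 2 * φ y) :
    ∃ α κ9 κ10 : ℝ,
      (∀ y ∈ Ioo 0 Y, y ^ 2 * u2 y + 20 * y * u1 y + 90 * u y =
        y * (110 * α + ∫ z in (0 : ℝ)..y, φ z)) ∧
      (∀ y ∈ Ioo 0 Y, y ^ 9 * (y ^ 2 * u2 y + 10 * y * u1 y - 10 * u y) =
        -10 * κ9 + ∫ z in (0 : ℝ)..y, z ^ 10 * φ z) ∧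
      (∀ y ∈ Ioo 0 Y, y ^ 10 * (y ^ 2 * u2 y + 9 * y * u1 y - 9 * u y) =
        11 * κ10 + ∫ z in (0 : ℝ)..y, z ^ 11 * φ z) ∧
      ∀ y ∈ Ioo 0 Y, u y = α * y + κ9 / y ^ 9 + κ10 / y ^ 10 +
        y ^ 2 * ∫ r in (0 : ℝ)..1, ker r * φ (r * y) := by
  have hbn : ∀ n : ℕ, ∃ Mn, ∀ y ∈ Ioo 0 Y, |y ^ n * φ y| ≤ Mn := by
    intro n
    refine ⟨Y ^ n * M, fun y hy => ?_⟩
    rw [abs_mul, abs_of_pos (pow_pos hy.1 n)]
    have h1 : y ^ n ≤ Y ^ n := pow_le_pow_left₀ hy.1.le hy.2.le n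
    have hM : 0 ≤ M := (abs_nonneg _).trans (hb y hy)
    exact mul_le_mul h1 (hb y hy) (abs_nonneg _) (pow_nonneg (hy.1.le.trans hy.2.le) n)
  have hcn : ∀ n : ℕ, ContinuousOn (fun y => y ^ n * φ y) (Ioo 0 Y) := fun n => by fun_prop
  obtain ⟨M10, hM10⟩ := hbn 10
  obtain ⟨M11, hM11⟩ := hbn 11
  -- a / y
  obtain ⟨Ca, hCa⟩ := const_of_deriv (Y := Y)
    (f := fun y => (y ^ 2 * u2 y + 20 * y * u1 y + 90 * u y) / y - ∫ z in (0 : ℝ)..y, φ z) (by
      intro y hy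
      have hy0 : y ≠ 0 := hy.1.ne'
      have e := ((((((hasDerivAt_id y).pow 2).mul (h2 y hy)).add
        (((hasDerivAt_id y).const_mul 20).mul (h1 y hy))).add
          ((h0 y hy).const_mul 90)).div (hasDerivAt_id y) hy0).sub (hasDerivAt_prim hc hb hy)
      refine e.congr_deriv ?_
      have := hode y hy
      simp only [id, Pi.pow_apply, Pi.mul_apply, Pi.add_apply]
      field_simp
      ring_nf
      ring_nf at this
      linear_combination this)
  obtain ⟨Cb, hCb⟩ := const_of_deriv (Y := Y)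
    (f := fun y => y ^ 9 * (y ^ 2 * u2 y + 10 * y * u1 y - 10 * u y) -
      ∫ z in (0 : ℝ)..y, z ^ 10 * φ z) (by
      intro y hy
      have e := (((hasDerivAt_id y).pow 9).mul
        (((((hasDerivAt_id y).pow 2).mul (h2 y hy)).add
        (((hasDerivAt_id y).const_mul 10).mul (h1 y hy))).sub
          ((h0 y hy).const_mul 10))).sub (hasDerivAt_prim (hcn 10) hM10 hy)
      refine e.congr_deriv ?_
      have := hode y hy
      simp only [id, Pi.pow_apply, Pi.mul_apply, Pi.add_apply, Pi.sub_apply]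
      ring_nf
      ring_nf at this
      linear_combination y ^ 8 * this)
  obtain ⟨Cd, hCd⟩ := const_of_deriv (Y := Y)
    (f := fun y => y ^ 10 * (y ^ 2 * u2 y + 9 * y * u1 y - 9 * u y) -
      ∫ z in (0 : ℝ)..y, z ^ 11 * φ z) (by
      intro y hy
      have e := (((hasDerivAt_id y).pow 10).mul
        (((((hasDerivAt_id y).pow 2).mul (h2 y hy)).add
        (((hasDerivAt_id y).const_mul 9).mul (h1 y hy))).sub
          ((h0 y hy).const_mul 9))).sub (hasDerivAt_prim (hcn 11) hM11 hy)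
      refine e.congr_deriv ?_
      have := hode y hy
      simp only [id, Pi.pow_apply, Pi.mul_apply, Pi.add_apply, Pi.sub_apply]
      ring_nf
      ring_nf at this
      linear_combination y ^ 9 * this)
  have ea : ∀ y ∈ Ioo 0 Y, y ^ 2 * u2 y + 20 * y * u1 y + 90 * u y =
      y * (110 * (Ca / 110) + ∫ z in (0 : ℝ)..y, φ z) := by
    intro y hy
    have hy0 : y ≠ 0 := hy.1.ne'
    have := hCa y hy
    rw [sub_eq_iff_eq_add, div_eq_iff hy0] at this
    rw [this]; ring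
  have eb : ∀ y ∈ Ioo 0 Y, y ^ 9 * (y ^ 2 * u2 y + 10 * y * u1 y - 10 * u y) =
      -10 * (-Cb / 10) + ∫ z in (0 : ℝ)..y, z ^ 10 * φ z := by
    intro y hy
    have := hCb y hy
    linear_combination this
  have ed : ∀ y ∈ Ioo 0 Y, y ^ 10 * (y ^ 2 * u2 y + 9 * y * u1 y - 9 * u y) =
      11 * (Cd / 11) + ∫ z in (0 : ℝ)..y, z ^ 11 * φ z := by
    intro y hy
    have := hCd y hy
    linear_combination this
  refine ⟨Ca / 110, -Cb / 10, Cd / 11, ea, eb, ed, ?_⟩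
  intro y hy
  have hy0 : y ≠ 0 := hy.1.ne'
  have e1 := ea y hy
  have e2 := eb y hy
  have e3 := ed y hy
  have s0 := scale_int φ hy.1.ne' 0
  have s10 := scale_int φ hy.1.ne' 10
  have s11 := scale_int φ hy.1.ne' 11
  simp only [pow_zero, one_mul, zero_add, pow_one] at s0
  rw [s0] at e1
  rw [s10] at e2
  rw [s11] at e3
  have hint : ∀ n : ℕ, IntervalIntegrable (fun r => r ^ n * φ (r * y)) volume 0 1 := by
    intro n
    rw [intervalIntegrable_iff_integrableOn_Ioo_of_le zero_le_one]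
    refine Integrable.of_bound (C := M) ?_ ?_
    · have : ContinuousOn (fun r => r ^ n * φ (r * y)) (Ioo 0 1) := by
        refine ContinuousOn.mul (by fun_prop) (hc.comp (by fun_prop) ?_)
        intro r hr
        exact ⟨mul_pos hr.1 hy.1, by nlinarith [hr.1, hr.2, hy.1, hy.2]⟩
      exact this.aestronglyMeasurable measurableSet_Ioo
    · refine (ae_restrict_iff' measurableSet_Ioo).2 (Eventually.of_forall fun r hr => ?_)
      have hm : r * y ∈ Ioo 0 Y := ⟨mul_pos hr.1 hy.1, by nlinarith [hr.1, hr.2, hy.1, hy.2]⟩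
      rw [Real.norm_eq_abs, abs_mul, abs_of_pos (pow_pos hr.1 n)]
      have h1 : r ^ n ≤ 1 := pow_le_one₀ hr.1.le hr.2.le
      calc r ^ n * |φ (r * y)| ≤ 1 * M :=
            mul_le_mul h1 (hb _ hm) (abs_nonneg _) zero_le_one
        _ = M := one_mul M
  have hk : ∫ r in (0 : ℝ)..1, ker r * φ (r * y) =
      (∫ r in (0 : ℝ)..1, φ (r * y)) / 110 - (∫ r in (0 : ℝ)..1, r ^ 10 * φ (r * y)) / 10 +
      (∫ r in (0 : ℝ)..1, r ^ 11 * φ (r * y)) / 11 := by
    have i0 := hint 0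
    simp only [pow_zero, one_mul] at i0
    rw [← intervalIntegral.integral_div, ← intervalIntegral.integral_div,
      ← intervalIntegral.integral_div, ← intervalIntegral.integral_sub (i0.div_const _)
        ((hint 10).div_const _), ← intervalIntegral.integral_add
        ((i0.div_const _).sub ((hint 10).div_const _)) ((hint 11).div_const _)]
    congr 1; ext r; unfold ker; ring
  rw [hk]
  have k9 : -Cb / 10 / y ^ 9 = (y ^ 2 * (∫ r in (0 : ℝ)..1, r ^ 10 * φ (r * y)) -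
      (y ^ 2 * u2 y + 10 * y * u1 y - 10 * u y)) / 10 := by
    rw [div_eq_iff (pow_ne_zero 9 hy0)]
    linear_combination (1 / 10) * e2
  have k10 : Cd / 11 / y ^ 10 = ((y ^ 2 * u2 y + 9 * y * u1 y - 9 * u y) -
      y ^ 2 * (∫ r in (0 : ℝ)..1, r ^ 11 * φ (r * y))) / 11 := by
    rw [div_eq_iff (pow_ne_zero 10 hy0)]
    linear_combination (-1 / 11) * e3
  rw [k9, k10]
  linear_combination (1 / 110) * e1

end Crest.Agent.R213.EZ
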